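import Crest.Agent.N76.L.Defs
import Crest.Agent.N76.L.EN

-- ▼ part N76/L/GP
section

/-! # Row 76, Part I (helper15): general position, perturbation of determinants, rotation. -/

set_option autoImplicit false

open Finset
open scoped RealInnerProductSpace

namespace Crest.Agent.N76.L

open Crest.Agent.N76.Red (V)

/-- the determinant with columns `(1, x j)` -/
noncomputable def dt {κ : ℕ} (x : Fin (κ + 1) → Fin κ → ℝ) : ℝ :=
  (Matrix.of fun i j : Fin (κ + 1) => (Fin.cons 1 (x j) : Fin (κ + 1) → ℝ) i).det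

/-- points not close to a hyperplane contain a large simplex -/
theorem gp {ι : Type*} (P : Finset ι) (hP : P.Nonempty) {δ : ℝ} (hδ : 0 < δ) :
    ∀ (κ : ℕ) (x : ι → Fin κ → ℝ),
      (∀ g : Fin κ → ℝ, ∑ l, g l ^ 2 = 1 → ∀ c : ℝ, ∃ a ∈ P, δ < |∑ l, g l * x a l - c|) →
      ∃ s : Fin (κ + 1) → ι, (∀ j, s j ∈ P) ∧ δ ^ κ ≤ |dt fun j => x (s j)| := by
  intro κ
  induction κ with
  | zero =>
    intro x _
    obtain ⟨a, ha⟩ := hP
    refine ⟨fun _ => a, fun _ => ha, ?_⟩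
    simp [dt, Matrix.det_unique]
  | succ κ ih =>
    intro x h
    obtain ⟨s, hs, hdet⟩ := ih (fun a => Fin.init (x a)) (by
      intro g hg c
      obtain ⟨a, ha, h1⟩ := h (Fin.snoc g 0) (by simpa [Fin.sum_univ_castSucc] using hg) c
      refine ⟨a, ha, ?_⟩
      simpa [Fin.sum_univ_castSucc, Fin.init] using h1)
    -- cofactors
    set cf : Fin (κ + 2) → ℝ := fun i => (-1) ^ (i : ℕ) *
      (Matrix.of fun i' j : Fin (κ + 1) =>
        (Fin.cons 1 (x (s j)) : Fin (κ + 2) → ℝ) (i.succAbove i')).det with hcf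
    have hF : ∀ a, dt (fun j => x ((Fin.cons a s : Fin (κ + 2) → ι) j)) =
        cf 0 + ∑ l : Fin (κ + 1), cf l.succ * x a l := by
      intro a
      unfold dt
      rw [Matrix.det_succ_column_zero, Fin.sum_univ_succ]
      simp only [hcf, Matrix.of_apply, Fin.cons_zero, Fin.cons_succ]
      congr 1
      · rw [mul_one]; rfl
      · refine sum_congr rfl fun l _ => ?_
        rw [mul_right_comm]; rfl
    have hlast : |cf (Fin.last (κ + 1))| = |dt fun j => Fin.init (x (s j))| := by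
      simp only [hcf, abs_mul, abs_pow, abs_neg, abs_one, one_pow, one_mul]
      congr 2
      ext i j
      simp only [Matrix.of_apply, Fin.succAbove_last]
      refine Fin.cases ?_ (fun i => ?_) i
      · simp
      · rw [← Fin.succ_castSucc]; simp [Fin.init]
    set G : ℝ := √(∑ l : Fin (κ + 1), cf l.succ ^ 2) with hG
    have hG1 : δ ^ κ ≤ G := by
      refine hdet.trans (hlast ▸ ?_)
      rw [hG]
      refine Real.abs_le_sqrt ?_
      rw [← Fin.succ_last]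
      exact single_le_sum (f := fun l : Fin (κ + 1) => cf l.succ ^ 2) (fun _ _ => sq_nonneg _)
        (mem_univ _)
    have hG0 : 0 < G := (pow_pos hδ κ).trans_le hG1
    have hG2 : G ^ 2 = ∑ l : Fin (κ + 1), cf l.succ ^ 2 :=
      Real.sq_sqrt (sum_nonneg fun _ _ => sq_nonneg _)
    obtain ⟨a, ha, h1⟩ := h (fun l => cf l.succ / G) (by
      simp only [div_pow]
      rw [← sum_div, ← hG2, div_self (by positivity)]) (-cf 0 / G)
    refine ⟨Fin.cons a s, fun j => Fin.cases ha hs j, ?_⟩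
    rw [hF]
    have h2 : ∑ l : Fin (κ + 1), cf l.succ / G * x a l - -cf 0 / G =
        (cf 0 + ∑ l : Fin (κ + 1), cf l.succ * x a l) / G := by
      rw [add_div, sum_div, neg_div, sub_neg_eq_add, add_comm]
      congr 1
      exact sum_congr rfl fun l _ => by ring
    rw [h2, abs_div, abs_of_pos hG0, lt_div_iff₀ hG0] at h1
    rw [pow_succ]
    nlinarith

theorem abs_prod_sub_prod {α : Type*} (s : Finset α) (f g : α → ℝ) {K η : ℝ} (hK : 1 ≤ K)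
    (hη : 0 ≤ η) (hf : ∀ a ∈ s, |f a| ≤ K) (hg : ∀ a ∈ s, |g a| ≤ K)
    (h : ∀ a ∈ s, |f a - g a| ≤ η) :
    |∏ a ∈ s, f a - ∏ a ∈ s, g a| ≤ s.card * K ^ s.card * η := by
  classical
  induction s using Finset.induction_on with
  | empty => simp
  | insert a s ha ih =>
    have ih' := ih (fun b hb => hf b (mem_insert_of_mem hb)) (fun b hb => hg b (mem_insert_of_mem hb))
      (fun b hb => h b (mem_insert_of_mem hb))
    rw [prod_insert ha, prod_insert ha, card_insert_of_notMem ha]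
    have h1 := hf a (mem_insert_self _ _)
    have h2 := h a (mem_insert_self _ _)
    have h3 : |∏ b ∈ s, g b| ≤ K ^ s.card := by
      rw [abs_prod, ← prod_const]
      exact prod_le_prod (fun _ _ => abs_nonneg _) fun b hb => hg b (mem_insert_of_mem hb)
    have h4 : f a * ∏ b ∈ s, f b - g a * ∏ b ∈ s, g b =
        f a * (∏ b ∈ s, f b - ∏ b ∈ s, g b) + (f a - g a) * ∏ b ∈ s, g b := by ring
    have hp : 0 ≤ K ^ s.card := by positivity
    rw [h4]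
    refine (abs_add_le _ _).trans ?_
    rw [abs_mul, abs_mul]
    have e1 : |f a| * |∏ b ∈ s, f b - ∏ b ∈ s, g b| ≤ K * (s.card * K ^ s.card * η) :=
      mul_le_mul h1 ih' (abs_nonneg _) (by linarith)
    have e2 : |f a - g a| * |∏ b ∈ s, g b| ≤ η * K ^ s.card := mul_le_mul h2 h3 (abs_nonneg _) hη
    have e3 : η * K ^ s.card ≤ K * (η * K ^ s.card) := le_mul_of_one_le_left (by positivity) hK
    push_cast
    rw [pow_succ]
    nlinarith

theorem dt_perturb {κ : ℕ} (x y : Fin (κ + 1) → Fin κ → ℝ) {K η : ℝ} (hK : 1 ≤ K) (hη : 0 ≤ η)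
    (hx : ∀ j l, |x j l| ≤ K) (hy : ∀ j l, |y j l| ≤ K) (h : ∀ j l, |x j l - y j l| ≤ η) :
    |dt x - dt y| ≤ (κ + 1).factorial * ((κ + 1) * K ^ (κ + 1) * η) := by
  unfold dt
  rw [Matrix.det_apply', Matrix.det_apply', ← sum_sub_distrib]
  refine (abs_sum_le_sum_abs _ _).trans ?_
  have hc : ((κ + 1).factorial : ℝ) = (univ : Finset (Equiv.Perm (Fin (κ + 1)))).card := by
    rw [card_univ, Fintype.card_perm, Fintype.card_fin]
  rw [hc, ← nsmul_eq_mul, ← sum_const]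
  refine sum_le_sum fun σ _ => ?_
  rw [← mul_sub, abs_mul]
  have hs : |(((Equiv.Perm.sign σ : ℤˣ) : ℤ) : ℝ)| = 1 := by
    rcases Int.units_eq_one_or (Equiv.Perm.sign σ) with h | h <;> simp [h]
  rw [hs, one_mul]
  have := abs_prod_sub_prod (univ : Finset (Fin (κ + 1)))
    (fun j => (Fin.cons 1 (x j) : Fin (κ + 1) → ℝ) (σ j))
    (fun j => (Fin.cons 1 (y j) : Fin (κ + 1) → ℝ) (σ j)) hK hη
    (fun j _ => Fin.cases (by simpa using hK) (fun l => by simpa using hx j l) (σ j))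
    (fun j _ => Fin.cases (by simpa using hK) (fun l => by simpa using hy j l) (σ j))
    (fun j _ => Fin.cases (by simpa using hη) (fun l => by simpa using h j l) (σ j))
  simpa using this

variable {n : ℕ}

/-- rotate the first `κ` vectors of an orthonormal basis so that a given unit combination becomes
the vector number `κ - 1` -/
theorem exists_rot (O : OrthonormalBasis (Fin n) ℝ (V n)) {κ : ℕ} (h1 : 1 ≤ κ) (hκ : κ ≤ n)
    (g : Fin κ → ℝ) (hg : ∑ l, g l ^ 2 = 1) :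
    ∃ O' : OrthonormalBasis (Fin n) ℝ (V n), (∀ l : Fin n, κ ≤ (l : ℕ) → O' l = O l) ∧
      O' ⟨κ - 1, by omega⟩ = ∑ l, g l • O (Fin.castLE hκ l) := by
  set u : V n := ∑ l, g l • O (Fin.castLE hκ l) with hu
  set v : V n := O ⟨κ - 1, by omega⟩ with hv
  have hon : Orthonormal ℝ (fun l : Fin κ => O (Fin.castLE hκ l)) :=
    O.orthonormal.comp _ (Fin.castLE_injective hκ)
  have hnu : ‖u‖ = 1 := by
    have : ⟪u, u⟫ = 1 := by
      rw [hu, hon.inner_sum]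
      simpa [sq] using hg
    rw [real_inner_self_eq_norm_sq] at this
    nlinarith [norm_nonneg u]
  have hnv : ‖v‖ = 1 := O.orthonormal.1 _
  refine ⟨O.map (ℝ ∙ (v - u))ᗮ.reflection, fun l hl => ?_, ?_⟩
  · rw [OrthonormalBasis.map_apply]
    refine Submodule.reflection_mem_subspace_eq_self ?_
    rw [Submodule.mem_orthogonal_singleton_iff_inner_right, inner_sub_left, hv, hu, sum_inner]
    have e1 : ⟪O ⟨κ - 1, by omega⟩, O l⟫ = 0 :=
      O.orthonormal.2 (by intro h; have := congrArg Fin.val h; simp at this; omega)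
    have e2 : ∀ m : Fin κ, ⟪g m • O (Fin.castLE hκ m), O l⟫ = 0 := fun m => by
      rw [real_inner_smul_left, O.orthonormal.2 (by
        intro h; have := congrArg Fin.val h; have := m.2; simp at *; omega), mul_zero]
    simp [e1, e2]
  · rw [OrthonormalBasis.map_apply]
    exact Submodule.reflection_sub (hnv.trans hnu.symm)

end Crest.Agent.N76.L
end

-- ▼ part N76/L/Frame
section

/-! # Row 76, Part I (helper15): slices.  A broad set of nodes splits into groups (same cell, same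
leaf, same tuple of transversal caps). -/

set_option autoImplicit false

open Finset
open scoped RealInnerProductSpace

namespace Crest.Agent.N76.L

open Crest.Agent.N76.Red (V)
open Crest.Agent.N76.G

variable {n M : ℕ}

/-- tangential coordinates of the direction `ζ` relative to `ζp` -/
noncomputable def tv (O : OrthonormalBasis (Fin n) ℝ (V n)) {κ : ℕ} (hκ : κ ≤ n) (r : ℝ)
    (ζp ζ : V n) : Fin κ → ℝ :=
  fun l => -2 * r * ⟪O (Fin.castLE hκ l), ζ - ζp⟫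

/-- the leaf functional -/
noncomputable def lf (k i : ℕ) (ζ₀ : V n) (c : Nd n) : V n := ctr k i c + (2 * tm k i c) • ζ₀

theorem abs_inner_le (O : OrthonormalBasis (Fin n) ℝ (V n)) (l : Fin n) (x : V n) :
    |⟪O l, x⟫| ≤ ‖x‖ := by
  have := abs_real_inner_le_norm (O l) x
  rwa [O.orthonormal.1 l, one_mul] at this

theorem fq_congr (k i : ℕ) {c c' : Nd n} (h : c.2.2 = c'.2.2) : fq k i c = fq k i c' := by
  simp only [fq, h]

theorem Nr.fq_le {k : ℕ} {Λ : ℝ} (hΛ : 0 ≤ Λ) {i j : ℕ} (hj : j ≤ M) {c c' : Nd n}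
    (h : Nr k Λ i j c c') : ‖fq k j c' - fq k i c‖ ≤ Λ * M / (k : ℝ) ^ i := by
  refine h.2.1.trans ?_
  have : (j : ℝ) - i ≤ M := by
    have : (j : ℝ) ≤ M := by exact_mod_cast hj
    linarith [Nat.cast_nonneg (α := ℝ) i]
  gcongr

theorem Nr.ps_le {k : ℕ} {Λ : ℝ} (hΛ : 0 ≤ Λ) {i j : ℕ} (hj : j ≤ M) {c c' : Nd n}
    (h : Nr k Λ i j c c') : ‖ps k j c' (tm k i c) - ctr k i c‖ ≤ Λ * M * (k : ℝ) ^ j := by
  refine h.2.2.trans ?_
  have : (j : ℝ) - i ≤ M := by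
    have : (j : ℝ) ≤ M := by exact_mod_cast hj
    linarith [Nat.cast_nonneg (α := ℝ) i]
  gcongr

theorem Nr.tm_le {k : ℕ} (hk : 1 ≤ k) {Λ : ℝ} {i j : ℕ} (hij : i ≤ j) {c c' : Nd n}
    (h : Nr k Λ i j c c') : |tm k i c - tm k j c'| ≤ (k : ℝ) ^ (2 * j) := by
  obtain ⟨h1, h2⟩ := tm_bounds hk hij h.1
  have : (0 : ℝ) ≤ (k : ℝ) ^ (2 * i) := by positivity
  rw [abs_le]; constructor <;> linarith [pow_nonneg (Nat.cast_nonneg (α := ℝ) k) (2 * j)]

/-- numerical consequences of `Std` -/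
theorem Tw.Std.num {T : Tw n M} (h : T.Std) :
    1 ≤ T.k ∧ (1 : ℝ) ≤ T.k ∧ 1 ≤ T.Λ ∧ (M : ℝ) ≤ T.Λ / 100 ∧ (n : ℝ) ≤ T.Λ / 100 ∧
      T.Λ ^ 3 ≤ T.k := by
  have h1 := h.k_ge
  obtain ⟨h2, h3, h4, _⟩ := h.Λ_ge
  have h6 : 1 ≤ T.k := by omega
  refine ⟨h6, by exact_mod_cast h6, by linarith, by linarith, by linarith, ?_⟩
  exact (pow_le_pow_right₀ (by linarith) (by norm_num)).trans h.2

/-- moving the base time of a near pair -/
theorem Nr.ps_at {k : ℕ} {Λ : ℝ} (hΛ : 0 ≤ Λ) {i j : ℕ} (hj : j ≤ M) {c c' : Nd n}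
    (h : Nr k Λ i j c c') (t τ : ℝ) (ht : |t - tm k i c| ≤ τ) :
    ‖ps k j c' t - ps k i c t‖ ≤ Λ * M * (k : ℝ) ^ j + 2 * τ * (Λ * M / (k : ℝ) ^ i) := by
  have e : ps k j c' t - ps k i c t = (ps k j c' (tm k i c) - ctr k i c) -
      (2 * (t - tm k i c)) • (fq k j c' - fq k i c) := by
    rw [ps_sub k j c' t (tm k i c), ps_sub k i c t (tm k i c), ps_tm, smul_sub]; abel
  rw [e]
  refine (norm_sub_le _ _).trans (add_le_add (h.ps_le hΛ hj) ?_)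
  rw [norm_smul, Real.norm_eq_abs, abs_mul, abs_two]
  exact mul_le_mul (by linarith) (h.fq_le hΛ hj) (norm_nonneg _)
    (by linarith [abs_nonneg (t - tm k i c)])

/-- absorption: a node near one node of a cell has a descendant near every node of the cell -/
theorem Tw.cell_absorb (T : Tw n M) (hT : T.Std) {b a₁ : ℕ} (ha : 1 ≤ a₁) (hM : b + a₁ + 1 ≤ M)
    {c c₀ : Nd n} (hcell : cell T.k b a₁ c = cell T.k b a₁ c₀) {c' : Nd n}
    (h : Nr T.k T.Λ b (b + a₁ + 1) c c') (hs : ‖ps T.k (b + a₁ + 1) c' (tm T.k b c) - ctr T.k b c‖ ≤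
      3 / 2 * T.Λ * (T.k : ℝ) ^ (b + a₁ + 1)) :
    Nr T.k T.Λ b (b + a₁ + 1) c₀ c' := by
  obtain ⟨hk, hk', hΛ, hMΛ, hnΛ, hΛk⟩ := hT.num
  obtain ⟨e1, e2, e3, e4⟩ := cell_eq hk hcell
  refine ⟨?_, ?_, ?_⟩
  · rw [h.1]
    have : 2 * (b + a₁ + 1 - b) = a₁ + (a₁ + 2) := by omega
    rw [this, ← ediv_ediv hk c.1 a₁, ← ediv_ediv hk c₀.1 a₁, e2]
  · rw [← fq_congr T.k b e1]; exact h.2.1
  · have e5 : ps T.k (b + a₁ + 1) c' (tm T.k b c₀) - ctr T.k b c₀ =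
        (ps T.k (b + a₁ + 1) c' (tm T.k b c) - ctr T.k b c) -
          (2 * (tm T.k b c₀ - tm T.k b c)) • (fq T.k (b + a₁ + 1) c' - fq T.k b c) +
          (ps T.k b c (tm T.k b c₀) - ps T.k b c₀ (tm T.k b c₀)) := by
      rw [ps_sub T.k _ c' (tm T.k b c₀) (tm T.k b c), ps_sub T.k b c (tm T.k b c₀) (tm T.k b c),
        ps_tm, ps_tm, smul_sub]; abel
    rw [e5]
    have e6 : ‖(2 * (tm T.k b c₀ - tm T.k b c)) • (fq T.k (b + a₁ + 1) c' - fq T.k b c)‖ ≤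
        2 * (T.k : ℝ) ^ (2 * b + a₁) * (T.Λ * M / (T.k : ℝ) ^ b) := by
      rw [norm_smul, Real.norm_eq_abs, abs_mul, abs_two, abs_sub_comm]
      exact mul_le_mul (by linarith) (h.fq_le (by linarith) hM) (norm_nonneg _) (by positivity)
    have e7 : 2 * (T.k : ℝ) ^ (2 * b + a₁) * (T.Λ * M / (T.k : ℝ) ^ b) =
        2 * T.Λ * M * (T.k : ℝ) ^ (b + a₁) := by
      rw [show 2 * b + a₁ = b + a₁ + b by omega, pow_add _ _ b]; field_simp
    have e8 := e4 (tm T.k b c₀)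
    refine (norm_add_le _ _).trans ((add_le_add (norm_sub_le _ _) le_rfl).trans ?_)
    have hp : (0 : ℝ) < (T.k : ℝ) ^ (b + a₁) := by positivity
    have ha' : (1 : ℝ) ≤ a₁ := by exact_mod_cast ha
    have e9 : 2 * T.Λ * M + n ≤ T.Λ / 2 * T.k := by
      have : 2 * (M : ℝ) + 1 ≤ T.k / 2 := by linarith [hT.Λ_ge.1, hT.Λ_ge.2.2.2]
      nlinarith
    push_cast
    rw [pow_succ] at hs ⊢
    have e10 : T.Λ * 2 * ((T.k : ℝ) ^ (b + a₁) * T.k) ≤
        T.Λ * (b + a₁ + 1 - b) * ((T.k : ℝ) ^ (b + a₁) * T.k) := by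
      gcongr; linarith
    nlinarith

/-- narrowness at one node gives one plane for the whole cell -/
theorem Tw.cell_slab (T : Tw n M) (hT : T.Std) {κ b a₁ : ℕ} (ha : 1 ≤ a₁)
    (hN : κ = n ∨ (b + a₁ + 1 ≤ M ∧ T.Nar b (b + a₁ + 1) κ)) {c₀ : Nd n} (hc₀ : c₀ ∈ T.al b) :
    ∃ (O : OrthonormalBasis (Fin n) ℝ (V n)) (ζ₀ : V n), ∀ c, cell T.k b a₁ c = cell T.k b a₁ c₀ →
      ∀ j, b ≤ j → j ≤ b + a₁ → ∀ c' ∈ T.nr b j c,
        Slab O κ ζ₀ (T.Λ ^ 2 / (T.k : ℝ) ^ j) (fq T.k j c') := by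
  rcases hN with rfl | ⟨hM, hN⟩
  · exact ⟨EuclideanSpace.basisFun _ _, 0, fun _ _ _ _ _ _ _ l hl => absurd l.2 (by omega)⟩
  obtain ⟨hk, hk', hΛ, hMΛ, hnΛ, hΛk⟩ := hT.num
  have hk2 := hT.k_ge
  obtain ⟨O, ζ₀, h⟩ := hN c₀ hc₀
  refine ⟨O, ζ₀, fun c hc j hj hj' c' hc' l hl => ?_⟩
  obtain ⟨hc'1, hc'2⟩ := T.mem_nr.1 hc'
  obtain ⟨c₂, hc₂⟩ := T.nr_nonempty hj' (by omega) hc'1
  obtain ⟨hc₂1, hc₂2⟩ := T.mem_nr.1 hc₂
  obtain ⟨c₃, hc₃⟩ := T.nr_nonempty (Nat.le_succ (b + a₁)) hM hc₂1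
  obtain ⟨hc₃1, hc₃2⟩ := T.mem_nr.1 hc₃
  have h2 : Nr T.k T.Λ b (b + a₁) c c₂ :=
    Nr.trans (by linarith) hj hj' (by omega) hc'2 hc₂2
  have h3 : Nr T.k T.Λ b (b + a₁ + 1) c c₃ :=
    Nr.trans (by linarith) (by omega) (Nat.le_succ _) (by omega) h2 hc₃2
  have h3' : Nr T.k T.Λ j (b + a₁ + 1) c' c₃ :=
    Nr.trans (by linarith) hj' (Nat.le_succ _) (by omega) hc₂2 hc₃2
  have hp : (0 : ℝ) < (T.k : ℝ) ^ (b + a₁) := by positivity
  have h4 : ‖ps T.k (b + a₁ + 1) c₃ (tm T.k b c) - ctr T.k b c‖ ≤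
      3 / 2 * T.Λ * (T.k : ℝ) ^ (b + a₁ + 1) := by
    have e : ps T.k (b + a₁ + 1) c₃ (tm T.k b c) - ctr T.k b c =
        (ps T.k (b + a₁ + 1) c₃ (tm T.k (b + a₁) c₂) - ctr T.k (b + a₁) c₂) -
          (2 * (tm T.k b c - tm T.k (b + a₁) c₂)) • (fq T.k (b + a₁ + 1) c₃ - fq T.k (b + a₁) c₂) +
          (ps T.k (b + a₁) c₂ (tm T.k b c) - ctr T.k b c) := by
      rw [ps_sub T.k _ c₃ (tm T.k b c) (tm T.k (b + a₁) c₂),
        ps_sub T.k _ c₂ (tm T.k b c) (tm T.k (b + a₁) c₂), ps_tm, smul_sub]; abel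
    rw [e]
    have e1 := hc₃2.2.2
    have e2 := hc₃2.2.1
    have e3 := h2.ps_le (by linarith) (by omega : b + a₁ ≤ M)
    have e4 := h2.tm_le hk (by omega)
    have e5 : ‖(2 * (tm T.k b c - tm T.k (b + a₁) c₂)) •
        (fq T.k (b + a₁ + 1) c₃ - fq T.k (b + a₁) c₂)‖ ≤ 2 * T.Λ * (T.k : ℝ) ^ (b + a₁) := by
      rw [norm_smul, Real.norm_eq_abs, abs_mul, abs_two]
      refine (mul_le_mul (mul_le_mul_of_nonneg_left e4 two_pos.le) e2 (norm_nonneg _)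
        (by positivity)).trans (le_of_eq ?_)
      push_cast
      rw [two_mul (b + a₁), pow_add _ (b + a₁)]; field_simp; ring
    refine (norm_add_le _ _).trans ((add_le_add (norm_sub_le _ _) le_rfl).trans ?_)
    have e6 : 2 * T.Λ + T.Λ * M ≤ T.Λ / 2 * T.k := by
      have : 2 + (M : ℝ) ≤ T.k / 2 := by linarith [hT.Λ_ge.1, hT.Λ_ge.2.2.2]
      nlinarith
    push_cast at e1
    rw [pow_succ] at e1 ⊢
    nlinarith
  have h5 := h c₃ hc₃1 (T.cell_absorb hT ha hM hc h3 h4) l hl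
  have h6 := h3'.fq_le (by linarith) hM
  have e : fq T.k j c' - ζ₀ = (fq T.k (b + a₁ + 1) c₃ - ζ₀) -
      (fq T.k (b + a₁ + 1) c₃ - fq T.k j c') := by abel
  rw [e, inner_sub_right]
  refine (abs_sub _ _).trans ((add_le_add h5 ((abs_inner_le O l _).trans h6)).trans ?_)
  have hq : (0 : ℝ) < (T.k : ℝ) ^ j := by positivity
  have e7 : (T.k : ℝ) ^ j * 2 ≤ (T.k : ℝ) ^ (b + a₁ + 1) := by
    rw [pow_succ]
    exact mul_le_mul (pow_le_pow_right₀ hk' hj') (by exact_mod_cast (by omega : 2 ≤ T.k))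
      (by norm_num) hp.le
  have e8 : T.Λ ^ 2 / (T.k : ℝ) ^ (b + a₁ + 1) ≤ T.Λ ^ 2 / ((T.k : ℝ) ^ j * 2) := by gcongr
  refine (add_le_add e8 le_rfl).trans ?_
  rw [← div_div, div_add' _ _ _ (two_ne_zero), div_le_iff₀ two_pos, ← sub_nonneg]
  have : T.Λ ^ 2 / (T.k : ℝ) ^ j * 2 - (T.Λ ^ 2 / (T.k : ℝ) ^ j + T.Λ * M / (T.k : ℝ) ^ j * 2) =
      (T.Λ ^ 2 - 2 * T.Λ * M) / (T.k : ℝ) ^ j := by ring
  rw [this]
  exact div_nonneg (by nlinarith) hq.le

/-- a broad node has `κ + 1` near nodes in general position -/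
theorem Tw.exists_tuple (T : Tw n M) (hT : T.Std) {κ b m₀ b' : ℕ} (h1 : 1 ≤ κ) (hκ : κ ≤ n)
    (hb : b + m₀ ≤ b') (hb' : b' ≤ M) {c : Nd n} (hc : c ∈ T.al b)
    (hN : ¬ NarAt T.k T.Λ b (b + m₀) (T.al (b + m₀)) (κ - 1) c)
    (O : OrthonormalBasis (Fin n) ℝ (V n)) (ζ₀ : V n)
    (hs : ∀ c' ∈ T.nr b (b + m₀) c,
      Slab O κ ζ₀ (T.Λ ^ 2 / (T.k : ℝ) ^ (b + m₀)) (fq T.k (b + m₀) c')) :
    ∃ cs : Fin (κ + 1) → Nd n, (∀ j, cs j ∈ T.nr b b' c) ∧
      (1 / (T.k : ℝ) ^ m₀) ^ κ ≤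
        |dt fun j => tv O hκ ((T.k : ℝ) ^ b) (fq T.k b c) (fq T.k b' (cs j))| := by
  obtain ⟨hk, hk', hΛ, hMΛ, hnΛ, hΛk⟩ := hT.num
  have hk2 := hT.k_ge
  refine gp (T.nr b b' c) (T.nr_nonempty (by omega) hb' hc) (by positivity) κ
    (fun c' => tv O hκ ((T.k : ℝ) ^ b) (fq T.k b c) (fq T.k b' c')) fun g hg c₀ => ?_
  by_contra hcon
  push Not at hcon
  obtain ⟨O', hO1, hO2⟩ := exists_rot O h1 hκ g hg
  set u : V n := ∑ l, g l • O (Fin.castLE hκ l) with hu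
  have hp : (0 : ℝ) < (T.k : ℝ) ^ b := by positivity
  have hq : (0 : ℝ) < (T.k : ℝ) ^ m₀ := by positivity
  have huu : ⟪u, u⟫ = 1 := by
    rw [← hO2, real_inner_self_eq_norm_sq, O'.orthonormal.1]; norm_num
  refine hN ⟨O', ζ₀ + (⟪u, fq T.k b c - ζ₀⟫ - c₀ / (2 * (T.k : ℝ) ^ b)) • u, ?_⟩
  intro c₁ hc₁ hn₁ l hl
  rcases Nat.lt_or_ge l κ with hlt | hge
  · have hl' : l = ⟨κ - 1, by omega⟩ := Fin.ext (by simp; omega)
    obtain ⟨c₂, hc₂⟩ := T.nr_nonempty hb hb' hc₁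
    obtain ⟨hc₂1, hc₂2⟩ := T.mem_nr.1 hc₂
    have h2 := hcon c₂ (T.mem_nr.2 ⟨hc₂1, Nr.trans (by linarith) (by omega) hb (by omega) hn₁ hc₂2⟩)
    have h3 : ∑ l, g l * tv O hκ ((T.k : ℝ) ^ b) (fq T.k b c) (fq T.k b' c₂) l =
        -2 * (T.k : ℝ) ^ b * ⟪u, fq T.k b' c₂ - fq T.k b c⟫ := by
      rw [hu, sum_inner, mul_sum]
      refine sum_congr rfl fun l _ => ?_
      rw [real_inner_smul_left, tv]; ring
    rw [h3] at h2
    have h4 := (abs_inner_le O' l _).trans (hc₂2.fq_le (by linarith) hb')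
    rw [hl', hO2] at h4 ⊢
    have e : ⟪u, fq T.k (b + m₀) c₁ -
        (ζ₀ + (⟪u, fq T.k b c - ζ₀⟫ - c₀ / (2 * (T.k : ℝ) ^ b)) • u)⟫ =
        -(-2 * (T.k : ℝ) ^ b * ⟪u, fq T.k b' c₂ - fq T.k b c⟫ - c₀) / (2 * (T.k : ℝ) ^ b) -
          ⟪u, fq T.k b' c₂ - fq T.k (b + m₀) c₁⟫ := by
      simp only [inner_sub_right, inner_add_right, real_inner_smul_right, huu]
      field_simp; ring
    rw [e]
    refine (abs_sub _ _).trans ?_
    rw [abs_div, abs_neg, abs_of_pos (by positivity : (0 : ℝ) < 2 * (T.k : ℝ) ^ b)]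
    have e2 : |-2 * (T.k : ℝ) ^ b * ⟪u, fq T.k b' c₂ - fq T.k b c⟫ - c₀| / (2 * (T.k : ℝ) ^ b) ≤
        1 / (T.k : ℝ) ^ m₀ / (2 * (T.k : ℝ) ^ b) := by gcongr
    refine (add_le_add e2 h4).trans ?_
    rw [pow_add, ← sub_nonneg]
    have : T.Λ ^ 2 / ((T.k : ℝ) ^ b * (T.k : ℝ) ^ m₀) -
        (1 / (T.k : ℝ) ^ m₀ / (2 * (T.k : ℝ) ^ b) + T.Λ * M / ((T.k : ℝ) ^ b * (T.k : ℝ) ^ m₀)) =
        (T.Λ ^ 2 - 1 / 2 - T.Λ * M) / ((T.k : ℝ) ^ b * (T.k : ℝ) ^ m₀) := by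
      field_simp; ring
    rw [this]
    exact div_nonneg (by nlinarith) (by positivity)
  · have h2 := hs c₁ (T.mem_nr.2 ⟨hc₁, hn₁⟩) l hge
    have h3 : ⟪O' l, u⟫ = 0 := by
      rw [← hO2]
      exact O'.orthonormal.2 (by intro h; have := congrArg Fin.val h; simp at this; omega)
    rw [← sub_sub, inner_sub_right, real_inner_smul_right, h3, mul_zero, sub_zero, hO1 l hge]
    exact h2

end Crest.Agent.N76.L
end

-- ▼ part N76/L/Groups
section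

/-! # Row 76, Part I (helper15): the decomposition into groups and the counting of labels. -/

set_option autoImplicit false

open Finset
open scoped RealInnerProductSpace

namespace Crest.Agent.N76.L

open Crest.Agent.N76.Red (V)
open Crest.Agent.N76.G

variable {n M : ℕ}

/-- a group: same cell, same leaf, same transversal caps -/
structure Grp (T : Tw n M) {κ : ℕ} (hκ : κ ≤ n) (b m₀ b' a a₁ : ℕ) (G : Finset (Nd n))
    (O : OrthonormalBasis (Fin n) ℝ (V n)) (ζ₀ : V n) (cs : Nd n → Fin (κ + 1) → Nd n) : Prop where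
  sub : G ⊆ T.al b
  cell : ∀ c ∈ G, ∀ c' ∈ G, cell T.k b a₁ c = cell T.k b a₁ c'
  slab : ∀ c ∈ G, ∀ j, b ≤ j → j ≤ b + a₁ → ∀ c' ∈ T.nr b j c,
    Slab O κ ζ₀ (T.Λ ^ 2 / (T.k : ℝ) ^ j) (fq T.k j c')
  leaf : ∀ c ∈ G, ∀ c' ∈ G, Slab O κ (lf T.k b ζ₀ c') ((T.k : ℝ) ^ (b + a)) (lf T.k b ζ₀ c)
  near : ∀ c ∈ G, ∀ j, cs c j ∈ T.nr b b' c
  caps : ∀ c ∈ G, ∀ c' ∈ G, ∀ j, (cs c j).2.2 = (cs c' j).2.2
  det : ∀ c ∈ G, (1 / (T.k : ℝ) ^ m₀) ^ κ ≤
    |dt fun j => tv O hκ ((T.k : ℝ) ^ b) (fq T.k b c) (fq T.k b' (cs c j))|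

/-- labels -/
abbrev Lab (n κ : ℕ) := Nd n × ({l : Fin n // κ ≤ (l : ℕ)} → ℤ) × (Fin (κ + 1) → Fin n → ℤ)

theorem card_normal {κ : ℕ} : Fintype.card {l : Fin n // κ ≤ (l : ℕ)} = n - κ := by
  rw [Fintype.card_subtype]
  have : (univ.filter fun l : Fin n => κ ≤ (l : ℕ)).map Fin.valEmbedding = Ico κ n := by
    ext x
    simp only [mem_map, mem_filter, mem_univ, true_and, Fin.valEmbedding_apply, mem_Ico]
    exact ⟨fun ⟨l, h1, h2⟩ => ⟨h2 ▸ h1, h2 ▸ l.2⟩, fun ⟨h1, h2⟩ => ⟨⟨x, h2⟩, h1, rfl⟩⟩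
  rw [← card_map Fin.valEmbedding, this, Nat.card_Ico]

theorem card_img_le {α β γ : Type*} [DecidableEq β] [DecidableEq γ] (S : Finset α) (f : α → β)
    (g : α → γ) {K : ℝ} (h : ∀ a ∈ S, (((S.filter fun x => g x = g a).image f).card : ℝ) ≤ K) :
    ((S.image f).card : ℝ) ≤ K * (S.image g).card := by
  have h1 : S.image f ⊆ (S.image g).biUnion fun y => (S.filter fun x => g x = y).image f := by
    intro z hz
    obtain ⟨a, ha, rfl⟩ := mem_image.1 hz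
    exact mem_biUnion.2 ⟨g a, mem_image_of_mem _ ha, mem_image_of_mem _ (mem_filter.2 ⟨ha, rfl⟩)⟩
  have h2 : ((S.image f).card : ℝ) ≤
      ∑ y ∈ S.image g, (((S.filter fun x => g x = y).image f).card : ℝ) := by
    exact_mod_cast (card_le_card h1).trans card_biUnion_le
  refine h2.trans ?_
  rw [mul_comm, ← nsmul_eq_mul, ← sum_const]
  refine sum_le_sum fun y hy => ?_
  obtain ⟨a, ha, rfl⟩ := mem_image.1 hy
  exact h a ha

theorem card_img_pair {α β γ : Type*} [DecidableEq β] [DecidableEq γ] (S : Finset α) (f : α → β)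
    (g : α → γ) : ((S.image fun a => (f a, g a)).card : ℝ) ≤ (S.image f).card * (S.image g).card := by
  have : (S.image fun a => (f a, g a)) ⊆ S.image f ×ˢ S.image g := by
    intro z hz
    obtain ⟨a, ha, rfl⟩ := mem_image.1 hz
    exact mem_product.2 ⟨mem_image_of_mem _ ha, mem_image_of_mem _ ha⟩
  have := card_le_card this
  rw [card_product] at this
  exact_mod_cast this

theorem sum_card_img {α β γ : Type*} [DecidableEq β] [DecidableEq γ] (S : Finset α) (f : α → β)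
    (g : α → γ) : ∑ y ∈ S.image g, (((S.filter fun x => g x = y).image f).card : ℝ) =
      (S.image fun a => (g a, f a)).card := by
  rw [card_eq_sum_card_fiberwise (s := S.image fun a => (g a, f a)) (t := S.image g)
    (f := Prod.fst) (by
      intro z hz
      obtain ⟨a, ha, rfl⟩ := mem_image.1 (mem_coe.1 hz)
      exact mem_coe.2 (mem_image_of_mem _ ha))]
  push_cast
  refine sum_congr rfl fun y _ => ?_
  congr 1
  refine card_bij (fun z _ => (y, z)) ?_ (fun _ _ _ _ h => (Prod.ext_iff.1 h).2) ?_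
  · intro z hz
    obtain ⟨a, ha, rfl⟩ := mem_image.1 hz
    obtain ⟨h1, h2⟩ := mem_filter.1 ha
    exact mem_filter.2 ⟨mem_image.2 ⟨a, h1, by rw [h2]⟩, rfl⟩
  · intro z hz
    obtain ⟨h1, h2⟩ := mem_filter.1 hz
    obtain ⟨a, ha, rfl⟩ := mem_image.1 h1
    exact ⟨f a, mem_image_of_mem _ (mem_filter.2 ⟨ha, h2⟩), by rw [← h2]⟩

/-- the data of a decomposition -/
structure Dec (T : Tw n M) {κ : ℕ} (hκ : κ ≤ n) (b m₀ b' a a₁ : ℕ) (N : Finset (Nd n))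
    (O : Nd n → OrthonormalBasis (Fin n) ℝ (V n)) (ζ₀ : Nd n → V n)
    (cs : Nd n → Fin (κ + 1) → Nd n) (gl : Nd n → Lab n κ) : Prop where
  sub : N ⊆ T.al b
  gl_eq : ∀ c, gl c = (cell T.k b a₁ c,
    fun l => ⌊⟪O (cell T.k b a₁ c) l.1, lf T.k b (ζ₀ (cell T.k b a₁ c)) c⟫ / (T.k : ℝ) ^ (b + a)⌋,
    fun j => (cs c j).2.2)
  slab : ∀ c ∈ N, ∀ j, b ≤ j → j ≤ b + a₁ → ∀ c' ∈ T.nr b j c,
    Slab (O (cell T.k b a₁ c)) κ (ζ₀ (cell T.k b a₁ c)) (T.Λ ^ 2 / (T.k : ℝ) ^ j) (fq T.k j c')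
  near : ∀ c ∈ N, ∀ j, cs c j ∈ T.nr b b' c
  det : ∀ c ∈ N, (1 / (T.k : ℝ) ^ m₀) ^ κ ≤
    |dt fun j => tv (O (cell T.k b a₁ c)) hκ ((T.k : ℝ) ^ b) (fq T.k b c) (fq T.k b' (cs c j))|

theorem Tw.exists_dec (T : Tw n M) (hT : T.Std) {κ b m₀ b' a₁ : ℕ} (a : ℕ) (h1 : 1 ≤ κ)
    (hκ : κ ≤ n) (hm : 1 ≤ m₀) (hma : m₀ ≤ a₁) (hb : b + m₀ ≤ b') (hb' : b' ≤ M)
    {N : Finset (Nd n)} (hN : N ⊆ T.al b) (hbr : ¬ T.Nar b (b + m₀) (κ - 1))
    (hnar : κ = n ∨ (b + a₁ + 1 ≤ M ∧ T.Nar b (b + a₁ + 1) κ)) :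
    ∃ O ζ₀ cs gl, Dec T hκ b m₀ b' a a₁ N O ζ₀ cs gl := by
  have h2 : ∀ B : Nd n, ∃ (O : OrthonormalBasis (Fin n) ℝ (V n)) (ζ₀ : V n), ∀ c ∈ N,
      cell T.k b a₁ c = B → ∀ j, b ≤ j → j ≤ b + a₁ → ∀ c' ∈ T.nr b j c,
        Slab O κ ζ₀ (T.Λ ^ 2 / (T.k : ℝ) ^ j) (fq T.k j c') := by
    intro B
    by_cases h : ∃ c₀ ∈ N, cell T.k b a₁ c₀ = B
    · obtain ⟨c₀, h0, rfl⟩ := h
      obtain ⟨O, ζ₀, h⟩ := T.cell_slab hT (hm.trans hma) hnar (hN h0)
      exact ⟨O, ζ₀, fun c _ hc => h c hc⟩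
    · exact ⟨EuclideanSpace.basisFun _ _, 0, fun c hc hB => absurd ⟨c, hc, hB⟩ h⟩
  choose O ζ₀ hO using h2
  have h3 : ∀ c : Nd n, ∃ cs : Fin (κ + 1) → Nd n, c ∈ N → (∀ j, cs j ∈ T.nr b b' c) ∧
      (1 / (T.k : ℝ) ^ m₀) ^ κ ≤ |dt fun j => tv (O (cell T.k b a₁ c)) hκ ((T.k : ℝ) ^ b)
        (fq T.k b c) (fq T.k b' (cs j))| := by
    intro c
    by_cases hc : c ∈ N
    · have hn : ¬ NarAt T.k T.Λ b (b + m₀) (T.al (b + m₀)) (κ - 1) c := fun h =>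
        hbr fun c' hc' => T.narc b (b + m₀) (κ - 1) (by omega) (by omega) c (hN hc) c' hc' h
      obtain ⟨cs, h⟩ := T.exists_tuple hT h1 hκ hb hb' (hN hc) hn _ _
        (hO _ c hc rfl (b + m₀) (by omega) (by omega))
      exact ⟨cs, fun _ => h⟩
    · exact ⟨fun _ => c, fun h => absurd h hc⟩
  choose cs hcs using h3
  exact ⟨O, ζ₀, cs, _, hN, fun _ => rfl, fun c hc => hO _ c hc rfl, fun c hc => (hcs c hc).1,
    fun c hc => (hcs c hc).2⟩

namespace Dec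

variable {T : Tw n M} {κ : ℕ} {hκ : κ ≤ n} {b m₀ b' a a₁ : ℕ} {N : Finset (Nd n)}
  {O : Nd n → OrthonormalBasis (Fin n) ℝ (V n)} {ζ₀ : Nd n → V n}
  {cs : Nd n → Fin (κ + 1) → Nd n} {gl : Nd n → Lab n κ}

theorem grp (D : Dec T hκ b m₀ b' a a₁ N O ζ₀ cs gl) (hk : 1 ≤ T.k) (y : Lab n κ) :
    Grp T hκ b m₀ b' a a₁ (N.filter fun c => gl c = y) (O y.1) (ζ₀ y.1) cs := by
  have h1 : ∀ c ∈ N.filter fun c => gl c = y, cell T.k b a₁ c = y.1 := fun c hc => by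
    rw [← (mem_filter.1 hc).2, D.gl_eq]
  refine ⟨(filter_subset _ _).trans D.sub, fun c hc c' hc' => (h1 c hc).trans (h1 c' hc').symm,
    fun c hc => h1 c hc ▸ D.slab c (mem_filter.1 hc).1, fun c hc c' hc' l hl => ?_,
    fun c hc => D.near c (mem_filter.1 hc).1, fun c hc c' hc' j => ?_,
    fun c hc => h1 c hc ▸ D.det c (mem_filter.1 hc).1⟩
  · have h2 := (mem_filter.1 hc).2.trans (mem_filter.1 hc').2.symm
    rw [D.gl_eq, D.gl_eq, h1 c hc, h1 c' hc'] at h2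
    have h3 := congrFun (Prod.ext_iff.1 (Prod.ext_iff.1 h2).2).1 ⟨l, hl⟩
    have h4 := (Int.abs_sub_lt_one_of_floor_eq_floor h3).le
    have hp : (0 : ℝ) < (T.k : ℝ) ^ (b + a) := by positivity
    rwa [← sub_div, abs_div, abs_of_pos hp, div_le_one hp, ← inner_sub_right] at h4
  · have h2 := (mem_filter.1 hc).2.trans (mem_filter.1 hc').2.symm
    rw [D.gl_eq, D.gl_eq] at h2
    exact congrFun (Prod.ext_iff.1 (Prod.ext_iff.1 h2).2).2 j

/-- number of labels of a set with few cells, on which the leaf functional varies little -/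
theorem card_lab (D : Dec T hκ b m₀ b' a a₁ N O ζ₀ cs gl) (hT : T.Std) (hbb : b ≤ b') (hb' : b' ≤ M)
    {S : Finset (Nd n)} (hS : S ⊆ N) {ρ : ℝ} (hρ : 0 ≤ ρ)
    (h : ∀ c ∈ S, ∀ c' ∈ S, cell T.k b a₁ c = cell T.k b a₁ c' →
      Slab (O (cell T.k b a₁ c')) κ (lf T.k b (ζ₀ (cell T.k b a₁ c')) c') (ρ * (T.k : ℝ) ^ (b + a))
        (lf T.k b (ζ₀ (cell T.k b a₁ c')) c)) :
    ((S.image gl).card : ℝ) ≤ (3 * (ρ + 1)) ^ (n - κ) *
      ((T.Λ ^ 2 * (T.k : ℝ) ^ (b' - b)) ^ n) ^ (n + 1) * (S.image (cell T.k b a₁)).card := by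
  obtain ⟨hk, hk', hΛ, hMΛ, hnΛ, hΛk⟩ := hT.num
  refine card_img_le S gl _ fun c₀ hc₀ => ?_
  set F := S.filter fun c => cell T.k b a₁ c = cell T.k b a₁ c₀ with hF
  set B := cell T.k b a₁ c₀ with hB
  set f₁ : Nd n → {l : Fin n // κ ≤ (l : ℕ)} → ℤ := fun c l =>
    ⌊⟪O B l.1, lf T.k b (ζ₀ B) c⟫ / (T.k : ℝ) ^ (b + a)⌋ with hf₁
  set f₂ : Nd n → Fin (κ + 1) → Fin n → ℤ := fun c j => (cs c j).2.2 with hf₂
  have hp : (0 : ℝ) < (T.k : ℝ) ^ (b + a) := by positivity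
  have e0 : F.image gl = (F.image fun c => (f₁ c, f₂ c)).image fun z => (B, z) := by
    rw [image_image]
    refine image_congr fun c hc => ?_
    simp only [Function.comp, D.gl_eq, (mem_filter.1 (mem_coe.1 hc)).2, hf₁, hf₂]
    rfl
  have e1 : ((F.image f₁).card : ℝ) ≤ (3 * (ρ + 1)) ^ (n - κ) := by
    rw [← card_normal]
    refine card_pi _ (fun l => ⟪O B l.1, lf T.k b (ζ₀ B) c₀⟫ / (T.k : ℝ) ^ (b + a)) (by linarith) ?_
    intro p hp' l
    obtain ⟨c, hc, rfl⟩ := mem_image.1 hp'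
    have h1 := h c (mem_filter.1 hc).1 c₀ hc₀ (mem_filter.1 hc).2 l.1 l.2
    rw [inner_sub_right, ← div_le_iff₀ hp, ← abs_of_pos hp, ← abs_div, sub_div,
      abs_le, ← hB] at h1
    have h2 := Int.floor_le (⟪O B l.1, lf T.k b (ζ₀ B) c⟫ / (T.k : ℝ) ^ (b + a))
    have h3 := Int.lt_floor_add_one (⟪O B l.1, lf T.k b (ζ₀ B) c⟫ / (T.k : ℝ) ^ (b + a))
    simp only [hf₁]
    rw [abs_le]
    constructor <;> linarith [h1.1, h1.2]
  have hq : (1 : ℝ) ≤ (T.k : ℝ) ^ (b' - b) := one_le_pow₀ hk'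
  have e2 : ((F.image f₂).card : ℝ) ≤ ((T.Λ ^ 2 * (T.k : ℝ) ^ (b' - b)) ^ n) ^ (n + 1) := by
    have e3 : F.image f₂ ⊆ Fintype.piFinset fun j => (F.image fun c => cs c j).image (·.2.2) := by
      intro z hz
      obtain ⟨c, hc, rfl⟩ := mem_image.1 hz
      exact Fintype.mem_piFinset.2 fun j => mem_image_of_mem _ (mem_image_of_mem _ hc)
    have e4 : ∀ j, (((F.image fun c => cs c j).image (·.2.2)).card : ℝ) ≤
        (T.Λ ^ 2 * (T.k : ℝ) ^ (b' - b)) ^ n := by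
      intro j
      refine (card_caps hk b' _ (fq T.k b c₀) (ρ := T.Λ * (M + 1) * (T.k : ℝ) ^ (b' - b))
        (one_le_mul_of_one_le_of_one_le (by nlinarith [Nat.cast_nonneg (α := ℝ) M]) hq) ?_).trans ?_
      · intro c' hc'
        obtain ⟨c, hc, rfl⟩ := mem_image.1 hc'
        have h1 := (T.mem_nr.1 (D.near c (hS (mem_filter.1 hc).1) j)).2.fq_le (by linarith) hb'
        rw [fq_congr T.k b (cell_eq hk (mem_filter.1 hc).2).1] at h1
        refine h1.trans ?_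
        obtain ⟨e, rfl⟩ := Nat.exists_eq_add_of_le hbb
        rw [Nat.add_sub_cancel_left, pow_add, mul_div_mul_right _ _ (by positivity)]
        gcongr; linarith
      · have : 3 * (T.Λ * (M + 1)) ≤ T.Λ ^ 2 := by nlinarith [hT.Λ_ge.2.2.1]
        rw [← mul_assoc]
        gcongr
    have e5 := card_le_card e3
    rw [Fintype.card_piFinset] at e5
    have e6 : ((F.image f₂).card : ℝ) ≤
        ∏ j : Fin (κ + 1), (((F.image fun c => cs c j).image (·.2.2)).card : ℝ) := by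
      exact_mod_cast e5
    refine e6.trans ((prod_le_prod (fun _ _ => Nat.cast_nonneg _) fun j _ => e4 j).trans ?_)
    rw [prod_const, card_univ, Fintype.card_fin]
    exact pow_le_pow_right₀ (one_le_pow₀ (one_le_mul_of_one_le_of_one_le (by nlinarith) hq))
      (by omega)
  rw [e0]
  refine (Nat.cast_le.2 card_image_le).trans ((card_img_pair F f₁ f₂).trans ?_)
  exact mul_le_mul e1 e2 (Nat.cast_nonneg _) (by positivity)

end Dec

end Crest.Agent.N76.L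
end

-- ▼ part N76/L/Groups2

/-! # Row 76, Part I (helper15): counting of groups. -/

set_option autoImplicit false

open Finset
open scoped RealInnerProductSpace

namespace Crest.Agent.N76.L

open Crest.Agent.N76.Red (V)
open Crest.Agent.N76.G

variable {n M : ℕ}

theorem card_cells {k : ℕ} (hk : 1 ≤ k) (b a : ℕ) (S : Finset (Nd n)) (σ : ℤ) (ζ y : V n)
    {ρ₁ ρ₂ : ℝ} (h₁ : 1 ≤ ρ₁) (h₂ : 0 ≤ ρ₂)
    (h : ∀ c ∈ S, c.1 / (k : ℤ) ^ a = σ ∧ ‖fq k b c - ζ‖ ≤ ρ₁ / (k : ℝ) ^ b ∧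
      ‖ps k b c ((σ : ℝ) * (k : ℝ) ^ (2 * b + a)) - y‖ ≤ ρ₂ * (k : ℝ) ^ (b + a)) :
    ((S.image (cell k b a)).card : ℝ) ≤ (3 * (ρ₂ + 1)) ^ n * (3 * ρ₁) ^ n := by
  have hp : (0 : ℝ) < (k : ℝ) ^ (b + a) := by positivity
  set f : Nd n → V n := fun c =>
    ((k : ℝ) ^ (b + a))⁻¹ • ps k b c ((σ : ℝ) * (k : ℝ) ^ (2 * b + a)) with hf
  have e0 : S.image (cell k b a) =
      (S.image fun c => (fl (f c), c.2.2)).image fun z => (σ, z) := by
    rw [image_image]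
    refine image_congr fun c hc => ?_
    simp only [Function.comp, cell, (h c (mem_coe.1 hc)).1, hf]
  rw [e0]
  refine (Nat.cast_le.2 card_image_le).trans ((card_img_pair S _ _).trans ?_)
  refine mul_le_mul (card_image_fl S f (((k : ℝ) ^ (b + a))⁻¹ • y) h₂ fun c hc => ?_)
    (card_caps hk b S ζ h₁ fun c hc => (h c hc).2.1) (Nat.cast_nonneg _) (by positivity)
  rw [hf, ← smul_sub, norm_smul, Real.norm_eq_abs, abs_of_pos (inv_pos.2 hp), inv_mul_le_iff₀ hp,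
    mul_comm _ ρ₂]
  exact (h c hc).2.2

theorem lf_near {k : ℕ} (hk : 1 ≤ k) {Λ : ℝ} (hΛ : 1 ≤ Λ) (hM : (M : ℝ) ≤ Λ) {i j κ : ℕ}
    (hij : i ≤ j) (hj : j ≤ M) {c c' : Nd n} (h : Nr k Λ i j c c')
    {O : OrthonormalBasis (Fin n) ℝ (V n)} {ζ₀ : V n}
    (hs : Slab O κ ζ₀ (Λ ^ 2 / (k : ℝ) ^ j) (fq k j c')) :
    Slab O κ (lf k i ζ₀ c) (3 * Λ ^ 2 * (k : ℝ) ^ j) (lf k j ζ₀ c') := by
  intro l hl
  have e : lf k j ζ₀ c' - lf k i ζ₀ c = (ps k j c' (tm k i c) - ctr k i c) +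
      (2 * (tm k i c - tm k j c')) • (fq k j c' - ζ₀) := by
    simp only [lf, ps, smul_sub, mul_sub, sub_smul]; abel
  have hp : (0 : ℝ) < (k : ℝ) ^ j := by positivity
  rw [e, inner_add_right, real_inner_smul_right]
  refine (abs_add_le _ _).trans ?_
  have h1 := (abs_inner_le O l _).trans (h.ps_le (by linarith) hj)
  have h2 : |2 * (tm k i c - tm k j c') * ⟪O l, fq k j c' - ζ₀⟫| ≤
      2 * (k : ℝ) ^ (2 * j) * (Λ ^ 2 / (k : ℝ) ^ j) := by
    rw [abs_mul, abs_mul, abs_two]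
    exact mul_le_mul (by linarith [h.tm_le hk hij]) (hs l hl) (abs_nonneg _) (by positivity)
  have h3 : 2 * (k : ℝ) ^ (2 * j) * (Λ ^ 2 / (k : ℝ) ^ j) = 2 * Λ ^ 2 * (k : ℝ) ^ j := by
    rw [two_mul j, pow_add _ j]; field_simp
  have h4 : Λ * M * (k : ℝ) ^ j ≤ Λ ^ 2 * (k : ℝ) ^ j := by gcongr; nlinarith
  linarith

theorem lf_sub (k b : ℕ) (ζ₀ : V n) {c c' : Nd n} (h : c.2.2 = c'.2.2) (t : ℝ) :
    lf k b ζ₀ c - lf k b ζ₀ c' =
      (ps k b c t - ps k b c' t) - (2 * (tm k b c - tm k b c')) • (fq k b c' - ζ₀) := by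
  simp only [lf, ps, fq_congr k b h, smul_sub, mul_sub, sub_smul]; abel

theorem pw_le {T : Tw n M} (hT : T.Std) {x : ℝ} (e : ℕ) (hx0 : 0 ≤ x) (hx : x ≤ T.Λ ^ 3) :
    x ^ e ≤ (T.k : ℝ) ^ e := pow_le_pow_left₀ hx0 (hx.trans hT.num.2.2.2.2.2) e

namespace Dec

variable {T : Tw n M} {κ : ℕ} {hκ : κ ≤ n} {b m₀ b' a a₁ : ℕ} {N : Finset (Nd n)}
  {O : Nd n → OrthonormalBasis (Fin n) ℝ (V n)} {ζ₀ : Nd n → V n}
  {cs : Nd n → Fin (κ + 1) → Nd n} {gl : Nd n → Lab n κ}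

theorem kc_le (hT : T.Std) (e : ℕ) :
    ((T.Λ ^ 2 * (T.k : ℝ) ^ e) ^ n) ^ (n + 1) ≤ (T.k : ℝ) ^ ((e + 1) * n * (n + 1)) := by
  obtain ⟨hk, hk', hΛ, hMΛ, hnΛ, hΛk⟩ := hT.num
  rw [pow_mul, pow_mul, pow_succ _ e, mul_comm _ (T.k : ℝ)]
  have : T.Λ ^ 2 ≤ T.k := (pow_le_pow_right₀ hΛ (by norm_num)).trans hΛk
  gcongr

set_option synthInstance.maxSize 2048 in
/-- cells of intermediate width, counted group by group -/
theorem sum_cells (D : Dec T hκ b m₀ b' a a₁ N O ζ₀ cs gl) (hT : T.Std) (hbb : b ≤ b')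
    (hb' : b' ≤ M) {u : ℕ} (hu : a + u ≤ a₁) :
    ∑ y ∈ N.image gl, (((N.filter fun c => gl c = y).image (cell T.k b (a + u))).card : ℝ) ≤
      (T.k : ℝ) ^ ((n - κ) * u + ((b' - b + 1) * n * (n + 1) + 3 * n)) *
        (N.image (cell T.k b (a + u))).card := by
  obtain ⟨hk, hk', hΛ, hMΛ, hnΛ, hΛk⟩ := hT.num
  have hΛ2 := hT.Λ_ge.1
  rw [sum_card_img]
  refine card_img_le N _ _ fun c₀ hc₀ => ?_
  set S := N.filter fun c => cell T.k b (a + u) c = cell T.k b (a + u) c₀ with hS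
  have e0 : (S.image fun c => (gl c, cell T.k b (a + u) c)) =
      (S.image gl).image fun z => (z, cell T.k b (a + u) c₀) := by
    rw [image_image]
    exact image_congr fun c hc => by simp only [Function.comp, (mem_filter.1 (mem_coe.1 hc)).2]
  rw [e0]
  refine (Nat.cast_le.2 card_image_le).trans ?_
  have hq : (1 : ℝ) ≤ (T.k : ℝ) ^ u := one_le_pow₀ hk'
  have hpb : (0 : ℝ) < (T.k : ℝ) ^ b := by positivity
  refine (D.card_lab hT hbb hb' (filter_subset _ _) (ρ := 3 * T.Λ ^ 2 * (T.k : ℝ) ^ u)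
    (by positivity) fun c hc c' hc' _ l hl => ?_).trans ?_
  · obtain ⟨e1, _, e3, e4⟩ := cell_eq hk ((mem_filter.1 hc).2.trans (mem_filter.1 hc').2.symm)
    have hN' := (mem_filter.1 hc').1
    have h1 := D.slab c' hN' b le_rfl (by omega) c' (T.mem_nr.2 ⟨D.sub hN', Nr.refl _ _ _ _⟩) l hl
    rw [lf_sub T.k b _ e1 0, inner_sub_right, real_inner_smul_right]
    refine (abs_sub _ _).trans ?_
    have h2 := (abs_inner_le (O (cell T.k b a₁ c')) l _).trans (e4 0)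
    have h3 : |2 * (tm T.k b c - tm T.k b c') *
        ⟪O (cell T.k b a₁ c') l, fq T.k b c' - ζ₀ (cell T.k b a₁ c')⟫| ≤
        2 * (T.k : ℝ) ^ (2 * b + (a + u)) * (T.Λ ^ 2 / (T.k : ℝ) ^ b) := by
      rw [abs_mul, abs_mul, abs_two]
      exact mul_le_mul (by linarith) h1 (abs_nonneg _) (by positivity)
    have h4 : 2 * (T.k : ℝ) ^ (2 * b + (a + u)) * (T.Λ ^ 2 / (T.k : ℝ) ^ b) =
        2 * T.Λ ^ 2 * (T.k : ℝ) ^ (b + (a + u)) := by
      rw [show 2 * b + (a + u) = b + (a + u) + b by omega, pow_add _ _ b]; field_simp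
    have h5 : (n : ℝ) * (T.k : ℝ) ^ (b + (a + u)) ≤ T.Λ ^ 2 * (T.k : ℝ) ^ (b + (a + u)) := by
      gcongr; nlinarith
    have h6 : 3 * T.Λ ^ 2 * (T.k : ℝ) ^ u * (T.k : ℝ) ^ (b + a) =
        3 * T.Λ ^ 2 * (T.k : ℝ) ^ (b + (a + u)) := by ring
    linarith
  · obtain ⟨e, rfl⟩ := Nat.exists_eq_add_of_le hu
    have h1 : ((S.image (cell T.k b (a + u + e))).card : ℝ) ≤ (3 * ((n : ℝ) + 1)) ^ n * (3 * 1) ^ n := by
      refine card_cells hk b _ S (c₀.1 / (T.k : ℤ) ^ (a + u + e)) (fq T.k b c₀)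
        (ps T.k b c₀ (((c₀.1 / (T.k : ℤ) ^ (a + u + e) : ℤ) : ℝ) * (T.k : ℝ) ^ (2 * b + (a + u + e))))
        le_rfl (Nat.cast_nonneg _) fun c hc => ?_
      obtain ⟨e1, e2, _, e4⟩ := cell_eq hk (mem_filter.1 hc).2
      refine ⟨by rw [← ediv_ediv hk, ← ediv_ediv hk c₀.1, e2], ?_, (e4 _).trans ?_⟩
      · rw [fq_congr T.k b e1, sub_self, norm_zero]; positivity
      · gcongr
    have h2 : (3 * (3 * T.Λ ^ 2 * (T.k : ℝ) ^ u + 1)) ^ (n - κ) ≤
        (T.k : ℝ) ^ ((n - κ) * u) * (T.k : ℝ) ^ n := by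
      have : 3 * (3 * T.Λ ^ 2 * (T.k : ℝ) ^ u + 1) ≤ (T.k : ℝ) ^ u * T.k := by
        have : 12 * T.Λ ^ 2 ≤ T.k := by nlinarith
        nlinarith
      refine (pow_le_pow_left₀ (by positivity) this _).trans ?_
      rw [mul_pow, ← pow_mul, mul_comm u]
      gcongr; omega
    have h3 : (3 * ((n : ℝ) + 1)) ^ n * (3 * 1) ^ n ≤ (T.k : ℝ) ^ n * (T.k : ℝ) ^ n :=
      mul_le_mul (pw_le hT n (by positivity) (by nlinarith)) (pw_le hT n (by positivity) (by nlinarith))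
        (by positivity) (by positivity)
    refine (mul_le_mul (mul_le_mul h2 (kc_le hT _) (by positivity) (by positivity)) (h1.trans h3)
      (Nat.cast_nonneg _) (by positivity)).trans (le_of_eq ?_)
    ring

/-- a tube belongs to few groups -/
theorem sum_nS (D : Dec T hκ b m₀ b' a (2 * a) N O ζ₀ cs gl) (hT : T.Std) (hbb : b ≤ b')
    (hb' : b' ≤ M) (ha : b + a ≤ M) :
    ∑ y ∈ N.image gl, ((T.nS b (b + a) (N.filter fun c => gl c = y)).card : ℝ) ≤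
      (T.k : ℝ) ^ ((b' - b + 1) * n * (n + 1) + 3 * n) * (T.nS b (b + a) N).card := by
  classical
  obtain ⟨hk, hk', hΛ, hMΛ, hnΛ, hΛk⟩ := hT.num
  have hΛ2 := hT.Λ_ge.1
  have hM0 : (0 : ℝ) ≤ M := Nat.cast_nonneg _
  have key : ∀ c'' ∈ T.nS b (b + a) N,
      (((N.image gl).filter fun y => c'' ∈ T.nS b (b + a) (N.filter fun c => gl c = y)).card : ℝ) ≤
        (T.k : ℝ) ^ ((b' - b + 1) * n * (n + 1) + 3 * n) := by
    intro c'' hc''
    have hal := (T.mem_nS.1 hc'').1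
    set S := N.filter fun c => Nr T.k T.Λ b (b + a) c c'' with hS
    have e0 : ((N.image gl).filter fun y => c'' ∈ T.nS b (b + a) (N.filter fun c => gl c = y)) ⊆
        S.image gl := by
      intro y hy
      obtain ⟨c, hc, h⟩ := (T.mem_nS.1 (mem_filter.1 hy).2).2
      exact mem_image.2 ⟨c, mem_filter.2 ⟨(mem_filter.1 hc).1, h⟩, (mem_filter.1 hc).2⟩
    refine (Nat.cast_le.2 (card_le_card e0)).trans ?_
    refine (D.card_lab hT hbb hb' (filter_subset _ _) (ρ := 6 * T.Λ ^ 2) (by positivity)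
      fun c hc c' hc' _ l hl => ?_).trans ?_
    · have h0 := D.slab c' (mem_filter.1 hc').1 (b + a) (by omega) (by omega) c''
        (T.mem_nr.2 ⟨hal, (mem_filter.1 hc').2⟩)
      have h1 := lf_near hk hΛ (by linarith) (by omega) ha (mem_filter.1 hc).2 h0 l hl
      have h2 := lf_near hk hΛ (by linarith) (by omega) ha (mem_filter.1 hc').2 h0 l hl
      rw [inner_sub_right] at h1 h2 ⊢
      rw [abs_le] at h1 h2 ⊢
      constructor <;> linarith [h1.1, h1.2, h2.1, h2.2]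
    · have hpb : (0 : ℝ) < (T.k : ℝ) ^ b := by positivity
      have h1 : ((S.image (cell T.k b (2 * a))).card : ℝ) ≤
          (3 * (3 * T.Λ * M + 1)) ^ n * (3 * (T.Λ * (M + 1))) ^ n := by
        refine card_cells hk b _ S c''.1 (fq T.k (b + a) c'')
          (ps T.k (b + a) c'' ((c''.1 : ℝ) * (T.k : ℝ) ^ (2 * b + 2 * a))) (by nlinarith)
          (by positivity) fun c hc => ?_
        have h := (mem_filter.1 hc).2
        refine ⟨by rw [h.1, Nat.add_sub_cancel_left], ?_, ?_⟩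
        · rw [norm_sub_rev]
          refine (h.fq_le (by linarith) ha).trans ?_
          gcongr; linarith
        · rw [norm_sub_rev]
          have h2 := h.tm_le hk (by omega : b ≤ b + a)
          rw [abs_sub_comm, tm, mul_add] at h2
          refine (h.ps_at (by linarith) ha _ _ h2).trans ?_
          have h3 : 2 * (T.k : ℝ) ^ (2 * b + 2 * a) * (T.Λ * M / (T.k : ℝ) ^ b) =
              2 * T.Λ * M * (T.k : ℝ) ^ (b + 2 * a) := by
            rw [show 2 * b + 2 * a = b + 2 * a + b by omega, pow_add _ _ b]; field_simp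
          have h4 : T.Λ * M * (T.k : ℝ) ^ (b + a) ≤ T.Λ * M * (T.k : ℝ) ^ (b + 2 * a) := by
            gcongr; omega
          linarith
      have h2 : (3 * (6 * T.Λ ^ 2 + 1)) ^ (n - κ) ≤ (T.k : ℝ) ^ n :=
        (pw_le hT _ (by positivity) (by nlinarith)).trans (pow_le_pow_right₀ hk' (by omega))
      have h5 : T.Λ * M ≤ T.Λ ^ 2 := by nlinarith
      have h3 : (3 * (3 * T.Λ * M + 1)) ^ n * (3 * (T.Λ * (M + 1))) ^ n ≤
          (T.k : ℝ) ^ n * (T.k : ℝ) ^ n :=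
        mul_le_mul (pw_le hT n (by positivity) (by nlinarith))
          (pw_le hT n (by positivity) (by nlinarith)) (by positivity) (by positivity)
      refine (mul_le_mul (mul_le_mul h2 (kc_le hT _) (by positivity) (by positivity)) (h1.trans h3)
        (Nat.cast_nonneg _) (by positivity)).trans (le_of_eq ?_)
      ring
  have e1 : ∀ y ∈ N.image gl, ((T.nS b (b + a) (N.filter fun c => gl c = y)).card : ℝ) =
      ∑ c'' ∈ T.nS b (b + a) N,
        if c'' ∈ T.nS b (b + a) (N.filter fun c => gl c = y) then (1 : ℝ) else 0 := by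
    intro y _
    rw [sum_boole]
    congr 2
    ext c''
    refine ⟨fun h => mem_filter.2 ⟨?_, h⟩, fun h => (mem_filter.1 h).2⟩
    obtain ⟨h1, c, hc, h2⟩ := T.mem_nS.1 h
    exact T.mem_nS.2 ⟨h1, c, (mem_filter.1 hc).1, h2⟩
  rw [sum_congr rfl e1, sum_comm, mul_comm, ← nsmul_eq_mul, ← sum_const]
  refine sum_le_sum fun c'' hc'' => ?_
  rw [sum_boole]
  exact key c'' hc''

end Dec

end Crest.Agent.N76.L
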