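import Crest.Agent.N76.Pk.Iter
import Crest.Agent.N76.Red.Pack
import Crest.Agent.N76.L.Geo
import Crest.Agent.N76.L.Groups2
import Crest.Agent.N76.L.Bas1
import Crest.Agent.N76.MK.Main

-- ▼ part N76/Pk/Main
section

/-! # Row 76: the PLANK lemma `L.Plank n` (helper95). -/

set_option autoImplicit false

open Finset
open scoped RealInnerProductSpace

namespace Crest.Agent.N76.Pk

open Crest.Agent.N76.Red (V)

lemma card_sep {n : ℕ} {κ : Type*} (F : Finset κ) (g : κ → V n) {δ r : ℝ} (hδ : 0 < δ)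
    (hr : 0 ≤ r) (c : V n) (hs : ∀ i ∈ F, ∀ j ∈ F, i ≠ j → δ ≤ ‖g i - g j‖)
    (hb : ∀ i ∈ F, ‖g i - c‖ ≤ r * δ) : (F.card : ℝ) ≤ (2 * r + 1) ^ n := by
  classical
  have hn : ∀ u v : V n, ‖δ⁻¹ • u - δ⁻¹ • v‖ = ‖u - v‖ / δ := fun u v => by
    rw [← smul_sub, norm_smul, norm_inv, Real.norm_eq_abs, abs_of_pos hδ, inv_mul_eq_div]
  have hinj : Set.InjOn (fun i => δ⁻¹ • g i) F := fun i hi j hj e => by
    by_contra hne
    have h1 := hs i hi j hj hne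
    have h2 := hn (g i) (g j)
    simp only [] at e
    rw [e, sub_self, norm_zero, eq_comm, div_eq_zero_iff] at h2
    rcases h2 with h2 | h2 <;> linarith
  rw [← card_image_of_injOn hinj]
  refine Red.card_le_of_sep _ (δ⁻¹ • c) hr (fun u hu => ?_) (fun u hu v hv huv => ?_)
  · obtain ⟨i, hi, rfl⟩ := mem_image.1 hu
    rw [hn, div_le_iff₀ hδ]; exact hb i hi
  · obtain ⟨i, hi, rfl⟩ := mem_image.1 hu
    obtain ⟨j, hj, rfl⟩ := mem_image.1 hv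
    rw [hn, one_le_div hδ]
    exact hs i hi j hj fun e => huv (by rw [e])

lemma le_pow_of_two {B : ℝ} (hB : 2 ≤ B) {a c : ℕ} (h : a ≤ c) : (a : ℝ) ≤ B ^ c := by
  have h1 : (a : ℝ) ≤ 2 ^ a := by exact_mod_cast Nat.lt_two_pow_self.le
  exact h1.trans ((pow_le_pow_left₀ (by norm_num) hB _).trans
    (pow_le_pow_right₀ (by linarith) h))

/-- **Plank lemma.** -/
theorem plank (n : ℕ) (hn : 1 ≤ n) : L.Plank n := by
  classical
  obtain ⟨d, rfl⟩ : ∃ d, n = d + 1 := ⟨n - 1, by omega⟩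
  intro S hS
  obtain ⟨k, rfl⟩ : ∃ k, S = k + 1 := ⟨S - 1, by omega⟩
  set c₀ := 3 * (d + 1) + 1 + 5 * (d + 2) + k + 3 with hc₀
  refine ⟨c₀ * iE d k ^ (k + 1), ?_⟩
  intro Q B t₀ μ hB hQ hμ ι κ X A y ζ f Φ 𝓛 hX hbd hsep hζ hΦ hfs h𝓛 hA
  simp only [Nat.add_sub_cancel] at hΦ hA
  have hB1 : 1 ≤ B := by linarith
  have hB0 : 0 < B := by linarith
  set Λ := B ^ c₀ with hΛ
  rw [pow_mul] at hQ ⊢
  have hiE : iE d k ^ (k + 1) ≠ 0 := pow_ne_zero _ (by unfold iE; omega)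
  have hBΛ : B * (2 * B + 3) ^ (d + 1) ≤ Λ := by
    have : 2 * B + 3 ≤ B ^ 3 := by
      have : 4 ≤ B * B := by nlinarith
      nlinarith
    calc B * (2 * B + 3) ^ (d + 1) ≤ B * (B ^ 3) ^ (d + 1) := by gcongr
      _ = B ^ (3 * (d + 1) + 1) := by ring
      _ ≤ _ := pow_le_pow_right₀ hB1 (by omega)
  have hp1 : 2 * B + 3 ≤ (2 * B + 3) ^ (d + 1) := le_self_pow₀ (by linarith) (by omega)
  have hp2 : (2 * B + 3) ^ (d + 1) ≤ Λ := le_trans (le_mul_of_one_le_left (by linarith) hB1) hBΛ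
  have hΛ1 : 1 ≤ Λ := by linarith
  have hQ2 : 2 ≤ Q := by linarith [le_self_pow₀ hΛ1 hiE]
  have hQ0 : 0 < Q := by linarith
  set T := Q ^ (k + 1) with hT
  have hT1 : 1 ≤ T := one_le_pow₀ (by linarith)
  have hT0 : 0 < T := by linarith
  set m := ⌈μ⌉₊ with hm
  have hm0 : (0 : ℝ) < m := hμ.trans_le (Nat.le_ceil μ)
  have hch : ∀ z φ, ∃ M : Finset ι, z ∈ X → φ ∈ Φ z → M ⊆ 𝓛 z φ ∧ M.card = m := by
    intro z φ
    by_cases h : z ∈ X ∧ φ ∈ Φ z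
    · obtain ⟨M, h1, h2⟩ := exists_subset_card_eq (s := 𝓛 z φ) (n := m)
        (Nat.ceil_le.2 (h𝓛 z h.1 φ h.2).2.1)
      exact ⟨M, fun _ _ => ⟨h1, h2⟩⟩
    · exact ⟨∅, fun a b => absurd ⟨a, b⟩ h⟩
  choose 𝓜 h𝓜 using hch
  set D : Dat d (V (d + 1) × ℝ) ι :=
    { x := fun z => T⁻¹ • z.1
      t := fun z => (z.2 - t₀) / T
      H := fun _ => 0
      y := fun l => T⁻¹ • (y l - (2 * t₀) • ζ l)
      v := fun l => (-2 : ℝ) • ζ l
      b := fun _ => 0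
      s := fun _ => 0 } with hD
  set I := (X ×ˢ A).filter fun p => ∃ φ ∈ Φ p.1, p.2 ∈ 𝓜 p.1 φ with hI
  have hIm : ∀ p ∈ I, p.1 ∈ X ∧ p.2 ∈ A ∧ ∃ φ ∈ Φ p.1, p.2 ∈ 𝓜 p.1 φ := fun p hp => by
    simp only [hI, mem_filter, mem_product] at hp
    exact ⟨hp.1.1, hp.1.2, hp.2⟩
  have hnT : ∀ u : V (d + 1), ‖T⁻¹ • u‖ = ‖u‖ / T := fun u => by
    rw [norm_smul, norm_inv, Real.norm_eq_abs, abs_of_pos hT0, inv_mul_eq_div]
  have hBas : Bas D X I Q T (Q ^ d * m) (T ^ (d + 1)) Λ := by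
    refine ⟨?_, by positivity, hQ2, hT0, by positivity, fun c => ?_, fun p hp => (hIm p hp).1,
      fun p hp => ⟨?_, ?_⟩, fun p hp => ⟨?_, ?_⟩, fun z c => ?_⟩
    · have := le_pow_of_two hB (a := 5 * (d + 2)) (c := c₀) (by omega)
      push_cast at this; exact this
    · refine (card_sep _ Prod.fst one_pos hT0.le (T • c) (fun z hz z' hz' e =>
        hsep z (mem_filter.1 hz).1 z' (mem_filter.1 hz').1 e) (fun z hz => ?_)).trans ?_
      · have h1 : ‖T⁻¹ • z.1 - c‖ ≤ 1 := (mem_filter.1 hz).2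
        have e : T⁻¹ • z.1 - c = T⁻¹ • (z.1 - T • c) := by
          rw [smul_sub, inv_smul_smul₀ hT0.ne']
        rw [e, hnT, div_le_one hT0] at h1
        linarith
      · calc (2 * T + 1) ^ (d + 1) ≤ ((2 * B + 3) * T) ^ (d + 1) := by gcongr; nlinarith
          _ = (2 * B + 3) ^ (d + 1) * T ^ (d + 1) := mul_pow _ _ _
          _ ≤ _ := by gcongr
    · change ‖(-2 : ℝ) • ζ p.2‖ ≤ Λ
      rw [norm_smul, Real.norm_eq_abs, abs_neg, abs_two]
      linarith [hζ _ (hIm p hp).2.1]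
    · change |(0 : ℝ)| ≤ _
      rw [abs_zero]; positivity
    · obtain ⟨h1, -, φ, h3, h4⟩ := hIm p hp
      have h5 := ((h𝓛 _ h1 φ h3).2.2 _ ((h𝓜 _ _ h1 h3).1 h4)).2
      change ‖T⁻¹ • p.1.1 - (T⁻¹ • (y p.2 - (2 * t₀) • ζ p.2) +
        ((p.1.2 - t₀) / T) • (-2 : ℝ) • ζ p.2)‖ ≤ Λ
      have e : T⁻¹ • p.1.1 - (T⁻¹ • (y p.2 - (2 * t₀) • ζ p.2) +
          ((p.1.2 - t₀) / T) • (-2 : ℝ) • ζ p.2) =
          T⁻¹ • (p.1.1 - (y p.2 - (2 * p.1.2) • ζ p.2)) := by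
        rw [div_eq_inv_mul]; module
      rw [e, hnT, div_le_iff₀ hT0]
      refine h5.trans ?_
      gcongr; linarith
    · change |(0 : ℝ) - (0 + 0 * _)| ≤ _
      simp; linarith
    · set G := (I.filter fun p => p.1 = z).filter fun p => ‖D.v p.2 - c‖ ≤ 1 / Q with hG
      rcases G.eq_empty_or_nonempty with he | ⟨p₀, hp₀⟩
      · refine le_trans (le_of_eq ?_) (show ((0 : ℕ) : ℝ) ≤ _ by simp only [Nat.cast_zero]; positivity)
        rw [Nat.cast_inj, card_eq_zero]; exact he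
      have hz : z ∈ X := by
        simp only [hG, mem_filter] at hp₀
        rw [← hp₀.1.2]; exact (hIm _ hp₀.1.1).1
      set F := (Φ z).filter fun φ => ‖f φ - (-2 : ℝ)⁻¹ • c‖ ≤ (B + 1) * (1 / Q) with hF
      have h1 : (F.card : ℝ) ≤ (2 * (B + 1) + 1) ^ (d + 1) :=
        card_sep F f (by positivity) (by linarith) _ (fun i hi j hj e =>
          hfs z hz i (mem_filter.1 hi).1 j (mem_filter.1 hj).1 e) fun i hi => (mem_filter.1 hi).2
      have h2 : G.card ≤ (F.biUnion (𝓜 z)).card := by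
        refine card_le_card_of_injOn Prod.snd (fun p hp => ?_) (fun p hp p' hp' e => ?_)
        · simp only [hG, coe_filter, Set.mem_ofPred_eq, mem_filter] at hp
          obtain ⟨⟨b1, b2⟩, b3⟩ := hp
          obtain ⟨-, -, φ, h3, h4⟩ := hIm p b1
          rw [b2] at h3 h4
          refine mem_coe.2 (mem_biUnion.2 ⟨φ, mem_filter.2 ⟨h3, ?_⟩, h4⟩)
          have h5 := ((h𝓛 _ hz φ h3).2.2 _ ((h𝓜 _ _ hz h3).1 h4)).1
          have h6 : ‖ζ p.2 - (-2 : ℝ)⁻¹ • c‖ ≤ 1 / Q := by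
            have e : ζ p.2 - (-2 : ℝ)⁻¹ • c = (-2 : ℝ)⁻¹ • ((-2 : ℝ) • ζ p.2 - c) := by
              rw [smul_sub, inv_smul_smul₀ (by norm_num)]
            rw [e, norm_smul]
            refine le_trans (mul_le_of_le_one_left (norm_nonneg _) (by norm_num)) b3
          refine (norm_sub_le_norm_sub_add_norm_sub _ (ζ p.2) _).trans ?_
          rw [norm_sub_rev]
          have : B / Q = B * (1 / Q) := by ring
          linarith
        · simp only [hG, coe_filter, Set.mem_ofPred_eq, mem_filter] at hp hp'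
          exact Prod.ext (hp.1.2.trans hp'.1.2.symm) e
      have h3 : (F.biUnion (𝓜 z)).card ≤ F.card * m :=
        card_biUnion_le_card_mul _ _ _ fun φ hφ => (h𝓜 _ _ hz (mem_filter.1 hφ).1).2.le
      have h4 : (G.card : ℝ) ≤ F.card * m := by exact_mod_cast h2.trans h3
      calc _ = (G.card : ℝ) := rfl
        _ ≤ (2 * (B + 1) + 1) ^ (d + 1) * m := h4.trans (by gcongr)
        _ ≤ Λ * m := by gcongr; rw [show 2 * (B + 1) + 1 = 2 * B + 3 by ring]; exact hp2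
        _ = _ := by field_simp
  have hY : Q ^ d * m * X.card ≤ Λ * I.card := by
    have h1 := le_card_fib I Prod.fst X (K := Q ^ d * m / Λ) fun z hz => by
      set W := (Φ z ×ˢ A).filter fun w => w.2 ∈ 𝓜 z w.1 with hW
      have a1 : (Φ z).card * (m : ℝ) ≤ W.card := by
        refine le_card_fib W Prod.fst (Φ z) fun φ hφ => ?_
        rw [← (h𝓜 _ _ hz hφ).2]
        refine Nat.cast_le.2 (card_le_card_of_injOn (fun l => (φ, l)) (fun l hl => ?_) ?_)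
        · simp only [hW, coe_filter, Set.mem_ofPred_eq, mem_filter, mem_product, mem_coe] at hl ⊢
          exact ⟨⟨⟨hφ, (h𝓛 _ hz φ hφ).1 ((h𝓜 _ _ hz hφ).1 hl)⟩, hl⟩, trivial⟩
        · intro l _ l' _ e; exact (Prod.ext_iff.1 e).2
      have a2 : (W.card : ℝ) ≤ (I.filter fun p => p.1 = z).card * (2 * B + 1) ^ (d + 1) := by
        refine card_le_fib W (fun w => (z, w.2)) _ (fun w hw => ?_) fun p _ => ?_
        · simp only [hW, hI, mem_filter, mem_product] at hw ⊢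
          exact ⟨⟨⟨hz, hw.1.2⟩, w.1, hw.1.1, hw.2⟩, trivial⟩
        · refine card_sep _ (fun w => f w.1) (δ := 1 / Q) (by positivity) hB0.le (ζ p.2)
            (fun w hw w' hw' e => ?_) (fun w hw => ?_)
          · simp only [hW, mem_filter, mem_product] at hw hw'
            refine hfs z hz _ hw.1.1.1 _ hw'.1.1.1 fun e' => e (Prod.ext e' ?_)
            exact (Prod.ext_iff.1 (hw.2.trans hw'.2.symm)).2
          · simp only [hW, mem_filter, mem_product] at hw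
            have h5 := ((h𝓛 _ hz _ hw.1.1.1).2.2 _ ((h𝓜 _ _ hz hw.1.1.1).1 hw.1.2)).1
            rw [← hw.2, norm_sub_rev, mul_one_div]
            exact h5
      rw [div_le_iff₀ (by linarith)]
      calc Q ^ d * m ≤ B * (Φ z).card * m := by gcongr; exact hΦ z hz
        _ = B * ((Φ z).card * m) := by ring
        _ ≤ B * ((I.filter fun p => p.1 = z).card * (2 * B + 3) ^ (d + 1)) := by
            gcongr B * ?_
            exact (a1.trans a2).trans (by gcongr; norm_num)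
        _ = (I.filter fun p => p.1 = z).card * (B * (2 * B + 3) ^ (d + 1)) := by ring
        _ ≤ _ := by gcongr
    rw [← mul_div_assoc, div_le_iff₀ (by linarith)] at h1
    linarith
  have hBΛ' : B ≤ Λ := by linarith
  obtain ⟨w, c, I', hI', hw, ⟨p, hp⟩, -, hpl, hcnt⟩ := hBas.plank (L := A) hT
    (by have := le_pow_of_two hB (a := k + 3) (c := c₀) (by omega)
        push_cast at this; exact this)
    (by
      rw [← card_pos, ← Nat.cast_pos (α := ℝ)]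
      have : (0 : ℝ) < X.card := Nat.cast_pos.2 hX.card_pos
      have : 0 < Λ * I.card := lt_of_lt_of_le (by positivity) hY
      exact (mul_pos_iff_of_pos_left (by linarith)).1 this)
    (fun p hp => (hIm p hp).2.1)
    (fun z hz => by
      obtain ⟨b1, b2, b3⟩ := hbd z hz
      constructor
      · change ‖T⁻¹ • z.1‖ ≤ _
        rw [hnT, div_le_iff₀ hT0]
        refine b1.trans ?_
        rw [sq, mul_assoc]; gcongr
      · change |(z.2 - t₀) / T| ≤ _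
        rw [abs_div, abs_of_pos hT0, div_le_iff₀ hT0, abs_of_nonneg (by linarith)]
        nlinarith [mul_pos hT0 hT0])
    hY
    (by
      calc (A.card : ℝ) * T ^ (d + 1) * T = A.card * T ^ (d + 1 + 1) := by ring
        _ ≤ B * X.card * μ * Q ^ d := hA
        _ ≤ Λ * X.card * m * Q ^ d := by gcongr; exact Nat.le_ceil μ
        _ = _ := by ring) hQ
  set ρ := Λ ^ iE d k ^ (k + 1) with hρ
  have hρ0 : 0 < ρ := by positivity
  refine ⟨w, t₀ + c * T, hw, ?_, p.2, (hIm p (hI' hp)).2.1, ?_⟩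
  · have h1 := hcnt trivial
    rw [div_le_iff₀ hρ0] at h1
    calc (T ^ 2) ^ (d + 1) = T ^ (d + 1) * T ^ (d + 1) := by ring
      _ ≤ _ := h1
      _ ≤ _ := by
        rw [mul_comm]
        refine mul_le_mul_of_nonneg_left (Nat.cast_le.2 (card_le_card fun z hz => ?_)) hρ0.le
        rw [mem_filter] at hz ⊢
        refine ⟨hz.1, ?_⟩
        replace hz := hz.2
        change |(z.2 - t₀) / T - ⟪w, T⁻¹ • z.1⟫ - c| ≤ _ at hz
        have e : z.2 - ⟪w, z.1⟫ - (t₀ + c * T) = ((z.2 - t₀) / T - ⟪w, T⁻¹ • z.1⟫ - c) * T := by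
          rw [real_inner_smul_right]; field_simp; ring
        rw [e, abs_mul, abs_of_pos hT0]
        gcongr
        simpa using hz
  · have h1 := (hpl p hp).2
    change |1 - ⟪w, (-2 : ℝ) • ζ p.2⟫| ≤ _ at h1
    rw [real_inner_smul_right] at h1
    simpa using h1

end Crest.Agent.N76.Pk
end

-- ▼ part N76/L/Slice
section

/-! # Row 76, Part I (helper15): coordinates in a slice, energy of a group. -/

set_option autoImplicit false

open Finset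
open scoped RealInnerProductSpace

namespace Crest.Agent.N76.L

open Crest.Agent.N76.Red (V)
open Crest.Agent.N76.G

variable {n M : ℕ}

/-- tangential coordinates of a node -/
noncomputable def cx (k b a : ℕ) (O : OrthonormalBasis (Fin n) ℝ (V n)) {κ : ℕ} (hκ : κ ≤ n)
    (c₀ c : Nd n) : Fin κ → ℝ :=
  fun l => ⟪O (Fin.castLE hκ l), ps k b c (tm k b c₀) - ctr k b c₀⟫ / (k : ℝ) ^ (b + a)

/-- time coordinate of a node -/
noncomputable def ct (k b a : ℕ) (c₀ c : Nd n) : ℝ := (tm k b c - tm k b c₀) / (k : ℝ) ^ (2 * b + a)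

/-- intercept of the line of a level `b + a` node -/
noncomputable def li (k b a : ℕ) (O : OrthonormalBasis (Fin n) ℝ (V n)) {κ : ℕ} (hκ : κ ≤ n)
    (c₀ c'' : Nd n) : Fin κ → ℝ :=
  fun l => ⟪O (Fin.castLE hκ l), ps k (b + a) c'' (tm k b c₀) - ctr k b c₀⟫ / (k : ℝ) ^ (b + a)

theorem tv_sub_le (O : OrthonormalBasis (Fin n) ℝ (V n)) {κ : ℕ} (hκ : κ ≤ n) {r : ℝ} (hr : 0 ≤ r)
    (ζp ζ ζ' : V n) (l : Fin κ) : |tv O hκ r ζp ζ l - tv O hκ r ζp ζ' l| ≤ 2 * r * ‖ζ - ζ'‖ := by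
  simp only [tv]
  rw [← mul_sub, ← inner_sub_right, sub_sub_sub_cancel_right, abs_mul, abs_mul, abs_neg, abs_two,
    abs_of_nonneg hr]
  exact mul_le_mul_of_nonneg_left (abs_inner_le O _ _) (by positivity)

theorem Nr.tv_le {k : ℕ} (hk : 1 ≤ k) {Λ : ℝ} (hΛ : 0 ≤ Λ) {b j : ℕ} (hj : j ≤ M) {c c' : Nd n}
    (h : Nr k Λ b j c c') (O : OrthonormalBasis (Fin n) ℝ (V n)) {κ : ℕ} (hκ : κ ≤ n) (l : Fin κ) :
    |tv O hκ ((k : ℝ) ^ b) (fq k b c) (fq k j c') l| ≤ 2 * Λ * M := by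
  have hp : (0 : ℝ) < (k : ℝ) ^ b := by positivity
  have h1 := tv_sub_le O hκ hp.le (fq k b c) (fq k j c') (fq k b c) l
  have h2 : tv O hκ ((k : ℝ) ^ b) (fq k b c) (fq k b c) l = 0 := by simp [tv]
  rw [h2, sub_zero] at h1
  refine h1.trans ((mul_le_mul_of_nonneg_left (h.fq_le hΛ hj) (by positivity)).trans (le_of_eq ?_))
  field_simp

theorem Tw.EN2' (T : Tw n M) (hT : T.Std) {b l : ℕ} (hb : b ≤ l) (hl : l + 1 ≤ M) {c₁ : Nd n}
    (hc : c₁ ∈ T.al b) {Z : Finset (Nd n)} (hZ : Z ⊆ T.al l)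
    (h : ∀ c ∈ Z, c.1 = c₁.1 / (T.k : ℤ) ^ (2 * (l - b)) ∧
      ‖fq T.k l c - fq T.k b c₁‖ ≤ T.Λ * ((l : ℝ) - b) / (T.k : ℝ) ^ b ∧
      ‖ps T.k l c (tm T.k b c₁) - ctr T.k b c₁‖ ≤ (T.k : ℝ) ^ (l + 1)) :
    (Z.card : ℝ) ≤ T.Λ ^ (4 * n + 1) * (T.k : ℝ) ^ n * T.mm b (l + 1) := by
  rcases hb.lt_or_eq with hb | rfl
  · exact T.EN2 hT hb hl hc hZ h
  obtain ⟨hk, hk', hΛ, hMΛ, hnΛ, hΛk⟩ := hT.num
  refine (card_nd hk b Z _ (fq T.k b c₁) (ctr T.k b c₁) (tm T.k b c₁) le_rfl hk' fun c hc =>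
    ⟨(h c hc).1, (h c hc).2.1.trans ?_, (h c hc).2.2.trans (le_of_eq (pow_succ' _ _))⟩).trans ?_
  · rw [sub_self, mul_zero, zero_div]; positivity
  · have h1 : (3 * 1 : ℝ) ^ n * (3 : ℝ) ^ n ≤ T.Λ ^ (4 * n + 1) := by
      rw [← mul_pow]
      refine (pow_le_pow_left₀ (by norm_num) (by linarith [hT.Λ_ge.1] : (3 * 1 * 3 : ℝ) ≤ T.Λ) n).trans ?_
      exact pow_le_pow_right₀ hΛ (by omega)
    rw [mul_pow 3 (T.k : ℝ), ← mul_assoc]
    exact (mul_le_mul_of_nonneg_right h1 (by positivity)).trans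
      (le_mul_of_one_le_right (by positivity) (T.mm1 _ _))

namespace Grp

variable {T : Tw n M} {κ : ℕ} {hκ : κ ≤ n} {b m₀ b' a a₁ : ℕ} {G : Finset (Nd n)}
  {O : OrthonormalBasis (Fin n) ℝ (V n)} {ζ₀ : V n} {cs : Nd n → Fin (κ + 1) → Nd n}

theorem bd (D : Grp T hκ b m₀ b' a a₁ G O ζ₀ cs) (hk : 1 ≤ T.k) (ha : a ≤ a₁) {c₀ c : Nd n}
    (h₀ : c₀ ∈ G) (hc : c ∈ G) : |ct T.k b a c₀ c| ≤ (T.k : ℝ) ^ (a₁ - a) ∧
      ∀ l, |cx T.k b a O hκ c₀ c l| ≤ n * (T.k : ℝ) ^ (a₁ - a) := by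
  obtain ⟨_, _, e3, e4⟩ := cell_eq hk (D.cell c hc c₀ h₀)
  obtain ⟨e, rfl⟩ := Nat.exists_eq_add_of_le ha
  rw [Nat.add_sub_cancel_left]
  refine ⟨?_, fun l => ?_⟩
  · rw [ct, abs_div, abs_of_pos (by positivity : (0 : ℝ) < (T.k : ℝ) ^ (2 * b + a)),
      div_le_iff₀ (by positivity)]
    exact e3.trans (le_of_eq (by ring))
  · rw [cx, abs_div, abs_of_pos (by positivity : (0 : ℝ) < (T.k : ℝ) ^ (b + a)),
      div_le_iff₀ (by positivity), ← ps_tm]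
    exact (abs_inner_le O _ _).trans ((e4 _).trans (le_of_eq (by ring)))

theorem near_line (D : Grp T hκ b m₀ b' a a₁ G O ζ₀ cs) (hT : T.Std) (ha : b + a ≤ M)
    {c₀ c c'' : Nd n} (h₀ : c₀ ∈ G) (hc : c ∈ G) (h : Nr T.k T.Λ b (b + a) c c'') (l : Fin κ) :
    |cx T.k b a O hκ c₀ c l - ct T.k b a c₀ c *
      tv O hκ ((T.k : ℝ) ^ b) (fq T.k b c₀) (fq T.k (b + a) c'') l - li T.k b a O hκ c₀ c'' l| ≤
      T.Λ * M := by
  obtain ⟨hk, hk', hΛ, hMΛ, hnΛ, hΛk⟩ := hT.num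
  have e1 := fq_congr T.k b (cell_eq hk (D.cell c hc c₀ h₀)).1
  have hp : (0 : ℝ) < (T.k : ℝ) ^ (b + a) := by positivity
  have hb : (0 : ℝ) < (T.k : ℝ) ^ b := by positivity
  have e : cx T.k b a O hκ c₀ c l - ct T.k b a c₀ c *
      tv O hκ ((T.k : ℝ) ^ b) (fq T.k b c₀) (fq T.k (b + a) c'') l - li T.k b a O hκ c₀ c'' l =
      -⟪O (Fin.castLE hκ l), ps T.k (b + a) c'' (tm T.k b c) - ctr T.k b c⟫ / (T.k : ℝ) ^ (b + a) := by
    simp only [cx, ct, tv, li]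
    rw [ps_sub T.k b c _ (tm T.k b c), ps_sub T.k (b + a) c'' (tm T.k b c₀) (tm T.k b c), ps_tm, e1,
      show 2 * b + a = b + a + b by omega, pow_add _ _ b]
    simp only [inner_sub_right, real_inner_smul_right]
    field_simp; ring
  rw [e, abs_div, abs_neg, abs_of_pos hp, div_le_iff₀ hp]
  exact (abs_inner_le O _ _).trans (h.ps_le (by linarith) ha)

theorem close (D : Grp T hκ b m₀ b' a a₁ G O ζ₀ cs) (hT : T.Std) (c₀ : Nd n) {c c' : Nd n}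
    (hc : c ∈ G) (hc' : c' ∈ G) {ρ : ℝ} (hρ : 1 ≤ ρ)
    (ht : |ct T.k b a c₀ c - ct T.k b a c₀ c'| ≤ ρ)
    (hx : ∀ l, |cx T.k b a O hκ c₀ c l - cx T.k b a O hκ c₀ c' l| ≤ ρ) :
    |tm T.k b c - tm T.k b c'| ≤ ρ * (T.k : ℝ) ^ (2 * b + a) ∧
      ∀ t, ‖ps T.k b c t - ps T.k b c' t‖ ≤ n * (3 * T.Λ ^ 2 * ρ * (T.k : ℝ) ^ (b + a)) := by
  obtain ⟨hk, hk', hΛ, hMΛ, hnΛ, hΛk⟩ := hT.num
  have e1 := (cell_eq hk (D.cell c hc c' hc')).1
  have hp : (0 : ℝ) < (T.k : ℝ) ^ (b + a) := by positivity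
  have hb : (0 : ℝ) < (T.k : ℝ) ^ b := by positivity
  have h1 : |tm T.k b c - tm T.k b c'| ≤ ρ * (T.k : ℝ) ^ (2 * b + a) := by
    rw [ct, ct, ← sub_div, abs_div, abs_of_pos (by positivity : (0 : ℝ) < (T.k : ℝ) ^ (2 * b + a)),
      div_le_iff₀ (by positivity), sub_sub_sub_cancel_right] at ht
    exact ht
  refine ⟨h1, fun t => norm_le_of_inner O _ (by positivity) fun l => ?_⟩
  have hΛ2 : 1 ≤ T.Λ ^ 2 := one_le_pow₀ hΛ
  have hρp : 0 ≤ ρ * (T.k : ℝ) ^ (b + a) := by positivity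
  rcases Nat.lt_or_ge l κ with hl | hl
  · have h2 := hx ⟨l, hl⟩
    simp only [cx] at h2
    rw [← sub_div, abs_div, abs_of_pos hp, div_le_iff₀ hp, ← inner_sub_right,
      sub_sub_sub_cancel_right] at h2
    rw [ps_sub_ps e1 t (tm T.k b c₀)]
    refine le_trans h2 ?_
    nlinarith
  · have h2 := D.leaf c hc c' hc' l hl
    have h3 := D.slab c' hc' b le_rfl (by omega) c' (T.mem_nr.2 ⟨D.sub hc', Nr.refl _ _ _ _⟩) l hl
    rw [lf_sub T.k b _ e1 t, inner_sub_right, real_inner_smul_right] at h2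
    have h4 : |2 * (tm T.k b c - tm T.k b c') * ⟪O l, fq T.k b c' - ζ₀⟫| ≤
        2 * (ρ * (T.k : ℝ) ^ (2 * b + a)) * (T.Λ ^ 2 / (T.k : ℝ) ^ b) := by
      rw [abs_mul, abs_mul, abs_two]
      exact mul_le_mul (by linarith) h3 (abs_nonneg _) (by positivity)
    have h5 : 2 * (ρ * (T.k : ℝ) ^ (2 * b + a)) * (T.Λ ^ 2 / (T.k : ℝ) ^ b) =
        2 * T.Λ ^ 2 * ρ * (T.k : ℝ) ^ (b + a) := by
      rw [show 2 * b + a = b + a + b by omega, pow_add _ _ b]; field_simp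
    have h6 : (T.k : ℝ) ^ (b + a) ≤ T.Λ ^ 2 * ρ * (T.k : ℝ) ^ (b + a) :=
      le_mul_of_one_le_left hp.le (one_le_mul_of_one_le_of_one_le hΛ2 hρ)
    rw [abs_le] at h2 h4 ⊢
    constructor <;> linarith [h2.1, h2.2, h4.1, h4.2]

/-- few cells in a unit cube of the slice -/
theorem mult (D : Grp T hκ b m₀ b' a a₁ G O ζ₀ cs) (hT : T.Std) (c₀ : Nd n) (S : Finset (Nd n))
    (hS : S ⊆ G) (x₀ : Fin κ → ℝ) (τ₀ : ℝ)
    (h : ∀ c ∈ S, |ct T.k b a c₀ c - τ₀| ≤ 1 ∧ ∀ l, |cx T.k b a O hκ c₀ c l - x₀ l| ≤ 1) :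
    ((S.image (L.cell T.k b a)).card : ℝ) ≤ (T.k : ℝ) ^ (3 * n + 1) := by
  obtain ⟨hk, hk', hΛ, hMΛ, hnΛ, hΛk⟩ := hT.num
  have hΛ2 := hT.Λ_ge.1
  rcases S.eq_empty_or_nonempty with rfl | ⟨c₁, hc₁⟩
  · simp
  have key : ∀ c ∈ S, ∀ c' ∈ S, _ := fun c hc c' hc' => D.close hT c₀ (hS hc) (hS hc') one_le_two
    (by have h1 := (h c hc).1; have h2 := (h c' hc').1; rw [abs_le] at h1 h2 ⊢
        constructor <;> linarith [h1.1, h1.2, h2.1, h2.2])
    (fun l => by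
      have h1 := (h c hc).2 l; have h2 := (h c' hc').2 l; rw [abs_le] at h1 h2 ⊢
      constructor <;> linarith [h1.1, h1.2, h2.1, h2.2])
  refine (card_img_le S _ (fun c => c.1 / (T.k : ℤ) ^ a)
    (K := (3 * (n * (6 * T.Λ ^ 2) + 1)) ^ n * (3 * 1) ^ n) fun c' hc' => ?_).trans ?_
  · refine card_cells hk b a _ (c'.1 / (T.k : ℤ) ^ a) (fq T.k b c')
      (ps T.k b c' (((c'.1 / (T.k : ℤ) ^ a : ℤ) : ℝ) * (T.k : ℝ) ^ (2 * b + a))) le_rfl
      (by positivity) fun c hc => ⟨(mem_filter.1 hc).2, ?_, ?_⟩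
    · rw [fq_congr T.k b (cell_eq hk (D.cell c (hS (mem_filter.1 hc).1) c' (hS hc'))).1, sub_self,
        norm_zero]
      positivity
    · exact ((key c (mem_filter.1 hc).1 c' hc').2 _).trans (le_of_eq (by ring))
  · have hp : (0 : ℝ) < (T.k : ℝ) ^ (2 * b + a) := by positivity
    have h1 : ((S.image fun c => c.1 / (T.k : ℤ) ^ a).card : ℝ) ≤ 3 * 3 := by
      refine card_int _ (tm T.k b c₁ / (T.k : ℝ) ^ (2 * b + a)) (by norm_num) fun p hp' => ?_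
      obtain ⟨c, hc, rfl⟩ := mem_image.1 hp'
      have h2 := (key c hc c₁ hc₁).1
      obtain ⟨h3, h4⟩ := ediv_bounds hk c.1 a (2 * b)
      rw [add_comm a] at h3 h4
      have h5 : (0 : ℝ) ≤ (T.k : ℝ) ^ (2 * b) := by positivity
      have h6 : tm T.k b c = (c.1 : ℝ) * (T.k : ℝ) ^ (2 * b) := rfl
      rw [abs_le] at h2 ⊢
      constructor
      · rw [le_sub_comm, div_le_iff₀ hp]; nlinarith [h2.1]
      · rw [sub_le_comm, le_div_iff₀ hp]; nlinarith [h2.2]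
    have h2 : (3 * (n * (6 * T.Λ ^ 2) + 1)) ^ n ≤ ((T.k : ℝ) * T.k) ^ n := by
      refine pow_le_pow_left₀ (by positivity) ?_ n
      have : (n : ℝ) * (6 * T.Λ ^ 2) ≤ T.Λ ^ 3 := by nlinarith [Nat.cast_nonneg (α := ℝ) n]
      have : (100 : ℝ) ≤ T.k := hΛ2.trans hT.Λ_ge.2.2.2
      nlinarith
    have h3 : (3 * 1 : ℝ) ^ n ≤ (T.k : ℝ) ^ n := pw_le hT n (by norm_num) (by nlinarith)
    have h4 : (3 * 3 : ℝ) ≤ T.k := by linarith [hT.Λ_ge.2.2.2]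
    refine (mul_le_mul (mul_le_mul h2 h3 (by positivity) (by positivity)) (h1.trans h4)
      (Nat.cast_nonneg _) (by positivity)).trans (le_of_eq ?_)
    ring

theorem nr_trans (D : Grp T hκ b m₀ b' a a₁ G O ζ₀ cs) (hT : T.Std) (hbb : b ≤ b') {l : ℕ}
    (hb' : b' ≤ l) (hl : l ≤ M) {c θ : Nd n} (hc : c ∈ G) {j : Fin (κ + 1)}
    (h : Nr T.k T.Λ b' l (cs c j) θ) : Nr T.k T.Λ b l c θ :=
  Nr.trans (by linarith [hT.one_le_Λ]) hbb hb' (by have := hT.k_ge; omega)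
    (T.mem_nr.1 (D.near c hc j)).2 h

/-- transversality of all tuples of descendants -/
theorem det_ge (D : Grp T hκ b m₀ (b + (n * m₀ + 2)) a a₁ G O ζ₀ cs) (hT : T.Std)
    (hbig : 2 * ((n + 1).factorial * (((n : ℝ) + 1) * (T.Λ ^ 2) ^ (n + 2))) ≤ (T.k : ℝ) ^ 2)
    {l : ℕ} (hb' : b + (n * m₀ + 2) ≤ l) (hl : l ≤ M) {c₀ : Nd n} (h₀ : c₀ ∈ G)
    (θ : Fin (κ + 1) → Nd n) (hθ : ∀ j, ∃ c ∈ G, Nr T.k T.Λ (b + (n * m₀ + 2)) l (cs c j) (θ j)) :
    1 / (2 * (T.k : ℝ) ^ (n * m₀)) ≤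
      |dt fun j => tv O hκ ((T.k : ℝ) ^ b) (fq T.k b c₀) (fq T.k l (θ j))| := by
  obtain ⟨hk, hk', hΛ, hMΛ, hnΛ, hΛk⟩ := hT.num
  have hM0 : (0 : ℝ) ≤ M := Nat.cast_nonneg _
  have h2M : 2 * T.Λ * M ≤ T.Λ ^ 2 := by nlinarith
  have hΛ2 : 1 ≤ T.Λ ^ 2 := one_le_pow₀ hΛ
  have hb : (0 : ℝ) < (T.k : ℝ) ^ b := by positivity
  have hq : (0 : ℝ) < (T.k : ℝ) ^ (n * m₀) := by positivity
  have h1 := dt_perturb
    (fun j => tv O hκ ((T.k : ℝ) ^ b) (fq T.k b c₀) (fq T.k (b + (n * m₀ + 2)) (cs c₀ j)))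
    (fun j => tv O hκ ((T.k : ℝ) ^ b) (fq T.k b c₀) (fq T.k l (θ j))) hΛ2
    (η := T.Λ ^ 2 / (T.k : ℝ) ^ (n * m₀ + 2)) (by positivity)
    (fun j i => ((T.mem_nr.1 (D.near c₀ h₀ j)).2.tv_le hk (by linarith) (hb'.trans hl) O hκ i).trans h2M)
    (fun j i => by
      obtain ⟨c, hc, h⟩ := hθ j
      rw [← fq_congr T.k b (cell_eq hk (D.cell c hc c₀ h₀)).1]
      exact ((D.nr_trans hT (by omega) hb' hl hc h).tv_le hk (by linarith) hl O hκ i).trans h2M)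
    (fun j i => by
      obtain ⟨c, hc, h⟩ := hθ j
      refine (tv_sub_le O hκ hb.le _ _ _ i).trans ?_
      rw [← fq_congr T.k _ (D.caps c hc c₀ h₀ j), norm_sub_rev]
      refine (mul_le_mul_of_nonneg_left (h.fq_le (by linarith) hl) (by positivity)).trans ?_
      rw [pow_add _ b, le_div_iff₀ (by positivity)]
      refine le_trans (le_of_eq ?_) h2M
      field_simp)
  have h2 := D.det c₀ h₀
  have h3 : 1 / (T.k : ℝ) ^ (n * m₀) ≤ (1 / (T.k : ℝ) ^ m₀) ^ κ := by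
    rw [div_pow, one_pow, ← pow_mul]
    exact one_div_le_one_div_of_le (by positivity)
      (pow_le_pow_right₀ hk' (by rw [mul_comm]; exact Nat.mul_le_mul_right _ hκ))
  have h4 : ((κ + 1).factorial : ℝ) * ((κ + 1) * (T.Λ ^ 2) ^ (κ + 1) *
      (T.Λ ^ 2 / (T.k : ℝ) ^ (n * m₀ + 2))) ≤ 1 / (2 * (T.k : ℝ) ^ (n * m₀)) := by
    have e1 : ((κ + 1).factorial : ℝ) ≤ (n + 1).factorial := by
      exact_mod_cast Nat.factorial_le (by omega)
    have e2 : (κ : ℝ) + 1 ≤ n + 1 := by have : (κ : ℝ) ≤ n := by exact_mod_cast hκ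
                                        linarith
    have e3 : (T.Λ ^ 2) ^ (κ + 1) ≤ (T.Λ ^ 2) ^ (n + 1) := pow_le_pow_right₀ hΛ2 (by omega)
    calc _ ≤ ((n + 1).factorial : ℝ) * ((n + 1) * (T.Λ ^ 2) ^ (n + 1) *
          (T.Λ ^ 2 / (T.k : ℝ) ^ (n * m₀ + 2))) := by gcongr
      _ = 2 * ((n + 1).factorial * (((n : ℝ) + 1) * (T.Λ ^ 2) ^ (n + 2))) / (T.k : ℝ) ^ 2 *
          (1 / (2 * (T.k : ℝ) ^ (n * m₀))) := by rw [pow_add _ _ 2]; field_simp; ring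
      _ ≤ _ := mul_le_of_le_one_left (by positivity) ((div_le_one (by positivity)).2 hbig)
  have h5 : 1 / (T.k : ℝ) ^ (n * m₀) = 2 * (1 / (2 * (T.k : ℝ) ^ (n * m₀))) := by field_simp
  have h6 := abs_sub_abs_le_abs_sub
    (dt fun j => tv O hκ ((T.k : ℝ) ^ b) (fq T.k b c₀) (fq T.k (b + (n * m₀ + 2)) (cs c₀ j)))
    (dt fun j => tv O hκ ((T.k : ℝ) ^ b) (fq T.k b c₀) (fq T.k l (θ j)))
  linarith

/-- energy in a leaf -/
theorem en (D : Grp T hκ b m₀ b' a a₁ G O ζ₀ cs) (hT : T.Std) {u : ℕ} (hu : a + u ≤ a₁)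
    (ha : a₁ ≤ 2 * a) (hM : b + a + u ≤ M) {S : Finset (Nd n)} (hS : S ⊆ T.nS b (b + a) G) :
    (S.card : ℝ) * T.a (b + a) ≤ T.Λ ^ ((9 * n + 2) * u) * (T.k : ℝ) ^ (κ * u) *
      (T.nS (b + a) (b + a + u) S).card * T.a (b + a + u) := by
  obtain ⟨hk, hk', hΛ, hMΛ, hnΛ, hΛk⟩ := hT.num
  have hk2 := hT.k_ge
  rcases G.eq_empty_or_nonempty with rfl | ⟨c₀, h₀⟩
  · have : S = ∅ := eq_empty_of_forall_notMem fun c hc => by
      obtain ⟨_, c', hc', _⟩ := T.mem_nS.1 (hS hc)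
      simp at hc'
    subst this
    have := (T.a0 (b + a + u)).le
    simp only [card_empty, Nat.cast_zero, zero_mul]
    positivity
  refine T.EN1 hT hM hκ (hS.trans (T.nS_subset_al _ _ _)) (s := c₀.1 / (T.k : ℤ) ^ (2 * a))
    (fun c'' hc'' => ?_) O ζ₀ (lf T.k b ζ₀ c₀) 0 (fun c'' hc'' l hl => ?_) fun j hj hj' c' hc' => ?_
  · obtain ⟨_, c, hc, h⟩ := T.mem_nS.1 (hS hc'')
    obtain ⟨e, he⟩ := Nat.exists_eq_add_of_le ha
    rw [h.1, Nat.add_sub_cancel_left, he, ← ediv_ediv hk, ← ediv_ediv hk c₀.1,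
      (cell_eq hk (D.cell c hc c₀ h₀)).2.1]
  · obtain ⟨hal, c, hc, h⟩ := T.mem_nS.1 (hS hc'')
    have h1 := lf_near hk hΛ (by linarith) (by omega) (by omega : b + a ≤ M) h
      (D.slab c hc (b + a) (by omega) (by omega) c'' (T.mem_nr.2 ⟨hal, h⟩)) l hl
    have h2 := D.leaf c hc c₀ h₀ l hl
    rw [sub_zero]
    change |⟪O l, lf T.k (b + a) ζ₀ c'' - lf T.k b ζ₀ c₀⟫| ≤ _
    have hp : (0 : ℝ) < (T.k : ℝ) ^ (b + a) := by positivity
    have h3 : 3 * T.Λ ^ 2 + 1 ≤ T.Λ ^ 4 := by nlinarith [hT.Λ_ge.1, sq_nonneg (T.Λ ^ 2 - 4)]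
    rw [inner_sub_right] at h1 h2 ⊢
    rw [abs_le] at h1 h2 ⊢
    constructor <;> nlinarith [h1.1, h1.2, h2.1, h2.2]
  · obtain ⟨hal, c'', hc'', h'⟩ := T.mem_nS.1 hc'
    obtain ⟨_, c, hc, h⟩ := T.mem_nS.1 (hS hc'')
    exact D.slab c hc j (by omega) (by omega) c'
      (T.mem_nr.2 ⟨hal, Nr.trans (by linarith) (by omega) hj.le (by omega) h h'⟩)

/-- absorption of the descendants of one family -/
theorem absorb (D : Grp T hκ b m₀ b' a a₁ G O ζ₀ cs) (hT : T.Std) (hbb : b ≤ b')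
    (hb' : b' ≤ b + a₁) (hM : b + a₁ + 1 ≤ M) (j : Fin (κ + 1)) :
    ((T.nS b' (b + a₁) (G.image fun c => cs c j)).card : ℝ) ≤
      T.Λ ^ (4 * n + 1) * (T.k : ℝ) ^ n * T.mm b' (b + a₁ + 1) := by
  obtain ⟨hk, hk', hΛ, hMΛ, hnΛ, hΛk⟩ := hT.num
  rcases G.eq_empty_or_nonempty with rfl | ⟨c₀, h₀⟩
  · have : T.nS b' (b + a₁) ((∅ : Finset (Nd n)).image fun c => cs c j) = ∅ :=
      eq_empty_of_forall_notMem fun c hc => by
        obtain ⟨_, c', hc', _⟩ := T.mem_nS.1 hc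
        simp at hc'
    rw [this]
    have := T.mm1 b' (b + a₁ + 1)
    simp only [card_empty, Nat.cast_zero]
    positivity
  obtain ⟨n1, n2⟩ := T.mem_nr.1 (D.near c₀ h₀ j)
  refine T.EN2' hT hb' hM n1 (T.nS_subset_al _ _ _) fun z hz => ?_
  obtain ⟨_, c₂, hc₂, h⟩ := T.mem_nS.1 hz
  obtain ⟨c, hc, rfl⟩ := mem_image.1 hc₂
  have n3 := (T.mem_nr.1 (D.near c hc j)).2
  obtain ⟨e1, e2, e3, e4⟩ := cell_eq hk (D.cell c hc c₀ h₀)
  have e5 := D.caps c hc c₀ h₀ j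
  refine ⟨?_, by rw [← fq_congr T.k b' e5]; exact h.2.1, ?_⟩
  · rw [h.1, n3.1, n2.1, ediv_ediv hk, ediv_ediv hk,
      show 2 * (b' - b) + 2 * (b + a₁ - b') = a₁ + a₁ by omega, ← ediv_ediv hk,
      ← ediv_ediv hk c₀.1, e2]
  · have hl : b + a₁ ≤ M := by omega
    have hb'M : b' ≤ M := by omega
    have t1 := n2.tm_le hk hbb
    have t2 := n3.tm_le hk hbb
    have t3 : |tm T.k b' (cs c₀ j) - tm T.k b' (cs c j)| ≤
        2 * (T.k : ℝ) ^ (2 * b') + (T.k : ℝ) ^ (2 * b + a₁) := by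
      rw [abs_le] at t1 t2 e3 ⊢
      constructor <;> linarith [t1.1, t1.2, t2.1, t2.2, e3.1, e3.2]
    have p1 := h.ps_at (by linarith) hl _ _ t3
    have p2 := n3.ps_le (by linarith) hb'M
    have p3 := e4 (tm T.k b c)
    have p4 := n2.ps_at (by linarith) hb'M _ _ e3
    have e : ps T.k (b + a₁) z (tm T.k b' (cs c₀ j)) - ctr T.k b' (cs c₀ j) =
        (ps T.k (b + a₁) z (tm T.k b' (cs c₀ j)) - ps T.k b' (cs c j) (tm T.k b' (cs c₀ j))) +
        ((ps T.k b' (cs c j) (tm T.k b c) - ctr T.k b c) +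
          (ps T.k b c (tm T.k b c) - ps T.k b c₀ (tm T.k b c)) -
          (ps T.k b' (cs c₀ j) (tm T.k b c) - ps T.k b c₀ (tm T.k b c))) := by
      have := ps_sub_ps (k := T.k) (b := b') e5 (tm T.k b' (cs c₀ j)) (tm T.k b c)
      rw [ps_tm] at this
      rw [ps_tm, ← sub_add_sub_cancel _ (ps T.k b' (cs c j) (tm T.k b' (cs c₀ j))) _, this]
      abel
    rw [e]
    refine (norm_add_le _ _).trans ((add_le_add le_rfl ((norm_sub_le _ _).trans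
      (add_le_add (norm_add_le _ _) le_rfl))).trans ?_)
    have hp : (0 : ℝ) < (T.k : ℝ) ^ (b + a₁) := by positivity
    have hM0 : (0 : ℝ) ≤ M := Nat.cast_nonneg _
    have hΛM : 0 ≤ T.Λ * M := by positivity
    have q1 : (T.k : ℝ) ^ b' ≤ (T.k : ℝ) ^ (b + a₁) := pow_le_pow_right₀ hk' hb'
    have q2 : 2 * (T.k : ℝ) ^ (2 * b + a₁) * (T.Λ * M / (T.k : ℝ) ^ b) =
        2 * (T.Λ * M) * (T.k : ℝ) ^ (b + a₁) := by
      rw [show 2 * b + a₁ = b + a₁ + b by omega, pow_add _ _ b]; field_simp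
    have q3 : 2 * (2 * (T.k : ℝ) ^ (2 * b') + (T.k : ℝ) ^ (2 * b + a₁)) * (T.Λ * M / (T.k : ℝ) ^ b') ≤
        6 * (T.Λ * M) * (T.k : ℝ) ^ (b + a₁) := by
      have r1 : (T.k : ℝ) ^ (2 * b') ≤ (T.k : ℝ) ^ (b + a₁) * (T.k : ℝ) ^ b' := by
        rw [← pow_add]; exact pow_le_pow_right₀ hk' (by omega)
      have r2 : (T.k : ℝ) ^ (2 * b + a₁) ≤ (T.k : ℝ) ^ (b + a₁) * (T.k : ℝ) ^ b' := by
        rw [← pow_add]; exact pow_le_pow_right₀ hk' (by omega)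
      calc _ ≤ 2 * (3 * ((T.k : ℝ) ^ (b + a₁) * (T.k : ℝ) ^ b')) * (T.Λ * M / (T.k : ℝ) ^ b') := by
            gcongr; linarith
        _ = _ := by field_simp; ring
    have q4 : T.Λ * M * (T.k : ℝ) ^ b' ≤ T.Λ * M * (T.k : ℝ) ^ (b + a₁) := by gcongr
    have q5 : 11 * (T.Λ * M) + n ≤ T.k := by
      have r1 : T.Λ * M ≤ T.Λ * (T.Λ / 100) := by gcongr
      have r2 : T.Λ ^ 2 ≤ T.Λ ^ 3 := pow_le_pow_right₀ hΛ (by norm_num)
      nlinarith
    have q6 := mul_le_mul_of_nonneg_right q5 hp.le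
    rw [pow_succ]
    linarith

end Grp

end Crest.Agent.N76.L
end

-- ▼ part N76/L/Core

/-! # Row 76, Part I (helper15): the broad core `CoreS n`. -/

set_option autoImplicit false

open Finset
open scoped RealInnerProductSpace

namespace Crest.Agent.N76.L

open Crest.Agent.N76.Red (V)
open Crest.Agent.N76.G

variable {n M : ℕ}

/-- multilinear Kakeya with constant `C` -/
def MKc (n κ : ℕ) (C ε : ℝ) : Prop :=
  ∀ (s : Fin (κ + 1) → Finset (Nd n)) (w : Nd n → ℝ) (p u : Nd n → Fin (κ + 1) → ℝ)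
    (X : Finset (Nd n)) (x : Nd n → Fin (κ + 1) → ℝ) (A : Nd n → Fin (κ + 1) → Finset (Nd n))
    (θ ρ R m : ℝ), 0 < θ → θ ≤ 1 → 1 ≤ ρ → 1 ≤ R → (∀ j, ∀ l ∈ s j, 0 ≤ w l) →
    (∀ j, ∀ l ∈ s j, ∀ i, |u l i| ≤ 1) → (∀ a ∈ X, ∀ i, |x a i| ≤ R) → MK.Mult X x m →
    (∀ a ∈ X, ∀ j, A a j ⊆ s j) →
    (∀ a ∈ X, ∀ j, ∀ l ∈ A a j, ∃ t : ℝ, ∀ i, |x a i - (p l i + t * u l i)| ≤ ρ) →
    (∀ a ∈ X, ∀ l : Fin (κ + 1) → Nd n, (∀ j, l j ∈ A a j) →
      θ ≤ |(Matrix.of fun i j => u (l j) i).det|) →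
    ∑ a ∈ X, ∏ j, (∑ l ∈ A a j, w l) ^ ((1 : ℝ) / κ) ≤
      C * m * ρ ^ (κ + 1) / θ ^ ((κ + 1) * (κ + 2)) * R ^ ε * ∏ j, (∑ l ∈ s j, w l) ^ ((1 : ℝ) / κ)

theorem good_mkc (M κ : ℕ) :
    Good n M fun T => 1 ≤ κ → ∃ C, 0 < C ∧ C ≤ T.Λ ∧ MKc n κ C (1 / ((M : ℝ) + 1)) := by
  by_cases h : 1 ≤ κ
  · obtain ⟨C, h1, h2⟩ := MK.mk.{0, 0} (D := Fin (κ + 1)) (Fintype.card_fin _) h
      (1 / ((M : ℝ) + 1)) (by positivity)
    exact ⟨0, C, fun T hC _ _ => ⟨C, h1, hC, fun s w p u X x A => h2 s w p u X x A⟩⟩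
  · exact good_true fun _ h' => absurd h' h

theorem rpow_prod_const {κ : ℕ} (h1 : 1 ≤ κ) {x : ℝ} (hx : 0 ≤ x) :
    ∏ _j : Fin (κ + 1), x ^ ((1 : ℝ) / κ) = x ^ (((κ : ℝ) + 1) / κ) := by
  rw [prod_const, card_univ, Fintype.card_fin, ← Real.rpow_natCast, ← Real.rpow_mul hx]
  congr 1; push_cast; ring

/-- exponent of the loss in the group inequality -/
def eMK (n m₀ : ℕ) : ℕ := 4 * n + 4 + (n * m₀ + n + 2) * ((n + 1) * (n + 2))

theorem Grp.mk' {T : Tw n M} {κ : ℕ} {hκ : κ ≤ n} {b m₀ a a₁ : ℕ} {G : Finset (Nd n)}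
    {O : OrthonormalBasis (Fin n) ℝ (V n)} {ζ₀ : V n} {cs : Nd n → Fin (κ + 1) → Nd n}
    (D : Grp T hκ b m₀ (b + (n * m₀ + 2)) a a₁ G O ζ₀ cs) (hT : T.Std) (h1 : 1 ≤ κ)
    (hbig : 2 * ((n + 1).factorial * (((n : ℝ) + 1) * (T.Λ ^ 2) ^ (n + 2))) ≤ (T.k : ℝ) ^ 2)
    {C : ℝ} (hC0 : 0 < C) (hC : C ≤ T.Λ) (hMK : MKc n κ C (1 / ((M : ℝ) + 1)))
    (hm : n * m₀ + 2 ≤ a) (ha : a ≤ a₁) (ha₁ : a₁ ≤ 2 * a) (hM : b + a ≤ M) {W : ℝ} (hW0 : 0 ≤ W)
    (hW : ∀ j, ((T.nS (b + (n * m₀ + 2)) (b + a) (G.image fun c => cs c j)).card : ℝ) ≤ W) :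
    ((G.image (L.cell T.k b a)).card : ℝ) *
      T.mm (b + (n * m₀ + 2)) (b + a) ^ (((κ : ℝ) + 1) / κ) ≤
      (T.k : ℝ) ^ eMK n m₀ * W ^ (((κ : ℝ) + 1) / κ) := by
  obtain ⟨hk, hk', hΛ, hMΛ, hnΛ, hΛk⟩ := hT.num
  rcases G.eq_empty_or_nonempty with rfl | ⟨c₀, h₀⟩
  · simp only [image_empty, card_empty, Nat.cast_zero, zero_mul]; positivity
  obtain ⟨Y, hYG, hinj, hY⟩ := Finset.exists_subset_injOn_image_eq_of_surjOn
    (f := L.cell T.k b a) (G : Set (Nd n)) (G.image (L.cell T.k b a)) (by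
      rw [coe_image]; exact Set.surjOn_image _ _)
  have hYG' : Y ⊆ G := fun c hc => mem_coe.1 (hYG (mem_coe.2 hc))
  have hΛ2 : 1 ≤ T.Λ ^ 2 := one_le_pow₀ hΛ
  have hΛ2k : T.Λ ^ 2 ≤ T.k := (pow_le_pow_right₀ hΛ (by norm_num)).trans hΛk
  have hΛ20 : 0 < T.Λ ^ 2 := by positivity
  have hM0 : (0 : ℝ) ≤ M := Nat.cast_nonneg _
  have hn0 : (0 : ℝ) ≤ n := Nat.cast_nonneg _
  have h2M : 2 * T.Λ * M ≤ T.Λ ^ 2 := by nlinarith
  set b' := b + (n * m₀ + 2) with hb'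
  set v : Nd n → Fin κ → ℝ := fun l =>
    tv O hκ ((T.k : ℝ) ^ b) (fq T.k b c₀) (fq T.k (b + a) l) with hv
  set θ : ℝ := (T.Λ ^ 2)⁻¹ ^ (κ + 1) * (1 / (2 * (T.k : ℝ) ^ (n * m₀))) with hθ
  have hq : (1 : ℝ) ≤ (T.k : ℝ) ^ (n * m₀) := one_le_pow₀ hk'
  have hθ0 : 0 < θ := by positivity
  have hθ1 : θ ≤ 1 := mul_le_one₀ (pow_le_one₀ (by positivity) (inv_le_one_of_one_le₀ hΛ2))
    (by positivity) ((div_le_one (by positivity)).2 (by linarith))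
  have hkM : (1 : ℝ) ≤ (T.k : ℝ) ^ M := one_le_pow₀ hk'
  have key := hMK (fun j => T.nS b' (b + a) (G.image fun c => cs c j)) (fun _ => 1)
    (fun l => Fin.cons 0 (li T.k b a O hκ c₀ l))
    (fun l i => (T.Λ ^ 2)⁻¹ * (Fin.cons 1 (v l) : Fin (κ + 1) → ℝ) i) Y
    (fun c => Fin.cons (ct T.k b a c₀ c) (cx T.k b a O hκ c₀ c))
    (fun c j => T.nr b' (b + a) (cs c j)) θ (T.Λ ^ 2) ((n + 1) * (T.k : ℝ) ^ M)
    ((T.k : ℝ) ^ (3 * n + 1)) hθ0 hθ1 hΛ2 (by nlinarith) (fun _ _ _ => zero_le_one) ?_ ?_ ?_ ?_ ?_ ?_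
  · have hmm := T.mm1 b' (b + a)
    have e1 : ((G.image (L.cell T.k b a)).card : ℝ) * T.mm b' (b + a) ^ (((κ : ℝ) + 1) / κ) ≤
        ∑ c ∈ Y, ∏ j, (∑ _l ∈ T.nr b' (b + a) (cs c j), (1 : ℝ)) ^ ((1 : ℝ) / κ) := by
      rw [← hY, card_image_of_injOn hinj, ← nsmul_eq_mul, ← sum_const]
      refine sum_le_sum fun c hc => ?_
      rw [← rpow_prod_const h1 (by linarith)]
      refine prod_le_prod (fun _ _ => by positivity) fun j _ => ?_
      refine Real.rpow_le_rpow (by linarith) ?_ (by positivity)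
      rw [sum_const, nsmul_eq_mul, mul_one]
      exact (T.mmc b' (b + a) (by omega) hM _ (T.mem_nr.1 (D.near c (hYG' hc) j)).1).1
    have e2 : ∏ j, (∑ _l ∈ T.nS b' (b + a) (G.image fun c => cs c j), (1 : ℝ)) ^ ((1 : ℝ) / κ) ≤
        W ^ (((κ : ℝ) + 1) / κ) := by
      rw [← rpow_prod_const h1 hW0]
      refine prod_le_prod (fun _ _ => by positivity) fun j _ => ?_
      refine Real.rpow_le_rpow (by positivity) ?_ (by positivity)
      rw [sum_const, nsmul_eq_mul, mul_one]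
      exact hW j
    have e3 : (((n : ℝ) + 1) * (T.k : ℝ) ^ M) ^ (1 / ((M : ℝ) + 1)) ≤ T.k := by
      have : ((n : ℝ) + 1) * (T.k : ℝ) ^ M ≤ (T.k : ℝ) ^ (M + 1) := by
        rw [pow_succ']
        gcongr
        linarith [hT.Λ_ge.2.1, hT.Λ_ge.2.2.2]
      refine (Real.rpow_le_rpow (by positivity) this (by positivity)).trans (le_of_eq ?_)
      rw [one_div, ← Nat.cast_succ, Real.pow_rpow_inv_natCast (by positivity) (Nat.succ_ne_zero _)]
    have e4 : 1 / θ ^ ((κ + 1) * (κ + 2)) ≤ (T.k : ℝ) ^ ((n * m₀ + n + 2) * ((n + 1) * (n + 2))) := by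
      have f1 : 1 / θ ≤ (T.k : ℝ) ^ (n * m₀ + n + 2) := by
        have f2 : (T.Λ ^ 2) ^ (κ + 1) ≤ (T.k : ℝ) ^ (n + 1) :=
          (pow_le_pow_left₀ hΛ20.le hΛ2k _).trans (pow_le_pow_right₀ hk' (by omega))
        have f3 : (2 : ℝ) ≤ T.k := by exact_mod_cast hT.two_le_k
        calc 1 / θ = (T.Λ ^ 2) ^ (κ + 1) * (2 * (T.k : ℝ) ^ (n * m₀)) := by
              rw [hθ, inv_pow]; field_simp
          _ ≤ (T.k : ℝ) ^ (n + 1) * (T.k * (T.k : ℝ) ^ (n * m₀)) := by gcongr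
          _ = _ := by ring
      rw [← one_div_pow, pow_mul (T.k : ℝ)]
      refine (pow_le_pow_left₀ (by positivity) f1 _).trans
        (pow_le_pow_right₀ (one_le_pow₀ hk') (Nat.mul_le_mul (by omega) (by omega)))
    have e5 : (T.Λ ^ 2) ^ (κ + 1) ≤ (T.k : ℝ) ^ (n + 1) :=
      (pow_le_pow_left₀ hΛ20.le hΛ2k _).trans (pow_le_pow_right₀ hk' (by omega))
    refine e1.trans (key.trans (mul_le_mul ?_ e2 (prod_nonneg fun _ _ => by positivity)
      (by positivity)))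
    have e6 : C ≤ T.k := hC.trans hT.Λ_ge.2.2.2
    calc _ = C * (T.k : ℝ) ^ (3 * n + 1) * (T.Λ ^ 2) ^ (κ + 1) * (1 / θ ^ ((κ + 1) * (κ + 2))) *
          (((n : ℝ) + 1) * (T.k : ℝ) ^ M) ^ (1 / ((M : ℝ) + 1)) := by ring
      _ ≤ T.k * (T.k : ℝ) ^ (3 * n + 1) * (T.k : ℝ) ^ (n + 1) *
          (T.k : ℝ) ^ ((n * m₀ + n + 2) * ((n + 1) * (n + 2))) * T.k := by gcongr
      _ = _ := by rw [eMK]; ring
  · intro j l hl i
    obtain ⟨_, c', hc', h⟩ := T.mem_nS.1 hl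
    obtain ⟨c, hc, rfl⟩ := mem_image.1 hc'
    rw [abs_mul, abs_of_pos (inv_pos.2 hΛ20), inv_mul_le_iff₀ hΛ20, mul_one]
    refine Fin.cases (by simpa using hΛ2) (fun i => ?_) i
    rw [Fin.cons_succ, hv]
    dsimp only
    rw [← fq_congr T.k b (cell_eq hk (D.cell c hc c₀ h₀)).1]
    exact ((D.nr_trans hT (by omega) (by omega) hM hc h).tv_le hk (by linarith) hM O hκ i).trans h2M
  · intro c hc i
    obtain ⟨f1, f2⟩ := D.bd hk ha h₀ (hYG' hc)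
    have f3 : (T.k : ℝ) ^ (a₁ - a) ≤ (T.k : ℝ) ^ M := pow_le_pow_right₀ hk' (by omega)
    refine Fin.cases ?_ (fun i => ?_) i
    · rw [Fin.cons_zero]; nlinarith
    · rw [Fin.cons_succ]; nlinarith [f2 i]
  · intro y
    have key : ∀ S : Finset (Nd n), (∀ c ∈ S, c ∈ Y ∧ ∀ i,
        |(Fin.cons (ct T.k b a c₀ c) (cx T.k b a O hκ c₀ c) : Fin (κ + 1) → ℝ) i - y i| ≤ 1) →
        (S.card : ℝ) ≤ (T.k : ℝ) ^ (3 * n + 1) := by
      intro S hS
      have hSY : S ⊆ Y := fun c hc => (hS c hc).1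
      rw [← card_image_of_injOn (hinj.mono (coe_subset.2 hSY))]
      refine D.mult hT c₀ _ (hSY.trans hYG') (fun l => y l.succ) (y 0) fun c hc => ?_
      have := (hS c hc).2
      exact ⟨by simpa using this 0, fun l => by simpa using this l.succ⟩
    exact key _ fun c hc => by simpa only [mem_filter] using hc
  · intro c hc j l hl
    obtain ⟨f1, f2⟩ := T.mem_nr.1 hl
    exact T.mem_nS.2 ⟨f1, _, mem_image_of_mem _ (hYG' hc), f2⟩
  · intro c hc j l hl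
    refine ⟨T.Λ ^ 2 * ct T.k b a c₀ c, fun i => Fin.cases ?_ (fun i => ?_) i⟩
    · simp only [Fin.cons_zero]
      rw [zero_add, mul_one, mul_right_comm, mul_inv_cancel₀ hΛ20.ne', one_mul, sub_self, abs_zero]
      exact hΛ20.le
    · simp only [Fin.cons_succ]
      have f1 := D.near_line hT hM h₀ (hYG' hc)
        (D.nr_trans hT (by omega) (by omega) hM (hYG' hc) (T.mem_nr.1 hl).2) i
      have f2 : T.Λ ^ 2 * ct T.k b a c₀ c * ((T.Λ ^ 2)⁻¹ * v l i) = ct T.k b a c₀ c * v l i := by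
        field_simp
      rw [f2, add_comm, ← sub_sub]
      exact f1.trans (by nlinarith)
  · intro c hc l hl
    have f1 := D.det_ge hT hbig (by omega) hM h₀ l fun j => ⟨c, hYG' hc, (T.mem_nr.1 (hl j)).2⟩
    have f2 : (Matrix.of fun i j => (T.Λ ^ 2)⁻¹ * (Fin.cons 1 (v (l j)) : Fin (κ + 1) → ℝ) i) =
        (T.Λ ^ 2)⁻¹ • Matrix.of fun i j => (Fin.cons 1 (v (l j)) : Fin (κ + 1) → ℝ) i := rfl
    rw [f2, Matrix.det_smul, Fintype.card_fin, abs_mul, abs_of_pos (by positivity)]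
    exact mul_le_mul_of_nonneg_left f1 (by positivity)

/-- the number of tubes of one family in one leaf -/
theorem Grp.card_fam {T : Tw n M} {κ : ℕ} {hκ : κ ≤ n} {b m₀ b' a a₁ : ℕ} {G : Finset (Nd n)}
    {O : OrthonormalBasis (Fin n) ℝ (V n)} {ζ₀ : V n} {cs : Nd n → Fin (κ + 1) → Nd n}
    (D : Grp T hκ b m₀ b' a a₁ G O ζ₀ cs) (hT : T.Std) (hN : T.Λ ^ ((9 * n + 2) * M) ≤ T.k)
    (hbb : b ≤ b') (hb' : b' ≤ b + a) (ha : a ≤ a₁) (ha₁ : a₁ ≤ 2 * a) (hM : b + a₁ + 1 ≤ M)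
    (j : Fin (κ + 1)) :
    ((T.nS b' (b + a) (G.image fun c => cs c j)).card : ℝ) ≤
      (T.k : ℝ) ^ (κ * (a₁ - a) + (15 * n + 4)) *
        (T.mm b' (b + a₁ + 1) * (T.a (b + a₁ + 1) / T.a (b + a))) := by
  obtain ⟨hk, hk', hΛ, hMΛ, hnΛ, hΛk⟩ := hT.num
  obtain ⟨u, rfl⟩ := Nat.exists_eq_add_of_le ha
  rw [Nat.add_sub_cancel_left]
  have h1 := D.en hT (u := u) le_rfl ha₁ (by omega)
    (S := T.nS b' (b + a) (G.image fun c => cs c j)) fun l hl => by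
      obtain ⟨f, c', hc', h⟩ := T.mem_nS.1 hl
      obtain ⟨c, hc, rfl⟩ := mem_image.1 hc'
      exact T.mem_nS.2 ⟨f, c, hc, D.nr_trans hT hbb hb' (by omega) hc h⟩
  have h2 := D.absorb hT hbb (by omega) hM j
  have h3 : ((T.nS (b + a) (b + a + u) (T.nS b' (b + a) (G.image fun c => cs c j))).card : ℝ) ≤
      (T.nS b' (b + (a + u)) (G.image fun c => cs c j)).card := by
    rw [← add_assoc]
    exact_mod_cast card_le_card (T.nS_nS_subset hT hb' (by omega) (by omega) _)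
  have h4 := T.a_step hT hM
  rw [← add_assoc] at h4
  have h5 : T.Λ ^ ((9 * n + 2) * u) ≤ T.k :=
    (pow_le_pow_right₀ hΛ (Nat.mul_le_mul_left _ (by omega))).trans hN
  have h6 : T.Λ ≤ T.k := hT.Λ_ge.2.2.2
  have p1 := T.a0 (b + a)
  have p2 := (T.a0 (b + a + u)).le
  have p3 := (T.a0 (b + a + u + 1)).le
  have p4 : 0 ≤ T.mm b' (b + (a + u) + 1) := zero_le_one.trans (T.mm1 _ _)
  rw [← mul_div_assoc, ← mul_div_assoc, le_div_iff₀ p1]
  refine h1.trans ?_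
  calc _ ≤ T.k * (T.k : ℝ) ^ (κ * u) *
        ((T.k : ℝ) ^ (4 * n + 1) * (T.k : ℝ) ^ n * T.mm b' (b + (a + u) + 1)) *
        ((T.k : ℝ) ^ (8 * n + 2) * (T.k : ℝ) ^ (2 * n) * T.a (b + a + u + 1)) := by
        gcongr
        · refine (h3.trans h2).trans ?_
          gcongr
        · refine h4.trans ?_
          gcongr
    _ = _ := by rw [← add_assoc b a u]; ring

theorem card_img_le_sum {α β γ : Type*} [DecidableEq β] [DecidableEq γ] (S : Finset α) (f : α → β)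
    (g : α → γ) : ((S.image f).card : ℝ) ≤
      ∑ y ∈ S.image g, (((S.filter fun x => g x = y).image f).card : ℝ) := by
  have h1 : S.image f ⊆ (S.image g).biUnion fun y => (S.filter fun x => g x = y).image f := by
    intro z hz
    obtain ⟨a, ha, rfl⟩ := mem_image.1 hz
    exact mem_biUnion.2 ⟨g a, mem_image_of_mem _ ha, mem_image_of_mem _ (mem_filter.2 ⟨ha, rfl⟩)⟩
  exact_mod_cast (card_le_card h1).trans card_biUnion_le

theorem Tw.lg_rpow (T : Tw n M) {x : ℝ} (hx : 0 < x) (p : ℝ) : T.lg (x ^ p) = p * T.lg x :=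
  Real.logb_rpow_eq_mul_logb_of_pos hx

/-- exponent of the loss in the counting of groups -/
def eGr (n m₀ : ℕ) : ℕ := (n * m₀ + 2 + 1) * n * (n + 1) + 3 * n

/-- the constant of the core -/
def cCore (n : ℕ) : ℕ := eMK n 1 + eGr n 1 + 2 * (15 * n + 4)

theorem cCore_le (n : ℕ) {m₀ : ℕ} (h : 1 ≤ m₀) :
    (eMK n m₀ : ℝ) + eGr n m₀ + 2 * (15 * n + 4) ≤ cCore n * m₀ := by
  have : eMK n m₀ + eGr n m₀ + 2 * (15 * n + 4) ≤ cCore n * m₀ := by
    obtain ⟨e, rfl⟩ := Nat.exists_eq_add_of_le h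
    unfold cCore eMK eGr
    nlinarith [Nat.zero_le (e * n), Nat.zero_le (e * n * n), Nat.zero_le (e * n * n * n)]
  exact_mod_cast this

theorem core (n : ℕ) : CoreS n := by
  refine ⟨cCore n, by exact_mod_cast (by unfold cCore; omega : 1 ≤ cCore n), fun M => ?_⟩
  refine ((good_std M ((9 * n + 2) * M + (2 * n + 5))
    (2 * ((n + 1).factorial * ((n : ℝ) + 1)))).and
    (Good.forall_le n fun κ _ => good_mkc M κ)).mono ?_
  rintro T ⟨⟨hT, hC, hN⟩, hmk⟩ κ b m₀ a a₁ N h1 hκ hm hma ha ha₁ hM hNs hne hbr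
  obtain ⟨C, hC0, hCΛ, hMK⟩ := hmk κ hκ h1
  obtain ⟨hk, hk', hΛ, hMΛ, hnΛ, hΛk⟩ := hT.num
  have hN1 : T.Λ ^ ((9 * n + 2) * M) ≤ T.k := (pow_le_pow_right₀ hΛ (by omega)).trans hN
  have hbig : 2 * ((n + 1).factorial * (((n : ℝ) + 1) * (T.Λ ^ 2) ^ (n + 2))) ≤ (T.k : ℝ) ^ 2 := by
    calc _ = 2 * ((n + 1).factorial * ((n : ℝ) + 1)) * T.Λ ^ (2 * n + 4) := by ring
      _ ≤ T.Λ * T.Λ ^ (2 * n + 4) := by gcongr
      _ = T.Λ ^ (2 * n + 5) := by ring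
      _ ≤ T.k := (pow_le_pow_right₀ hΛ (by omega)).trans hN
      _ ≤ _ := by nlinarith
  have hmm₀ : m₀ ≤ n * m₀ := Nat.le_mul_of_pos_left _ (by omega)
  set b' := b + (n * m₀ + 2) with hb'
  have hbb : b' - b = n * m₀ + 2 := by omega
  have hκ0 : (0 : ℝ) < κ := by exact_mod_cast h1
  have hκ1 : (1 : ℝ) ≤ κ := by exact_mod_cast h1
  have hp : ((κ : ℝ) + 1) / κ = 1 + 1 / κ := by field_simp
  have hcc := cCore_le n hm
  have hpos : ∀ S : Finset (Nd n), S.Nonempty → (0 : ℝ) < S.card := fun S h => by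
    exact_mod_cast h.card_pos
  have hmm : ∀ i j, 0 < T.mm i j := fun i j => one_pos.trans_le (T.mm1 i j)
  have hL : T.cc b a N + ((κ : ℝ) + 1) / κ * T.m b' (b + a) =
      T.lg ((N.image (cell T.k b a)).card * T.mm b' (b + a) ^ (((κ : ℝ) + 1) / κ)) := by
    rw [T.lg_mul (hpos _ (hne.image _)) (Real.rpow_pos_of_pos (hmm _ _) _), T.lg_rpow (hmm _ _)]
    rfl
  have hL0 : (0 : ℝ) < (N.image (cell T.k b a)).card * T.mm b' (b + a) ^ (((κ : ℝ) + 1) / κ) :=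
    mul_pos (hpos _ (hne.image _)) (Real.rpow_pos_of_pos (hmm _ _) _)
  have hnS := hpos _ (T.nS_nonempty (by omega : b ≤ b + a) hM hNs hne)
  -- the inequality with the sum over the tubes
  have keyA : ∀ {O ζ₀ cs gl}, Dec T hκ b m₀ b' a (2 * a) N O ζ₀ cs gl → ∀ W : ℝ, 0 < W →
      (∀ y j, ((T.nS b' (b + a) ((N.filter fun c => gl c = y).image fun c => cs c j)).card : ℝ) ≤ W) →
      T.cc b a N + ((κ : ℝ) + 1) / κ * T.m b' (b + a) ≤
        eMK n m₀ + eGr n m₀ + T.C (T.nS b (b + a) N) + 1 / κ * T.lg W := by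
    intro O ζ₀ cs gl D W hW0 hW
    have e1 : ((N.image (cell T.k b a)).card : ℝ) * T.mm b' (b + a) ^ (((κ : ℝ) + 1) / κ) ≤
        (T.k : ℝ) ^ eMK n m₀ * ((T.k : ℝ) ^ eGr n m₀ * (T.nS b (b + a) N).card) *
          W ^ ((1 : ℝ) / κ) := by
      have e2 := D.sum_nS hT (by omega) (by omega) hM
      rw [hbb] at e2
      refine (mul_le_mul_of_nonneg_right (card_img_le_sum N _ gl)
        (Real.rpow_nonneg (hmm _ _).le _)).trans (le_trans ?_ (mul_le_mul_of_nonneg_right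
          (mul_le_mul_of_nonneg_left e2 (by positivity)) (by positivity)))
      rw [sum_mul, mul_sum, sum_mul]
      refine sum_le_sum fun y _ => ?_
      have G := D.grp hk y
      set s : ℝ := ((T.nS b (b + a) (N.filter fun c => gl c = y)).card : ℝ) with hs
      have hs0 : 0 ≤ s := Nat.cast_nonneg _
      have h0 : 0 ≤ min s W := le_min hs0 hW0.le
      refine (G.mk' hT h1 hbig hC0 hCΛ hMK hma (by omega) le_rfl hM h0 fun j =>
        le_min ?_ (hW y j)).trans ?_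
      · refine Nat.cast_le.2 (card_le_card fun l hl => ?_)
        obtain ⟨f, c', hc', h⟩ := T.mem_nS.1 hl
        obtain ⟨c, hc, rfl⟩ := mem_image.1 hc'
        exact T.mem_nS.2 ⟨f, c, hc, G.nr_trans hT (by omega) (by omega) hM hc h⟩
      · rw [mul_assoc, hp, Real.rpow_add' h0 (by positivity), Real.rpow_one]
        gcongr
        · exact min_le_left _ _
        · exact min_le_right _ _
    rw [hL]
    refine (Tw.lg_mono hT hL0 e1).trans (le_of_eq ?_)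
    rw [T.lg_mul (by positivity) (by positivity), T.lg_mul (by positivity) (by positivity),
      T.lg_mul (by positivity) hnS, Tw.lg_pow hT, Tw.lg_pow hT, T.lg_rpow hW0, Tw.C]
    ring
  refine ⟨fun hκn => ?_, fun hM1 hnar w hw => ?_⟩
  · obtain ⟨O, ζ₀, cs, gl, D⟩ := T.exists_dec hT (b' := b') (a₁ := 2 * a) a h1 hκ hm (by omega)
      (by omega) (by omega) hNs hbr (Or.inl hκn)
    have e1 := keyA D _ hnS fun y j => by
      refine Nat.cast_le.2 (card_le_card fun l hl => ?_)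
      obtain ⟨f, c', hc', h⟩ := T.mem_nS.1 hl
      obtain ⟨c, hc, rfl⟩ := mem_image.1 hc'
      exact T.mem_nS.2 ⟨f, c, (mem_filter.1 hc).1,
        (D.grp hk y).nr_trans hT (by omega) (by omega) hM hc h⟩
    rw [hp] at e1 ⊢
    have : T.lg ((T.nS b (b + a) N).card : ℝ) = T.C (T.nS b (b + a) N) := rfl
    rw [this] at e1
    have : (0 : ℝ) ≤ n := Nat.cast_nonneg _
    linarith
  · obtain ⟨O, ζ₀, cs, gl, D⟩ := T.exists_dec hT (b' := b') (a₁ := a₁) a h1 hκ hm (by omega)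
      (by omega) (by omega) hNs hbr (Or.inr ⟨hM1, hnar⟩)
    set W : ℝ := (T.k : ℝ) ^ (κ * (a₁ - a) + (15 * n + 4)) *
      (T.mm b' (b + a₁ + 1) * (T.a (b + a₁ + 1) / T.a (b + a))) with hWdef
    have p1 := T.a0 (b + a)
    have p2 := T.a0 (b + a₁ + 1)
    have p3 := hmm b' (b + a₁ + 1)
    have hW0 : 0 < W := by positivity
    have hW : ∀ y j,
        ((T.nS b' (b + a) ((N.filter fun c => gl c = y).image fun c => cs c j)).card : ℝ) ≤ W :=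
      fun y j => (D.grp hk y).card_fam hT hN1 (by omega) (by omega) ha ha₁ hM1 j
    have hlW : T.lg W = w + (15 * n + 4) := by
      rw [hWdef, T.lg_mul (by positivity) (by positivity), T.lg_mul p3 (by positivity),
        Tw.lg_pow hT, hw, Tw.lg, Tw.lg, Real.logb_div p2.ne' p1.ne']
      push_cast [Nat.cast_sub ha]
      simp only [Tw.m, Tw.A, Tw.lg]
      ring
    have hn0 : (0 : ℝ) ≤ 15 * n + 4 := by positivity
    have hik : 1 / (κ : ℝ) * (15 * n + 4) ≤ 15 * n + 4 :=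
      mul_le_of_le_one_left hn0 ((div_le_one hκ0).2 hκ1)
    refine ⟨?_, fun h2a => ?_⟩
    · have e2 := D.sum_cells hT (by omega) (by omega) (u := a₁ - a) (by omega)
      rw [hbb, Nat.add_sub_cancel' ha] at e2
      have e1 : ((N.image (cell T.k b a)).card : ℝ) * T.mm b' (b + a) ^ (((κ : ℝ) + 1) / κ) ≤
          (T.k : ℝ) ^ eMK n m₀ * ((T.k : ℝ) ^ ((n - κ) * (a₁ - a) + eGr n m₀) *
            (N.image (cell T.k b a₁)).card) * W ^ (((κ : ℝ) + 1) / κ) := by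
        refine (mul_le_mul_of_nonneg_right (card_img_le_sum N _ gl)
          (Real.rpow_nonneg (hmm _ _).le _)).trans (le_trans ?_ (mul_le_mul_of_nonneg_right
            (mul_le_mul_of_nonneg_left e2 (by positivity)) (by positivity)))
        rw [sum_mul, mul_sum, sum_mul]
        refine sum_le_sum fun y hy => ?_
        refine ((D.grp hk y).mk' hT h1 hbig hC0 hCΛ hMK hma ha ha₁ hM hW0.le (hW y)).trans ?_
        obtain ⟨c, hc, rfl⟩ := mem_image.1 hy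
        have : (1 : ℝ) ≤ ((N.filter fun x => gl x = gl c).image (cell T.k b a₁)).card := by
          have : (N.filter fun x => gl x = gl c).Nonempty := ⟨c, mem_filter.2 ⟨hc, rfl⟩⟩
          exact_mod_cast (this.image _).card_pos
        gcongr
        exact le_mul_of_one_le_right (by positivity) this
      rw [hL]
      refine (Tw.lg_mono hT hL0 e1).trans ?_
      have q := hpos _ (hne.image (cell T.k b a₁))
      rw [T.lg_mul (by positivity) (by positivity), T.lg_mul (by positivity) (by positivity),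
        T.lg_mul (by positivity) q, Tw.lg_pow hT, Tw.lg_pow hT, T.lg_rpow hW0, hlW, Tw.cc]
      push_cast [Nat.cast_sub ha, Nat.cast_sub hκ]
      rw [hp]
      linarith
    · subst h2a
      have e1 := keyA D W hW0 hW
      rw [hlW] at e1
      have : w / κ = 1 / κ * w := by ring
      linarith

end Crest.Agent.N76.L
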