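import Crest.Agent.N76.L.Tight
import Crest.Agent.N76.L.ProfA
import Crest.Agent.N76.L.Kill

-- ▼ part N76/L/Prof
section

/-! # Row 76, Part I (helper9): the profile theorem. -/

set_option autoImplicit false

open Finset

namespace Crest.Agent.N76.L

variable {n M : ℕ}

/-- the statement of `BRW` for one tower -/
def BRWP (κ : ℕ) (c ε : ℝ) (T : Tw n M) : Prop :=
  ∀ (b m₀ a : ℕ) (N : Finset (Nd n)) (σ : ℝ), 1 ≤ m₀ → ((n * m₀ + 2 : ℕ) : ℝ) ≤ ε * a →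
    b + 2 * a + 1 ≤ M → N ⊆ T.al b → N.Nonempty → ¬ T.Nar b (b + m₀) (κ - 1) →
    T.Nar b (b + 2 * a + 1) κ → c ≤ σ → σ ≤ 1 - c →
    (∀ u ≤ a, T.cc b (a + u) N + ((n : ℝ) - κ) * u + ((κ : ℝ) + 1) * σ * u ≤ T.cc b a N + ε * a) →
    T.m (b + (n * m₀ + 2)) (b + 2 * a + 1) ≤
      T.m (b + (n * m₀ + 2)) (b + a) + T.m (b + a) (b + 2 * a) + ε * a →
    c * a ≤ T.m (b + (n * m₀ + 2)) (b + a) →
    (∀ u, 1 ≤ u → u ≤ a → (κ : ℝ) * u - T.D (b + a) (b + a + u + 1) ≤ κ * σ * u + ε * a) →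
    False

namespace Tgt

variable {T : Tw n M} {κ i₀ j₀ : ℕ} {N₀ : Finset (Nd n)} {E : ℝ}

/-- upper and lower bounds for the cell function in an affine window -/
theorem cell_aff (h : Tgt T κ i₀ j₀ N₀ E) {c₁ c₂ c₃ : ℝ} (h1 : Bas1 c₁ T) (h2 : Bas2 c₂ T)
    (h3 : CoreP c₃ T) (hκ : 1 ≤ κ) (hκn : κ ≤ n) (hj₀ : j₀ ≤ M) (hnar : T.Nar i₀ j₀ κ)
    {b m a u : ℕ} {s ζ : ℝ} (hb : i₀ ≤ b) (hm : 1 ≤ m) (hbr : ¬ T.Nar b (b + m) (κ - 1))
    (hba : b + 4 * a + 1 ≤ j₀) (hp : n * m + 2 ≤ a) (hu : u ≤ a) (hs : 0 ≤ s)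
    (haff : ∀ u ≤ 4 * a + 1, |T.D b (b + u) - s * u| ≤ ζ) (hE : E ≤ ζ) (hm' : (m : ℝ) ≤ ζ)
    (hc₁ : c₁ ≤ ζ) (hc₂ : c₂ ≤ ζ) (hc₃ : 0 ≤ c₃) :
    κ * T.Fc b (a + u) (T.nS i₀ b N₀) - κ * T.Fc b a (T.nS i₀ b N₀) - ((κ : ℝ) + 1) * s * u ≤
      κ * (((n : ℝ) ^ 2 + 2 * n + 20 + c₃) * ζ) := by
  have hk : (1 : ℝ) ≤ κ := by exact_mod_cast hκ
  have hn0 : (0 : ℝ) ≤ n := Nat.cast_nonneg _
  have hm1 : (1 : ℝ) ≤ m := by exact_mod_cast hm
  have hζ : 1 ≤ ζ := hm1.trans hm'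
  have U := h.uf h1 h3 hκ hκn hj₀ (x := a + u) hb hm (by omega) (by omega) hbr
    (h1.nar_sub i₀ b _ j₀ κ hb (by omega) (by omega) hj₀ hnar)
  have L := h2.fl (b := b) (x := a) (by omega) (by omega) (h.sub b) (h.ne b hb (by omega))
  have L' := mul_le_mul_of_nonneg_left L (show (0 : ℝ) ≤ κ by linarith)
  have b1 := (h.Br_D (i := b) (j := b + (a + u)) hb (by omega) (by omega)).2
  have b2 := (h.Br_D (i := b) (j := b + (a + 1) / 2) hb (by omega) (by omega)).1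
  have f1 := abs_le.1 (haff (a + u) (by omega))
  have f2 := abs_le.1 (haff (2 * (a + u) + 1) (by omega))
  have f3 := abs_le.1 (haff ((a + 1) / 2) (by omega))
  have f4 := abs_le.1 (haff (a + 1) (by omega))
  have d1 := abs_le.1 (h.D_add b (b + (a + u)) (b + 2 * (a + u) + 1) hb (by omega) (by omega)
    (by omega))
  rw [← add_assoc b (2 * (a + u)) 1] at f2
  rw [← add_assoc b a 1] at f4
  have y1 : (a : ℝ) ≤ 2 * (((a + 1) / 2 : ℕ) : ℝ) := by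
    exact_mod_cast (show a ≤ 2 * ((a + 1) / 2) by omega)
  have y2 := mul_le_mul_of_nonneg_left y1 hs
  push_cast at f1 f2 f4
  have e1 : ((κ : ℝ) + 2) * (T.D b (b + (a + u)) + E) ≤ ((κ : ℝ) + 2) * (s * (a + u) + 2 * ζ) :=
    mul_le_mul_of_nonneg_left (by linarith [f1.2]) (by linarith)
  have e2 : (κ : ℝ) * (2 * E + n * ((n : ℝ) * m + 2) + c₁ + c₃ * m) ≤
      κ * (((n : ℝ) ^ 2 + 2 * n + 3 + c₃) * ζ) := by
    refine mul_le_mul_of_nonneg_left ?_ (by linarith)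
    have a1 : (n : ℝ) ^ 2 * m ≤ (n : ℝ) ^ 2 * ζ := mul_le_mul_of_nonneg_left hm' (by positivity)
    have a2 : (n : ℝ) ≤ n * ζ := le_mul_of_one_le_right hn0 hζ
    have a3 : c₃ * m ≤ c₃ * ζ := mul_le_mul_of_nonneg_left hm' hc₃
    linarith
  have e3 : (κ : ℝ) * (s * a - ζ) ≤ κ * T.D b (b + a + 1) :=
    mul_le_mul_of_nonneg_left (by linarith [f4.1]) (by linarith)
  have e4 : (κ : ℝ) * (E + 1 + c₂) ≤ κ * (3 * ζ) :=
    mul_le_mul_of_nonneg_left (by linarith) (by linarith)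
  have e5 : ζ ≤ κ * ζ := le_mul_of_one_le_left (by linarith) hk
  linarith [f1.2, f2.1, f3.1, d1.2]

/-- an affine window of intermediate slope after a broad start contradicts `BRW` -/
theorem brw_use (h : Tgt T κ i₀ j₀ N₀ E) {c₁ c₂ c₃ : ℝ} (h1 : Bas1 c₁ T) (h2 : Bas2 c₂ T)
    (h3 : CoreP c₃ T) (hκ : 1 ≤ κ) (hκn : κ ≤ n) (hj₀ : j₀ ≤ M) (hnar : T.Nar i₀ j₀ κ)
    {η εB : ℝ} (hη : 0 < η) (hη1 : η ≤ 1) (hB : BRWP κ (η / (128 * n)) εB T)
    {b m a : ℕ} {s ζ : ℝ} (hb : i₀ ≤ b) (hm : 1 ≤ m) (hbr : ¬ T.Nar b (b + m) (κ - 1))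
    (hba : b + 4 * a + 1 ≤ j₀) (hs1 : η / 64 ≤ s) (hs2 : s ≤ κ - η / 2)
    (haff : ∀ u ≤ 4 * a + 1, |T.D b (b + u) - s * u| ≤ ζ) (hE : E ≤ ζ) (hm' : (m : ℝ) ≤ ζ)
    (hc₁ : c₁ ≤ ζ) (hc₂ : c₂ ≤ ζ) (hc₃ : 0 ≤ c₃)
    (hζ1 : ((n : ℝ) ^ 2 + 2 * n + 20 + c₃) * ζ ≤ εB * a)
    (hζ2 : ((n : ℝ) ^ 2 + 2 * n + 20 + c₃) * ζ ≤ η / 128 * a) : False := by
  have hk : (1 : ℝ) ≤ κ := by exact_mod_cast hκ
  have hkn : (κ : ℝ) ≤ n := by exact_mod_cast hκn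
  have hn0 : (0 : ℝ) ≤ n := Nat.cast_nonneg _
  have ha0 : (0 : ℝ) ≤ a := Nat.cast_nonneg _
  have hm1 : (1 : ℝ) ≤ m := by exact_mod_cast hm
  have hζ : 1 ≤ ζ := hm1.trans hm'
  have hs0 : 0 ≤ s := by linarith
  have z1 : (n : ℝ) ≤ n * ζ := le_mul_of_one_le_right hn0 hζ
  have z2 : (n : ℝ) * m ≤ n * ζ := mul_le_mul_of_nonneg_left hm' hn0
  have z3 : 0 ≤ (n : ℝ) ^ 2 * ζ := by positivity
  have z4 : 0 ≤ c₃ * ζ := by positivity
  have z5 : η * a ≤ 1 * a := mul_le_mul_of_nonneg_right hη1 ha0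
  have hp : n * m + 2 ≤ a := by exact_mod_cast (show (n : ℝ) * m + 2 ≤ a by linarith)
  have hκ0 : (0 : ℝ) < κ := by linarith
  have hsk : (κ : ℝ) * (1 - s / κ) = κ - s := by field_simp
  have hc : (n : ℝ) * (η / (128 * n)) = η / 128 := by
    have : (n : ℝ) ≠ 0 := by linarith
    field_simp
  have hc0 : 0 ≤ η / (128 * n) := by positivity
  have hc1 : (κ : ℝ) * (η / (128 * n)) ≤ η / 128 := by
    rw [← hc]; exact mul_le_mul_of_nonneg_right hkn hc0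
  have hc2 : η / (128 * n) ≤ η / 128 := by
    have := mul_le_mul_of_nonneg_right hk hc0
    linarith
  refine hB b m a (T.nS i₀ b N₀) (1 - s / κ) hm (by push_cast; linarith) (by omega) (h.sub b)
    (h.ne b hb (by omega)) hbr (h1.nar_sub i₀ b _ j₀ κ hb (by omega) (by omega) hj₀ hnar)
    (le_of_mul_le_mul_left (by rw [hsk]; linarith) hκ0)
    (le_of_mul_le_mul_left (by rw [hsk]; linarith) hκ0) (fun u hu => ?_) ?_ ?_
    (fun u hu1 hu => ?_)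
  · have c := h.cell_aff h1 h2 h3 hκ hκn hj₀ hnar hb hm hbr hba hp hu hs0 haff hE hm' hc₁ hc₂ hc₃
    have c' := mul_le_mul_of_nonneg_left hζ1 hκ0.le
    refine le_of_mul_le_mul_left ?_ hκ0
    have e : (κ : ℝ) * (((κ : ℝ) + 1) * (1 - s / κ) * u) = ((κ : ℝ) + 1) * (κ - s) * u := by
      rw [← hsk]; ring
    unfold Tw.Fc at c
    push_cast at c
    linarith
  · have a1 := h.m_add (b + (n * m + 2)) (b + a) (b + 2 * a + 1) (by omega) (by omega) (by omega)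
      (by omega)
    have a2 := h.m_add (b + a) (b + 2 * a) (b + 2 * a + 1) (by omega) (by omega) (by omega)
      (by omega)
    have a3 := h1.m_nar (b + 2 * a) (b + 2 * a + 1) n (by omega) (by omega) le_rfl (h1.nar_n _ _)
    push_cast at a3
    linarith
  · have a1 := h1.D_le_m (i := b + (n * m + 2)) (j := b + a) (by omega) (by omega)
    have a2 := abs_le.1 (h.D_add b (b + (n * m + 2)) (b + a) hb (by omega) (by omega) (by omega))
    have f1 := abs_le.1 (haff a (by omega))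
    have f2 := abs_le.1 (haff (n * m + 2) (by omega))
    push_cast at f2
    have a3 : s * ((n : ℝ) * m + 2) ≤ n * (n * ζ + 2 * ζ) :=
      mul_le_mul (by linarith) (by linarith) (by positivity) hn0
    have a4 := mul_le_mul_of_nonneg_right hs1 ha0
    have a5 := mul_le_mul_of_nonneg_right hc2 ha0
    linarith [a2.2, f1.1, f2.2]
  · have a2 := abs_le.1 (h.D_add b (b + a) (b + a + u + 1) hb (by omega) (by omega) (by omega))
    have f1 := abs_le.1 (haff a (by omega))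
    have f2 := abs_le.1 (haff (a + u + 1) (by omega))
    rw [show b + (a + u + 1) = b + a + u + 1 by omega] at f2
    push_cast at f2
    rw [hsk]
    linarith [a2.2, f1.2, f2.1]

/-- the hypotheses of the real-variable core -/
theorem hyp (h : Tgt T κ i₀ j₀ N₀ E) {c₁ c₂ c₃ : ℝ} (h1 : Bas1 c₁ T) (h2 : Bas2 c₂ T)
    (h3 : CoreP c₃ T) (hκ : 1 ≤ κ) (hκn : κ ≤ n) (hj₀ : j₀ ≤ M) (hnar : T.Nar i₀ j₀ κ)
    {η εB δ : ℝ} (hη : 0 < η) (hη1 : η ≤ 1) (hB : BRWP κ (η / (128 * n)) εB T)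
    {l m₀ : ℕ} (hl : j₀ = i₀ + l) (hbr : ¬ T.Nar i₀ (i₀ + m₀) (κ - 1))
    (hE : 1 ≤ E) (hc₁ : c₁ ≤ E) (hc₂ : c₂ ≤ E) (hc₃ : 0 ≤ c₃)
    (UB : ∀ i j, i₀ ≤ i → i ≤ j → j ≤ j₀ → T.Nar i j (κ - 1) →
      T.g (κ - 1) i j (T.nS i₀ i N₀) ≤ E)
    (hδ1 : ((n : ℝ) ^ 2 + 2 * n + 20 + c₃) * δ ≤ εB)
    (hδ2 : ((n : ℝ) ^ 2 + 2 * n + 20 + c₃) * δ ≤ η / 128) :
    Pf.Hyp n κ (κ * ((n : ℝ) ^ 2 + c₃)) η δ l m₀ (13 * ((n : ℝ) + 1) ^ 2 * E)
      (fun u => T.D i₀ (i₀ + u)) (fun b m => ¬ T.Nar (i₀ + b) (i₀ + b + m) (κ - 1)) := by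
  have hk : (1 : ℝ) ≤ κ := by exact_mod_cast hκ
  have hkn : (κ : ℝ) ≤ n := by exact_mod_cast hκn
  have hn0 : (0 : ℝ) ≤ n := Nat.cast_nonneg _
  have z1 : 0 ≤ (n : ℝ) * E := by positivity
  have z2 : 0 ≤ (n : ℝ) ^ 2 * E := by positivity
  refine ⟨?_, fun u v huv hv => ?_, fun u v huv hv => ?_, fun m hm1 hm2 hn => ?_,
    fun b m hbm hn => ?_, fun b m x hm hb hx hbx => ?_, fun b m a s r hm hb hba s1 s2 haff hr => ?_⟩
  · have := h.D_lo i₀ i₀ le_rfl le_rfl (by omega)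
    simp only [add_zero]
    linarith
  · have := h.D_mono (i := i₀) (j := i₀ + u) (l := i₀ + v) le_rfl (by omega) (by omega) (by omega)
    linarith
  · have a1 := abs_le.1 (h.D_add i₀ (i₀ + u) (i₀ + v) le_rfl (by omega) (by omega) (by omega))
    have a2 := h1.D_le (i := i₀ + u) (j := i₀ + v) (by omega) (by omega) hκn
      (h1.nar_sub i₀ _ _ j₀ κ (by omega) (by omega) (by omega) hj₀ hnar)
    push_cast at a2
    linarith [a1.2]
  · exact hbr (h1.nar_sub (i₀ + 0) i₀ (i₀ + m₀) (i₀ + 0 + m) _ (by omega) (by omega) (by omega)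
      (by omega) hn)
  · rw [not_not] at hn
    have a1 := (h.nb hκ (i := i₀ + b) (j := i₀ + b + m) (by omega) (by omega) (by omega)
      (show 0 ≤ E by linarith) (UB _ _ (by omega) (by omega) (by omega) hn)).2
    have a2 := abs_le.1 (h.D_add i₀ (i₀ + b) (i₀ + b + m) le_rfl (by omega) (by omega) (by omega))
    have a3 : ((κ : ℝ) + 2) ^ 2 * (E + E) ≤ ((n : ℝ) + 2) ^ 2 * (E + E) :=
      mul_le_mul_of_nonneg_right (pow_le_pow_left₀ (by linarith) (by linarith) 2) (by linarith)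
    simp only [← add_assoc]
    linarith [a2.2]
  · have a1 := h.dbl h1 h2 h3 hκ hκn hj₀ (b := i₀ + b) (by omega) hm hx (by omega) hb
      (h1.nar_sub i₀ _ _ j₀ κ (by omega) (by omega) (by omega) hj₀ hnar)
    have a2 : (n : ℝ) ≤ n * E := le_mul_of_one_le_right hn0 hE
    have a3 : (κ : ℝ) * (2 * E + 2 * n + c₁ + 1 + c₂) ≤ n * (5 * E + 2 * (n * E)) :=
      mul_le_mul hkn (by linarith) (by
        have := h1.c_nonneg
        have := h2.cc_anti 0 0 0 (T.al 0) le_rfl T.ne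
        linarith) hn0
    have a4 : (κ : ℝ) * E ≤ n * E := mul_le_mul_of_nonneg_right hkn (by linarith)
    simp only [← add_assoc]
    linarith
  · have hr0 : 0 ≤ r := (abs_nonneg _).trans (haff 0 (Nat.zero_le _))
    have hm0 : (0 : ℝ) ≤ m := Nat.cast_nonneg _
    have ha0 : (0 : ℝ) ≤ a := Nat.cast_nonneg _
    refine h.brw_use h1 h2 h3 hκ hκn hj₀ hnar hη hη1 hB (b := i₀ + b) (a := a) (ζ := δ * a)
      (by omega) hm hb (by omega) s1 s2 (fun u hu => ?_) (by linarith) (by linarith) (by linarith)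
      (by linarith) hc₃ (by linarith [mul_le_mul_of_nonneg_right hδ1 ha0])
      (by linarith [mul_le_mul_of_nonneg_right hδ2 ha0])
    have a1 := abs_le.1 (haff u hu)
    have a2 := abs_le.1 (h.D_add i₀ (i₀ + b) (i₀ + b + u) le_rfl (by omega) (by omega) (by omega))
    simp only [← add_assoc] at a1
    rw [abs_le]
    constructor <;> linarith [a1.1, a1.2, a2.1, a2.2]

end Tgt

/-- **The profile theorem.** -/
theorem prof_of {n κ : ℕ} (h1 : BasS1 n) (h2 : BasS2 n) (hc : CoreS n) (hd : DEC n κ)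
    (hd' : DEC n (κ - 1)) (hb : BRW n κ) (hκ : 1 ≤ κ) (hκn : κ ≤ n) : Prof n κ := by
  intro η₀ hη₀
  obtain ⟨c₁, hc₁, h1⟩ := h1
  obtain ⟨c₂, hc₂, h2⟩ := h2
  obtain ⟨c₃, hc₃, hc⟩ := hc
  have hk : (1 : ℝ) ≤ κ := by exact_mod_cast hκ
  have hkn : (κ : ℝ) ≤ n := by exact_mod_cast hκn
  have hn0 : (0 : ℝ) ≤ n := Nat.cast_nonneg _
  obtain ⟨η, hη, hη1, hηη⟩ : ∃ η : ℝ, 0 < η ∧ η ≤ 1 ∧ η ≤ η₀ :=
    ⟨min η₀ 1, lt_min hη₀ one_pos, min_le_right _ _, min_le_left _ _⟩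
  obtain ⟨εB, hεB, hb⟩ := hb (η / (128 * n)) (by
    have : (0 : ℝ) < n := by linarith
    positivity)
  obtain ⟨δ, ⟨⟨hδ1, hδ2⟩, hδ3⟩, hδ0⟩ := ((((Pf.ev_small ((n : ℝ) ^ 2 + 2 * n + 20 + c₃) hεB).and
    (Pf.ev_small ((n : ℝ) ^ 2 + 2 * n + 20 + c₃) (show 0 < η / 128 by positivity))).and
    (Pf.ev_small 1 one_pos)).and self_mem_nhdsWithin).exists
  obtain ⟨εP, hεP, hP⟩ := Pf.prof_core n (κ := κ) (K := κ * ((n : ℝ) ^ 2 + c₃)) (η := η) (δ := δ)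
    hk (by positivity) hη hη1 hδ0 (by linarith)
  obtain ⟨G, hG⟩ : ∃ G : ℝ, G = 13 * ((n : ℝ) + 1) ^ 2 * (4 * ((n : ℝ) + 3)) := ⟨_, rfl⟩
  have hG1 : 1 ≤ G := by
    have : (1 : ℝ) ≤ ((n : ℝ) + 1) ^ 2 := one_le_pow₀ (by linarith)
    rw [hG]; nlinarith
  obtain ⟨γ, hγ⟩ : ∃ γ : ℝ, γ = εP / (4 * G) := ⟨_, rfl⟩
  have hγ0 : 0 < γ := by rw [hγ]; positivity
  have hγG : G * γ = εP / 4 := by rw [hγ]; field_simp
  obtain ⟨L₁, hd⟩ := hd γ hγ0
  obtain ⟨L₂, hd'⟩ := hd' γ hγ0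
  obtain ⟨L, hL⟩ := exists_nat_ge ((|L₁| + |L₂| + c₁ + c₂ + 1) / γ)
  rw [div_le_iff₀ hγ0] at hL
  refine ⟨γ, L, hγ0, fun M => ?_⟩
  refine ((((((h1 M).and (h2 M)).and (hc M)).and (hd M)).and (hd' M)).and (hb M)).mono ?_
  rintro T ⟨⟨⟨⟨⟨t1, t2⟩, t3⟩, td⟩, td'⟩, tb⟩ i₀ j₀ m₀ N₀ hL' hj₀ hN hne hnar hm₀ hm₀' hbr hg
  obtain ⟨l, rfl⟩ : ∃ l, j₀ = i₀ + l := ⟨j₀ - i₀, by omega⟩
  have hl : ((i₀ + l : ℕ) : ℝ) - i₀ = l := by push_cast; ring
  rw [hl] at hm₀' hg ⊢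
  have hl0 : (0 : ℝ) ≤ l := Nat.cast_nonneg _
  have hLl : (L : ℝ) ≤ l := by exact_mod_cast (show L ≤ l by omega)
  have hγl : γ * L ≤ γ * l := mul_le_mul_of_nonneg_left hLl hγ0.le
  have hγl0 : 0 ≤ γ * l := by positivity
  have p1 := le_abs_self L₁
  have p2 := le_abs_self L₂
  have p3 := abs_nonneg L₁
  have p4 := abs_nonneg L₂
  have len : ∀ i j : ℕ, i₀ ≤ i → j ≤ i₀ + l → γ * ((j : ℝ) - i) ≤ γ * l := by
    intro i j hi hj
    have a1 : (i₀ : ℝ) ≤ i := by exact_mod_cast hi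
    have a2 : (j : ℝ) ≤ i₀ + l := by exact_mod_cast hj
    exact mul_le_mul_of_nonneg_left (by linarith) hγ0.le
  have ht := tight (e := 2 * (γ * l)) t1 hκ hκn hj₀ hN hne (by linarith)
    (fun i j N a1 a2 a3 a4 a5 => by
      have := td i j N a2 (a3.trans hj₀) a4 a5 (t1.nar_sub i₀ i j _ κ a1 a2 a3 hj₀ hnar)
      linarith [len i j a1 a3]) (by linarith)
  obtain ⟨E, hE⟩ : ∃ E, E = 4 * ((n : ℝ) + 3) * (2 * (γ * l) + c₁) := ⟨_, rfl⟩
  rw [← hE] at ht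
  have hE1 : 2 * (γ * l) + c₁ ≤ E := by
    rw [hE]; exact le_mul_of_one_le_left (by linarith) (by linarith)
  have hH := ht.hyp t1 t2 t3 hκ hκn hj₀ hnar hη hη1 tb rfl hbr (by linarith) (by linarith)
    (by linarith) (by linarith) (fun i j a1 a2 a3 a4 => by
      have := td' i j _ a2 (a3.trans hj₀) (ht.sub i) (ht.ne i a1 (a2.trans a3)) a4
      linarith [len i j a1 a3]) hδ1 hδ2
  have hEG : 13 * ((n : ℝ) + 1) ^ 2 * E ≤ G * (3 * (γ * l)) := by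
    have : 13 * ((n : ℝ) + 1) ^ 2 * E = G * (2 * (γ * l) + c₁) := by rw [hE, hG]; ring
    rw [this]; exact mul_le_mul_of_nonneg_left (by linarith) (by linarith)
  have hGl : G * (γ * l) = εP / 4 * l := by rw [← mul_assoc, hγG]
  have hεl : 0 ≤ εP * l := by positivity
  have hγ2 : γ * l ≤ G * (γ * l) := le_mul_of_one_le_left hγl0 hG1
  obtain ⟨x, hx, hx1, hx2⟩ := hP l m₀ _ _ _ (by
      have : (1 : ℝ) ≤ ((n : ℝ) + 1) ^ 2 := one_le_pow₀ (by linarith)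
      nlinarith) (by linarith) (by linarith) hH
  have hηl : η * l ≤ η₀ * l := mul_le_mul_of_nonneg_right hηη hl0
  refine ⟨i₀ + x, by omega, by omega, fun u hu1 hu2 => ?_, by linarith⟩
  obtain ⟨u, rfl⟩ : ∃ u', u = i₀ + u' := ⟨u - i₀, by omega⟩
  have := hx1 u (by omega)
  push_cast
  linarith

end Crest.Agent.N76.L
end

-- ▼ part N76/L/TIa

/-! # Row 76, Part I (helper60): the abstract theorem I (`TIa`). -/

set_option autoImplicit false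

namespace Crest.Agent.N76.L

namespace K

variable {n M : ℕ} {T : Tw n M} {c : ℝ}

theorem crit_mono {δ δ' : ℝ} (h : T.Crit δ) (hδ : δ ≤ δ') : T.Crit δ' :=
  ⟨h.1, h.2.1, by
    have := mul_le_mul_of_nonneg_right hδ (Nat.cast_nonneg (α := ℝ) M)
    linarith [h.2.2]⟩

theorem g_self (B1 : Bas1 c T) (κ i : ℕ) {N : Finset (Nd n)} (hN : N ⊆ T.al i) :
    T.g κ i i N ≤ 0 := by
  have h1 := B1.m_nonneg i i
  have h2 := q_le_one κ
  unfold Tw.g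
  rw [B1.nS_self i N hN]
  nlinarith

/-- all defects are small, by narrowness of the grid blocks -/
theorem ub_of (hc : 0 ≤ c) (B1 : Bas1 c T) {κ m : ℕ} {η θ γ L : ℝ} (hη : 0 ≤ η) (hγ : 0 ≤ γ)
    (hK : ∀ b m₀ : ℕ, (b : ℝ) ≤ (1 - η) * M → 1 ≤ m₀ → (m₀ : ℝ) ≤ θ * M →
      T.g κ 0 b (T.al 0) ≤ θ * M → T.Nar b (b + m₀) κ)
    (hD : ∀ i j N, i ≤ j → j ≤ M → N ⊆ T.al i → N.Nonempty → T.Nar i j κ →
      T.g κ i j N ≤ γ * ((j : ℝ) - i) + L)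
    (hm : 1 ≤ m) (hm1 : (m : ℝ) ≤ θ * M) (hm2 : (m : ℝ) ≤ η * M) (hmM : m ≤ M)
    (hL : L + c ≤ γ * m) (hγθ : 2 * γ ≤ θ) :
    UB T κ 0 M (4 * γ * M + n * (η * M) + 3 * c) := by
  have hM0 : (0 : ℝ) ≤ M := Nat.cast_nonneg _
  have hm0 : (0 : ℝ) ≤ m := Nat.cast_nonneg _
  have hηM := mul_nonneg hη hM0
  have hle : ∀ t : ℕ, ((t * m : ℕ) : ℝ) ≤ (1 - η) * M → t * m + m ≤ M := fun t h => by
    exact_mod_cast (show ((t * m : ℕ) : ℝ) + m ≤ M by linarith)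
  have hnar : ∀ t : ℕ, ((t * m : ℕ) : ℝ) ≤ (1 - η) * M →
      T.g κ 0 (t * m) (T.al 0) ≤ 2 * γ * ((t * m : ℕ) : ℝ) → T.Nar (t * m) (t * m + m) κ := by
    intro t h1 h2
    refine hK _ _ h1 hm hm1 (h2.trans ?_)
    have h3 := mul_le_mul_of_nonneg_right hγθ hM0
    have h4 : 2 * γ * ((t * m : ℕ) : ℝ) ≤ 2 * γ * M :=
      mul_le_mul_of_nonneg_left (by linarith) (by positivity)
    linarith
  have hg : ∀ t : ℕ, ((t * m : ℕ) : ℝ) ≤ (1 - η) * M →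
      T.g κ 0 (t * m) (T.al 0) ≤ 2 * γ * ((t * m : ℕ) : ℝ) := by
    intro t
    induction t with
    | zero => intro _; simpa using g_self B1 κ 0 le_rfl
    | succ t ih =>
      intro h1
      rw [Nat.succ_mul] at h1 ⊢
      have h2 : ((t * m : ℕ) : ℝ) ≤ (1 - η) * M := by
        rw [Nat.cast_add] at h1; linarith
      have h3 := ih h2
      have h4 := hle t h2
      have h5 := g_sub B1 hc κ (Nat.zero_le (t * m)) (Nat.le_add_right _ m) h4 le_rfl T.ne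
      have h6 := hD _ _ _ (Nat.le_add_right _ m) h4 (B1.nS_sub 0 (t * m) (T.al 0))
        (B1.nS_ne 0 _ _ (Nat.zero_le _) (by omega) le_rfl T.ne) (hnar t h2 h3)
      rw [Nat.cast_add] at h6 ⊢
      linarith
  have hnη : 0 ≤ (n : ℝ) * (η * M) := by positivity
  have hγm : 0 ≤ γ * m := by positivity
  have key : ∀ k i j : ℕ, ∀ N, i ≤ j → j ≤ M → N ⊆ T.al i → N.Nonempty → M ≤ (i / m + k) * m →
      T.g κ i j N ≤ 2 * (γ * m) * k + n * (η * M) + 3 * c := by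
    intro k
    induction k with
    | zero =>
      intro i j N h1 h2 h3 h4 h5
      have h6 := Nat.div_mul_le_self i m
      rw [add_zero] at h5
      obtain rfl : i = j := by omega
      have := g_self B1 κ i h3
      push_cast
      linarith
    | succ k ih =>
      intro i j N h1 h2 h3 h4 h5
      have h6 := Nat.div_mul_le_self i m
      have h7 : i < i / m * m + m := Nat.lt_div_mul_add (by omega)
      have hk : 0 ≤ 2 * (γ * m) * k := by positivity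
      push_cast
      by_cases h8 : ((i / m * m : ℕ) : ℝ) ≤ (1 - η) * M
      · have h9 := hnar _ h8 (hg _ h8)
        have h10 := hle _ h8
        have h11 : ∀ l, i ≤ l → l ≤ i / m * m + m → T.g κ i l N ≤ 2 * (γ * m) - c := by
          intro l k1 k2
          have k3 := hD i l N k1 (by omega) h3 h4 (B1.nar_sub _ _ _ _ _ h6 k1 k2 h10 h9)
          have k4 : (l : ℝ) - i ≤ m := by
            have : (l : ℝ) ≤ i + m := by exact_mod_cast (show l ≤ i + m by omega)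
            linarith
          have k5 := mul_le_mul_of_nonneg_left k4 hγ
          linarith
        rcases le_total j (i / m * m + m) with h12 | h12
        · linarith [h11 j h1 h12]
        · have h13 := g_sub B1 hc κ h7.le h12 h2 h3 h4
          have h14 := ih (i / m * m + m) j _ h12 h2 (B1.nS_sub i _ N)
            (B1.nS_ne i _ N h7.le h10 h3 h4) (by
              rw [← Nat.succ_mul, Nat.mul_div_cancel _ (by omega)]
              rwa [show (i / m).succ + k = i / m + (k + 1) by omega])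
          linarith [h11 _ h7.le le_rfl]
      · have h9 := g_triv B1 hc κ h1 h2 h3 h4
        have h10 : ((i / m * m : ℕ) : ℝ) ≤ i := by exact_mod_cast h6
        have h11 : (j : ℝ) ≤ M := by exact_mod_cast h2
        have h12 := mul_le_mul_of_nonneg_left (show (j : ℝ) - i ≤ η * M by
          linarith [not_le.1 h8]) (Nat.cast_nonneg (α := ℝ) n)
        linarith
  intro i j N _ h1 h2 h3 h4
  have h5 := key (M / m + 1) i j N h1 h2 h3 h4 (by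
    have k1 : M < M / m * m + m := Nat.lt_div_mul_add (by omega)
    rw [add_mul, add_mul]; omega)
  have h6 : (m : ℝ) * ((M / m + 1 : ℕ) : ℝ) ≤ 2 * M := by
    have k1 := Nat.div_mul_le_self M m
    exact_mod_cast (show m * (M / m + 1) ≤ 2 * M by rw [mul_comm m, add_mul]; omega)
  have h7 := mul_le_mul_of_nonneg_left h6 hγ
  linarith

/-- consequences of criticality at the top level -/
theorem tia1 (hn : 2 ≤ n) (hc : 0 ≤ c) (B1 : Bas1 c T) {u δ : ℝ} (hcu : c ≤ u) (hu1 : 1 ≤ u)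
    (hcr : T.Crit δ) (hδ : δ * M ≤ u) (hU : UB T (n - 1) 0 M u) :
    -(5 * u) ≤ T.g (n - 1) 0 M (T.al 0) ∧
      T.C (T.al M) + ((n : ℝ) + 1) * M ≤ T.C (T.al 0) + T.m 0 M + (2 * n + 7) * u := by
  have hN2 : (2 : ℝ) ≤ n := by exact_mod_cast hn
  have hd : ((n - 1 : ℕ) : ℝ) = n - 1 := by rw [Nat.cast_sub (by omega)]; simp
  obtain ⟨hb, hnu, hv⟩ := hcr
  have h1 := B1.W1 0 M (T.al 0) (Nat.zero_le _) le_rfl le_rfl T.ne
  have h2 := B1.nu_le hb 0 (Nat.zero_le _)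
  have h3 := B1.nu_le hb M le_rfl
  have h4 := B1.top
  have h5 := B1.C_mono _ _ (B1.nS_ne 0 M _ (Nat.zero_le _) le_rfl le_rfl T.ne)
    (B1.nS_sub 0 M (T.al 0))
  have h6 := hU 0 M _ le_rfl (Nat.zero_le _) le_rfl le_rfl T.ne
  have h7 := g_mul (T := T) (n - 1) 0 M (T.al 0)
  rw [hd] at h7
  have hv2 : 2 * n * M - ((n : ℝ) + 1) * u ≤ ((n : ℝ) + 1) * T.val := by
    have k1 := mul_le_mul_of_nonneg_left hv (show (0 : ℝ) ≤ (n : ℝ) + 1 by positivity)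
    have k2 := mul_le_mul_of_nonneg_left hδ (show (0 : ℝ) ≤ (n : ℝ) + 1 by positivity)
    have k3 : ((n : ℝ) + 1) * (2 * (n : ℝ) / (n + 1) * M) = 2 * n * M := by field_simp
    nlinarith
  set g := T.g (n - 1) 0 M (T.al 0)
  set z := ((n : ℝ) + 1) * M - (T.C (T.al 0) + T.m 0 M - T.C (T.nS 0 M (T.al 0))) with hz
  set t := T.A M + T.C (T.nS 0 M (T.al 0)) + n * M with ht
  have h8 : ((n : ℝ) + 1) * T.val = 2 * n * M + ((n : ℝ) + 1) * (g + t + T.nu 0) - 2 * z := by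
    unfold Br Tw.D at h7
    unfold Tw.val
    push_cast at h7
    rw [hz, ht]
    linarith
  push_cast at h2
  have hz1 : -(3 * u) ≤ z := by linarith
  have ht1 : t ≤ 0 := by linarith
  have hnu1 : T.nu 0 ≤ u := by linarith
  have h9 : -(3 * u) ≤ g + t + T.nu 0 := by
    refine le_of_mul_le_mul_left ?_ (show (0 : ℝ) < (n : ℝ) + 1 by positivity)
    nlinarith
  have h10 := mul_le_mul_of_nonneg_left (show g + t + T.nu 0 ≤ 2 * u by linarith)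
    (show (0 : ℝ) ≤ (n : ℝ) + 1 by positivity)
  have h11 : 0 ≤ (n : ℝ) * u := by positivity
  constructor
  · linarith
  · linarith

/-- the constant -/
noncomputable def Kt (N : ℝ) : ℝ := 36 * (N + 1) ^ 2 + 33 * N + 250

/-- the lower bound for `D 0 ·` from the profile -/
theorem tia2 (hn : 2 ≤ n) (hc : 0 ≤ c) (B1 : Bas1 c T) {u η ε : ℝ} {L : ℕ} (hcu : c ≤ u)
    (hu1 : 1 ≤ u) (hb : T.Ball) (hnu : -1 ≤ T.nu 0) (hU : UB T (n - 1) 0 M u)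
    (hg : -(5 * u) ≤ T.g (n - 1) 0 M (T.al 0))
    (hD2 : ∀ j ≤ M, T.Nar 0 j (n - 2) → T.g (n - 2) 0 j (T.al 0) ≤ u)
    (hP : ProfT T (n - 1) η ε L) (hη : 0 ≤ η) (hK : Kt n * u ≤ M) {j : ℕ} (hj : j ≤ M)
    (hL : L ≤ j) (hε : Kt n * u ≤ ε * j) (hnar : T.Nar 0 j (n - 1)) (v : ℕ) (hv : v ≤ M) :
    min (((n : ℝ) - 1) * v) (((n : ℝ) - 1) / (n + 1) * j) - (η * M + (11 * n + 58) * u) ≤
      T.D 0 v := by
  have hN2 : (2 : ℝ) ≤ n := by exact_mod_cast hn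
  have hd : ((n - 1 : ℕ) : ℝ) = n - 1 := by rw [Nat.cast_sub (by omega)]; simp
  have hu : 0 ≤ u := by linarith
  have hU5 : UB T (n - 1) 0 M (5 * u) := fun i j N h1 h2 h3 h4 h5 => by
    linarith [hU i j N h1 h2 h3 h4 h5]
  have hq0 := q_nonneg (n - 1)
  have hq1 := q_le_one (n - 1)
  have hq : ((n - 1 : ℕ) : ℝ) / (((n - 1 : ℕ) : ℝ) + 2) = ((n : ℝ) - 1) / (n + 1) := by
    rw [hd]; congr 1; ring
  rw [hq] at hq0 hq1
  have hq3 : 1 / 3 ≤ ((n : ℝ) - 1) / (n + 1) := by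
    rw [le_div_iff₀ (by positivity)]; linarith
  have hti : ∀ l ≤ M, -(11 * u) ≤ T.g (n - 1) 0 l (T.al 0) := fun l hl => by
    linarith [tight_init B1 hc le_rfl le_rfl T.ne hU5 hg (Nat.zero_le l) hl]
  have hgr : ∀ l ≤ M, ((n : ℝ) - 1) / (n + 1) * l - 14 * u ≤ T.D 0 l := fun l hl => by
    have h1 := hti l hl
    have h2 := B1.W1 0 l (T.al 0) (Nat.zero_le _) hl le_rfl T.ne
    have h3 := B1.nu_le hb l hl
    have h4 : (l : ℝ) - 3 * u ≤ Br T 0 l (T.al 0) := by unfold Br; push_cast; linarith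
    have h5 := mul_le_mul_of_nonneg_left h4 hq0
    have h6 := mul_le_mul_of_nonneg_right hq1 hu
    rw [g_eq, hq] at h1
    linarith
  have hsq : 0 ≤ ((n : ℝ) + 1) ^ 2 * u := by positivity
  have hNu : 0 ≤ (n : ℝ) * u := by positivity
  have hKt : Kt n * u = 36 * (((n : ℝ) + 1) ^ 2 * u) + 33 * (n * u) + 250 * u := by
    unfold Kt; ring
  obtain ⟨a, ha3, ha4⟩ : ∃ a : ℕ, 36 * (((n : ℝ) + 1) ^ 2 * u) + 48 * u ≤ a ∧
      (a : ℝ) ≤ 36 * (((n : ℝ) + 1) ^ 2 * u) + 48 * u + 1 :=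
    ⟨⌈_⌉₊, Nat.le_ceil _, (Nat.ceil_lt_add_one (by positivity)).le⟩
  have haM : a ≤ M := by exact_mod_cast (show (a : ℝ) ≤ M by linarith)
  have ha1 : 1 ≤ a := by exact_mod_cast (show (1 : ℝ) ≤ a by linarith)
  have hbr : ¬ T.Nar 0 (0 + a) (n - 1 - 1) := by
    rw [zero_add, show n - 1 - 1 = n - 2 by omega]
    intro h
    have h1 := hD2 a haM h
    have h2 : -(11 * u) ≤ T.g (n - 2 + 1) 0 a (T.al 0) := by
      rw [show n - 2 + 1 = n - 1 by omega]; exact hti a haM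
    have h3 := nb hu (by positivity) h1 h2
    rw [show ((n - 2 : ℕ) : ℝ) + 3 = n + 1 by rw [Nat.cast_sub hn]; push_cast; ring] at h3
    have h4 := hgr a haM
    have h5 := mul_le_mul_of_nonneg_right hq3 (Nat.cast_nonneg (α := ℝ) a)
    linarith
  obtain ⟨x, -, hx2, hx3, hx4⟩ := hP 0 j a (T.al 0) (by omega) hj le_rfl T.ne hnar ha1
    (by push_cast; linarith) hbr (by have := hti j hj; push_cast; linarith)
  have hjM : η * j ≤ η * M := mul_le_mul_of_nonneg_left (by exact_mod_cast hj) hη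
  rcases le_total v x with h | h
  · have h1 := hx3 v (Nat.zero_le _) h
    rw [hd] at h1
    push_cast at h1
    linarith [min_le_left (((n : ℝ) - 1) * v) (((n : ℝ) - 1) / (n + 1) * j)]
  · have h1 := tight_D B1 hc le_rfl le_rfl T.ne (by linarith) hU5 hg (Nat.zero_le x) h hv
    have h2 := hgr j hj
    have h3 := mul_le_mul_of_nonneg_left hcu (show (0 : ℝ) ≤ n + 4 by positivity)
    rw [hd] at h1
    push_cast at hx4
    linarith [min_le_right (((n : ℝ) - 1) * v) (((n : ℝ) - 1) / (n + 1) * j)]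

theorem le_lprof1 (n M j : ℕ) : (j : ℝ) ≤ lprof n M j := le_max_left _ _

theorem le_lprof2 (n M j : ℕ) :
    (n : ℝ) * j - ((n : ℝ) - 1) * (M / ((n : ℝ) + 1)) ≤ lprof n M j :=
  (le_max_left _ _).trans (le_max_right _ _)

theorem le_lprof3 (n M j : ℕ) : ((n : ℝ) + 1) * j - M ≤ lprof n M j :=
  (le_max_right _ _).trans (le_max_right _ _)

/-- the cell count -/
theorem tia3 (hn : 2 ≤ n) (B2 : Bas2 c T) {u s : ℝ} (hcu : c ≤ u)
    (hu1 : 1 ≤ u) (hb : T.Ball) (hnu : -1 ≤ T.nu 0) (hU : UB T (n - 1) 0 M u) (hs : 0 ≤ s)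
    {j₁ : ℕ} (hj₁ : j₁ ≤ M)
    (hD : ∀ v ≤ M, min (((n : ℝ) - 1) * v) (((n : ℝ) - 1) / (n + 1) * j₁) - s ≤ T.D 0 v)
    {j : ℕ} (hj : j ≤ M) :
    T.C (T.al 0) - lprof n M j - 2 * ((M : ℝ) - j₁) - (3 * s + 5 * u) ≤ T.cc 0 j (T.al 0) := by
  have hN2 : (2 : ℝ) ≤ n := by exact_mod_cast hn
  have hd : ((n - 1 : ℕ) : ℝ) = n - 1 := by rw [Nat.cast_sub (by omega)]; simp
  have hM : (j₁ : ℝ) ≤ M := by exact_mod_cast hj₁
  have l1 := le_lprof1 n M j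
  have l2 := le_lprof2 n M j
  have l3 := le_lprof3 n M j
  rcases Nat.eq_zero_or_pos j with rfl | hj0
  · rw [B2.cc_zero]; push_cast at l1; linarith
  rcases Nat.eq_or_lt_of_le hj with rfl | hjM
  · have h1 := B2.W2 hb 0 j (T.al 0) (Nat.zero_le _) le_rfl T.ne
    push_cast at h1
    linarith
  have h1 := fl B2 (b := 0) hj0 (by omega) le_rfl T.ne
  simp only [zero_add] at h1
  have h2 := hU 0 ((j + 1) / 2) _ le_rfl (Nat.zero_le _) (by omega) le_rfl T.ne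
  have h3 := g_mul (T := T) (n - 1) 0 ((j + 1) / 2) (T.al 0)
  rw [hd] at h3
  have h4 := mul_le_mul_of_nonneg_left h2 (show (0 : ℝ) ≤ (n : ℝ) - 1 + 2 by linarith)
  rw [h3] at h4
  have h5 := hD ((j + 1) / 2) (by omega)
  have h6 := hD (j + 1) hjM
  have hy : (j : ℝ) ≤ 2 * (((j + 1) / 2 : ℕ) : ℝ) := by
    exact_mod_cast (show j ≤ 2 * ((j + 1) / 2) by omega)
  set y : ℝ := (((j + 1) / 2 : ℕ) : ℝ)
  set w : ℝ := (j₁ : ℝ) / (n + 1) with hw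
  have hw0 : 0 ≤ w := by positivity
  have hw1 : ((n : ℝ) + 1) * w = j₁ := by rw [hw]; field_simp
  have hw2 : ((n : ℝ) - 1) / (n + 1) * j₁ = ((n : ℝ) - 1) * w := by rw [hw]; ring
  have hw3 : ((n : ℝ) - 1) * (M / ((n : ℝ) + 1)) ≤ ((n : ℝ) - 1) * w + (M - j₁) := by
    have k1 : (M : ℝ) / (n + 1) = w + ((M : ℝ) - j₁) / (n + 1) := by rw [hw]; ring
    have k2 : ((n : ℝ) - 1) * (((M : ℝ) - j₁) / (n + 1)) ≤ M - j₁ := by
      rw [← mul_div_assoc, div_le_iff₀ (by positivity)]; nlinarith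
    rw [k1]; linarith
  have hn1 : (0 : ℝ) ≤ (n : ℝ) - 1 := by linarith
  rw [hw2, ← mul_min_of_nonneg _ _ hn1] at h5 h6
  have h7 : 2 * min y w - 2 * s - 3 * u ≤
      Br T 0 ((j + 1) / 2) (T.al 0) - T.D 0 ((j + 1) / 2) := by
    refine le_of_mul_le_mul_left ?_ (show (0 : ℝ) < (n : ℝ) - 1 by linarith)
    nlinarith
  push_cast at h6
  have h8 : min (j : ℝ) w ≤ min ((j : ℝ) + 1) w := min_le_min_right _ (by linarith)
  have h9 := mul_le_mul_of_nonneg_left h8 hn1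
  have h10 : min (j : ℝ) (2 * w) ≤ 2 * min y w := by
    rw [mul_min_of_nonneg _ _ (show (0 : ℝ) ≤ 2 by norm_num)]; exact min_le_min_right _ hy
  rcases le_total (j : ℝ) w with h | h
  · rw [min_eq_left h] at h9
    rw [min_eq_left (by linarith)] at h10
    linarith
  · rw [min_eq_right h] at h9
    rcases le_total (j : ℝ) (2 * w) with h' | h'
    · rw [min_eq_left h'] at h10
      linarith
    · rw [min_eq_right h'] at h10
      linarith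

end K

open K in
theorem tia_of {n : ℕ} (h1 : BasS1 n) (h2 : BasS2 n) (hD1 : DEC n (n - 1)) (hD2 : DEC n (n - 2))
    (hK : Kill n) (hP : Prof n (n - 1)) (hn : 2 ≤ n) : TIa n := by
  obtain ⟨c1, hc1, h1⟩ := h1
  obtain ⟨c2, hc2, h2⟩ := h2
  obtain ⟨c, hc⟩ : ∃ c, c = c1 + c2 := ⟨_, rfl⟩
  have hc0 : 1 ≤ c := by linarith
  have hN2 : (2 : ℝ) ≤ n := by exact_mod_cast hn
  have hd : ((n - 1 : ℕ) : ℝ) = n - 1 := by rw [Nat.cast_sub (by omega)]; simp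
  obtain ⟨θ4, M4, hθ4, hK4⟩ := hK (1 / 2) (by norm_num)
  obtain ⟨θ, hθ0, hθ1, hθ2⟩ : ∃ θ : ℝ, 0 < θ ∧ θ ≤ θ4 ∧ θ ≤ 1 :=
    ⟨min θ4 1, by positivity, min_le_left _ _, min_le_right _ _⟩
  refine ⟨θ / (2 * (n + 1)), 2, by positivity, by norm_num, fun η hη => ?_⟩
  obtain ⟨ε, L, hε, hP⟩ := hP (η / 12) (by positivity)
  have hKt : 0 < Kt n := by unfold Kt; positivity
  obtain ⟨κ, hκ0, hκ1, hκ2, hκ3⟩ : ∃ κ : ℝ, 0 < κ ∧ κ ≤ ε * θ / 2 ∧ κ ≤ η / 2 ∧ κ ≤ 1 :=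
    ⟨min (ε * θ / 2) (min (η / 2) 1), by positivity, min_le_left _ _,
      (min_le_right _ _).trans (min_le_left _ _), (min_le_right _ _).trans (min_le_right _ _)⟩
  obtain ⟨ρ, hρ0, hρ⟩ : ∃ ρ : ℝ, 0 < ρ ∧ Kt n * ρ = κ := ⟨κ / Kt n, by positivity, by field_simp⟩
  obtain ⟨η1, hη1, hη2⟩ : ∃ η1 : ℝ, 0 < η1 ∧ n * η1 = ρ / 4 :=
    ⟨ρ / (4 * n), by positivity, by field_simp⟩
  obtain ⟨θ1, M1, hθ3, hK1⟩ := hK η1 hη1
  obtain ⟨γ, hγ0, hγ1, hγ2⟩ : ∃ γ : ℝ, 0 < γ ∧ γ ≤ θ1 / 2 ∧ γ ≤ ρ / 16 :=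
    ⟨min (θ1 / 2) (ρ / 16), by positivity, min_le_left _ _, min_le_right _ _⟩
  obtain ⟨μ, hμ0, hμ1, hμ2, hμ3⟩ : ∃ μ : ℝ, 0 < μ ∧ μ ≤ θ1 ∧ μ ≤ η1 ∧ μ ≤ 1 :=
    ⟨min θ1 (min η1 1), by positivity, min_le_left _ _,
      (min_le_right _ _).trans (min_le_left _ _), (min_le_right _ _).trans (min_le_right _ _)⟩
  obtain ⟨δ, hδ0, hδ1, hδ2, hδ3⟩ : ∃ δ : ℝ, 0 < δ ∧ δ ≤ θ1 ∧ δ ≤ θ4 ∧ δ ≤ ρ :=
    ⟨min θ1 (min θ4 ρ), by positivity, min_le_left _ _,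
      (min_le_right _ _).trans (min_le_left _ _), (min_le_right _ _).trans (min_le_right _ _)⟩
  obtain ⟨L1, hD1⟩ := hD1 γ hγ0
  obtain ⟨L2, hD2⟩ := hD2 (ρ / 2) (by positivity)
  refine ⟨δ, M4 + M1 + ⌈(1 + 6 * c + 2 * |L2|) / ρ⌉₊ + ⌈(2 + 2 * L) / θ⌉₊ +
    ⌈(2 + (|L1| + c) / γ) / μ⌉₊, hδ0, fun M hM => ?_⟩
  have hM1 : 1 + 6 * c + 2 * |L2| ≤ ρ * M := large hρ0 (by omega)
  have hM2 : 2 + 2 * L ≤ θ * M := large hθ0 (by omega)
  have hM3 : 2 + (|L1| + c) / γ ≤ μ * M := large hμ0 (by omega)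
  refine (((((h1 M).and (h2 M)).and (hK4 M (by omega))).and (hK1 M (by omega))).and
    ((hD1 M).and ((hD2 M).and (hP M)))).mono ?_
  rintro T ⟨⟨⟨⟨B1, B2⟩, hK4⟩, hK1⟩, hD1, hD2, hP⟩ hcr
  have B1' : Bas1 c T := bas1_mono B1 (by linarith)
  have B2' : Bas2 c T := bas2_mono B2 (by linarith)
  have hM0 : (0 : ℝ) ≤ M := Nat.cast_nonneg _
  have hL0 : (0 : ℝ) ≤ L := Nat.cast_nonneg _
  have hL1 := abs_nonneg L1
  have hL2 := abs_nonneg L2
  have hmul : ∀ {x y : ℝ}, x ≤ y → x * M ≤ y * M := fun h => mul_le_mul_of_nonneg_right h hM0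
  -- the grid
  obtain ⟨m, hm1, hm2⟩ : ∃ m : ℕ, (m : ℝ) ≤ μ * M ∧ μ * M < m + 1 :=
    ⟨⌊μ * M⌋₊, Nat.floor_le (by positivity), Nat.lt_floor_add_one _⟩
  have hq : 0 ≤ (|L1| + c) / γ := by positivity
  have hU0 := ub_of (by linarith) B1' hη1.le hγ0.le (hK1 (crit_mono hcr hδ1)) hD1
    (show 1 ≤ m by exact_mod_cast (show (1 : ℝ) ≤ m by linarith)) (hm1.trans (hmul hμ1))
    (hm1.trans (hmul hμ2)) (by exact_mod_cast (show (m : ℝ) ≤ M by linarith [hmul hμ3]))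
    (by
      have k1 : (|L1| + c) / γ ≤ m := by linarith
      rw [div_le_iff₀ hγ0] at k1
      linarith [le_abs_self L1]) (by linarith)
  have hU : UB T (n - 1) 0 M (ρ * M) := fun i j N k1 k2 k3 k4 k5 => by
    have k6 := hU0 i j N k1 k2 k3 k4 k5
    rw [← mul_assoc, hη2] at k6
    linarith [hmul hγ2]
  have hcu : c ≤ ρ * M := by linarith
  have hu1 : 1 ≤ ρ * M := by linarith
  obtain ⟨hg, cl3⟩ := tia1 hn (by linarith) B1' hcu hu1 hcr (hmul hδ3) hU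
  have hKu : Kt n * (ρ * M) = κ * M := by rw [← mul_assoc, hρ]
  have hsq : 0 ≤ ((n : ℝ) + 1) ^ 2 * (ρ * M) := by positivity
  have hNu : 0 ≤ (n : ℝ) * (ρ * M) := by positivity
  have hKt2 : 33 * (n * (ρ * M)) + 250 * (ρ * M) ≤ η * M / 2 := by
    have : Kt n * (ρ * M) = 36 * (((n : ℝ) + 1) ^ 2 * (ρ * M)) + 33 * (n * (ρ * M)) +
      250 * (ρ * M) := by unfold Kt; ring
    linarith [hmul hκ2]
  have hηM : 0 ≤ η * M := by positivity
  have hlow : ∀ j ≤ M, θ * M / 2 ≤ j → T.Nar 0 j (n - 1) → ∀ v ≤ M,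
      min (((n : ℝ) - 1) * v) (((n : ℝ) - 1) / (n + 1) * j) -
        (η / 12 * M + (11 * n + 58) * (ρ * M)) ≤ T.D 0 v := fun j k1 k2 k3 =>
    tia2 hn (by linarith) B1' hcu hu1 hcr.1 hcr.2.1 hU hg (fun l k4 k5 => by
      have k6 := hD2 0 l _ (Nat.zero_le _) k4 le_rfl T.ne k5
      have k7 : (l : ℝ) ≤ M := by exact_mod_cast k4
      have k8 := mul_le_mul_of_nonneg_left k7 hρ0.le
      push_cast at k6
      linarith [le_abs_self L2]) hP (by positivity) (by linarith [hmul hκ3]) k1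
      (by exact_mod_cast (show (L : ℝ) ≤ j by linarith))
      (by linarith [hmul hκ1, mul_le_mul_of_nonneg_left k2 hε.le]) k3
  obtain ⟨j₀, hj1, hj2⟩ : ∃ j : ℕ, (j : ℝ) ≤ θ * M ∧ θ * M < j + 1 :=
    ⟨⌊θ * M⌋₊, Nat.floor_le (by positivity), Nat.lt_floor_add_one _⟩
  have hj3 : j₀ ≤ M := by exact_mod_cast (show (j₀ : ℝ) ≤ M by linarith [hmul hθ2])
  have hj4 : T.Nar 0 j₀ (n - 1) := by
    have := hK4 (crit_mono hcr hδ2) 0 j₀ (by push_cast; linarith)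
      (by exact_mod_cast (show (1 : ℝ) ≤ j₀ by linarith)) (hj1.trans (hmul hθ1))
      ((g_self B1 _ _ le_rfl).trans (by positivity))
    rwa [zero_add] at this
  have hj5 : ∀ j : ℕ, (j : ℝ) ≤ θ / (2 * (n + 1)) * M → ((n : ℝ) + 1) * j ≤ j₀ := fun j k1 => by
    have k2 := mul_le_mul_of_nonneg_left k1 (show (0 : ℝ) ≤ n + 1 by positivity)
    have k3 : ((n : ℝ) + 1) * (θ / (2 * (n + 1)) * M) = θ * M / 2 := by field_simp
    linarith
  have hj6 : ∀ j : ℕ, (j : ℝ) ≤ θ / (2 * (n + 1)) * M → j ≤ j₀ := fun j k1 => by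
    have k2 := hj5 j k1
    have k3 : 0 ≤ (n : ℝ) * j := by positivity
    exact_mod_cast (show (j : ℝ) ≤ j₀ by linarith)
  refine ⟨fun j k1 => ?_, fun j k1 => ?_, by linarith, fun j₁ k1 k2 j k3 => ?_⟩
  · have k2 := hlow j₀ hj3 (by linarith) hj4 j ((hj6 j k1).trans hj3)
    have k3 := B1'.A_le 0 j (Nat.zero_le _) ((hj6 j k1).trans hj3)
    rw [min_eq_left (by
      rw [div_mul_eq_mul_div, le_div_iff₀ (by positivity), mul_assoc, mul_comm (j : ℝ)]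
      exact mul_le_mul_of_nonneg_left (hj5 j k1) (by linarith))] at k2
    unfold Tw.D at k2
    linarith
  · have k2 := tight_m B1' (by linarith) le_rfl le_rfl T.ne (e := 5 * (ρ * M))
      (fun i j N h1 h2 h3 h4 h5 => by linarith [hU i j N h1 h2 h3 h4 h5]) hg (Nat.zero_le j)
      ((hj6 j k1).trans hj3) le_rfl
    have k3 := B1'.m_nar 0 j (n - 1) (Nat.zero_le _) ((hj6 j k1).trans hj3) (by omega)
      (B1.nar_sub 0 0 j j₀ _ le_rfl (Nat.zero_le _) (hj6 j k1) hj3 hj4)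
    have k4 := mul_le_mul_of_nonneg_left hcu (show (0 : ℝ) ≤ n + 1 by positivity)
    rw [hd] at k2 k3
    push_cast at k3
    linarith
  · rcases le_total (j₁ : ℝ) (M / 2) with h | h
    · have k4 := B2'.cc_lip 0 0 j (T.al 0) (Nat.zero_le _) T.ne
      rw [B2.cc_zero] at k4
      push_cast at k4
      linarith [le_lprof3 n M j]
    · have k4 := tia3 hn B2' hcu hu1 hcr.1 hcr.2.1 hU (by positivity) k1
        (hlow j₁ k1 (by linarith [hmul hθ2]) k2) k3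
      linarith

end Crest.Agent.N76.L
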