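import Crest.Agent.N76.II.A.Main
import Crest.Agent.N76.II.TIDefs
import Crest.Agent.N76.L.Tight
import Crest.Agent.N76.L.Cnt
import Crest.Agent.N76.II.Net

-- ▼ part N76/II/A/Final
section

/-! # Row 76, part A (final interface): `TI2`, `TI3`, `TII` imply `SS` (helper14). -/

set_option autoImplicit false

open MeasureTheory Set Metric
open scoped RealInnerProductSpace

namespace Crest.Agent.N76.II.A

open Crest.Agent.N76.Red Crest.Agent.N76.G

theorem en_bound' (d : ℕ) (hd : 1 ≤ d) (hI : TI2 (d + 1)) (hI3 : TI3 (d + 1)) (hII : TII d) :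
    ∃ c γ C : ℝ, 0 < γ ∧ γ ≤ c ∧ 0 ≤ C ∧ ∀ R : ℝ, 1 ≤ R → ∀ X : Finset (V (d + 1) × ℝ), Graph R X →
      ∀ H : L2 (d + 1), Supp H → en X H ≤ C * R ^ (((d : ℝ) + 1) / (d + 2)) *
        (((X.card : ℝ) / R ^ (d + 1)) ^ c + R ^ (-γ)) * ‖H‖ ^ 2 := by
  obtain ⟨α₀, hα₀, hII⟩ := hII
  obtain ⟨θ₀, hθ₀, hI3⟩ := hI3
  set α : ℝ := min (α₀ / 8) (min (θ₀ / 2) (1 / 12)) with hα
  have hα0 : 0 < α := lt_min (by positivity) (lt_min (by positivity) (by positivity))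
  have hα1 : 8 * α ≤ α₀ := by linarith [min_le_left (α₀ / 8) (min (θ₀ / 2) (1 / 12))]
  have hα2 : α ≤ θ₀ / 2 := (min_le_right _ _).trans (min_le_left _ _)
  have hα3 : α ≤ 1 / 12 := (min_le_right _ _).trans (min_le_right _ _)
  obtain ⟨c, C₂, hc, hC₂, hII⟩ := hII (8 * α) (by positivity) hα1
  obtain ⟨δ₂, C₁₂, hδ₂, hC₁₂, hI₁⟩ := hI α hα0
  obtain ⟨δ₃, C₁₃, hδ₃, hC₁₃, hI₃⟩ := hI3 α hα0
  set δ : ℝ := min δ₂ δ₃ with hδ'
  have hδ : 0 < δ := lt_min hδ₂ hδ₃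
  set C₁ : ℝ := max C₁₂ C₁₃ with hC₁'
  have hC₁ : 0 ≤ C₁ := le_max_of_le_left hC₁₂
  set a : ℝ := min α δ / 5 with ha
  have ha0 : 0 < a := by have := lt_min hα0 hδ; positivity
  obtain ⟨δ₀, C₀, hδ₀, hC₀, hI₀⟩ := hI a ha0
  have ha1 : 5 * a ≤ α := by linarith [min_le_left α δ]
  have ha2 : 5 * a ≤ δ := by linarith [min_le_right α δ]
  set R₀ : ℝ := (20 * 21 ^ (d + 1) : ℝ) ^ a⁻¹ with hR₀
  have hK : (1 : ℝ) ≤ 20 * 21 ^ (d + 1) := by
    have : (1 : ℝ) ≤ 21 ^ (d + 1) := one_le_pow₀ (by norm_num)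
    linarith
  have hR₀1 : 1 ≤ R₀ := Real.one_le_rpow hK (by positivity)
  set γ : ℝ := min (min δ₀ (δ / 2)) c with hγ
  have hγ0 : 0 < γ := lt_min (lt_min hδ₀ (by positivity)) hc
  have hγ1 : γ ≤ δ₀ := (min_le_left _ _).trans (min_le_left _ _)
  have hγ2 : γ ≤ δ / 2 := (min_le_left _ _).trans (min_le_right _ _)
  have hγ3 : γ ≤ c := min_le_right _ _
  refine ⟨c, γ, (3 * R₀) ^ (d + 1) * R₀ ^ γ + (C₀ + 6 * C₁ + 3 * C₂), hγ0, hγ3, by positivity,
    fun R hR X hX H hH => ?_⟩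
  have hR0 : 0 < R := by linarith
  set s : ℝ := ((d : ℝ) + 1) / (d + 2) with hs
  have hs' : (((d + 1 : ℕ) : ℝ)) / (((d + 1 : ℕ) : ℝ) + 1) = s := by
    rw [hs]; push_cast; ring
  have hs1 : 1 ≤ R ^ s := Real.one_le_rpow hR (by positivity)
  set t : ℝ := ((X.card : ℝ) / R ^ (d + 1)) ^ c with ht
  have ht0 : 0 ≤ t := by positivity
  have hRγ : 0 < R ^ (-γ) := by positivity
  have hH0 : 0 ≤ ‖H‖ ^ 2 := by positivity
  rcases le_total R R₀ with hRR | hRR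
  · refine (en_le_card X H).trans ?_
    gcongr
    have h1 : (X.card : ℝ) ≤ (3 * R₀) ^ (d + 1) := (graph_card hR hX).trans (by gcongr)
    have h2 : 1 ≤ R₀ ^ γ * R ^ (-γ) := by
      rw [Real.rpow_neg hR0.le, ← div_eq_mul_inv, one_le_div (by positivity)]
      gcongr
    calc (X.card : ℝ) ≤ (3 * R₀) ^ (d + 1) * (R₀ ^ γ * R ^ (-γ)) :=
          h1.trans (le_mul_of_one_le_right (by positivity) h2)
      _ = ((3 * R₀) ^ (d + 1) * R₀ ^ γ) * 1 * R ^ (-γ) := by ring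
      _ ≤ _ := by
          gcongr
          · have : 0 ≤ C₀ + 6 * C₁ + 3 * C₂ := by positivity
            linarith
          · linarith
  have hpow : ∀ (x : ℝ) (k : ℕ), (R ^ x) ^ k = R ^ (k * x) := fun x k => by
    rw [← Real.rpow_natCast, ← Real.rpow_mul hR0.le, mul_comm]
  have hmono : ∀ {x y : ℝ}, x ≤ y → R ^ x ≤ R ^ y := fun h => Real.rpow_le_rpow_of_exponent_le hR h
  have hdiv : ∀ x : ℝ, R ^ (((d + 1 : ℕ) : ℝ) - x) = R ^ (d + 1) / R ^ x := fun x => by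
    rw [Real.rpow_sub hR0, Real.rpow_natCast]
  have hoff : ∀ (x : ℝ) (X' : Finset (V (d + 1) × ℝ)) (H : L2 (d + 1)), Off R √R (R ^ x) X' H →
      ∀ (ν : V (d + 1)) (c y : ℝ), ‖ν‖ = 1 →
        R ^ (((d + 1 : ℕ) : ℝ) - x) ≤ ms X' id (fun _ => 1) (plank ν c y (R ^ x * √R)) →
        ∀ᵐ ξ : V (d + 1), |⟪ν, ξ⟫ - c| ≤ R ^ x / √R → H ξ = 0 := by
    intro x X' H h ν c y hν hm
    rw [ms_eq, hdiv] at hm
    exact h (ν, c, y) hν hm
  have hcore := core (n := d + 1) (by omega) (R := R) (T := √R) (P := R ^ a) (Q := R ^ α)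
    (ε₀ := C₀ * R ^ (s - δ₀)) (ε := C₁ * R ^ (s - δ))
    (Λ := C₂ * R ^ s * (t + R ^ (-c))) (Real.sq_sqrt hR0.le) ?_ ?_ ?_ (by positivity)
    (by positivity) hX ?_ ?_ ?_ ?_ H hH
  · refine hcore.trans ?_
    gcongr
    have e1 : R ^ (s - δ₀) ≤ R ^ s * R ^ (-γ) := by
      rw [← Real.rpow_add hR0]; exact hmono (by linarith)
    have e2 : (R ^ a) ^ 2 * R ^ (s - δ) ≤ R ^ s * R ^ (-γ) := by
      rw [hpow, ← Real.rpow_add hR0, ← Real.rpow_add hR0]; exact hmono (by push_cast; linarith)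
    have e3 : R ^ (-c) ≤ R ^ (-γ) := hmono (by linarith)
    have e4 : R ^ s * R ^ (-γ) ≤ R ^ s * (t + R ^ (-γ)) := by gcongr; linarith
    calc _ = C₀ * R ^ (s - δ₀) + 6 * C₁ * ((R ^ a) ^ 2 * R ^ (s - δ)) +
          3 * C₂ * (R ^ s * (t + R ^ (-c))) := by ring
      _ ≤ C₀ * (R ^ s * (t + R ^ (-γ))) + 6 * C₁ * (R ^ s * (t + R ^ (-γ))) +
          3 * C₂ * (R ^ s * (t + R ^ (-γ))) := by
          gcongr C₀ * ?_ + 6 * C₁ * ?_ + 3 * C₂ * (R ^ s * (t + ?_))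
          · exact e1.trans e4
          · exact e2.trans e4
      _ = (0 + (C₀ + 6 * C₁ + 3 * C₂)) * R ^ s * (t + R ^ (-γ)) := by ring
      _ ≤ _ := by gcongr; positivity
  · calc (20 : ℝ) * 21 ^ (d + 1) = R₀ ^ a := by
          rw [hR₀, Real.rpow_inv_rpow (by positivity) ha0.ne']
      _ ≤ R ^ a := by gcongr
  · rw [hpow]; exact hmono (by push_cast; linarith)
  · rw [hpow, Real.sqrt_eq_rpow]; exact hmono (by push_cast; linarith)
  · intro X' hX' H hH h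
    have := hI₀ R hR X' (Graph.mono hX hX') H hH (hoff a X' H h)
    rwa [En_eq, hs'] at this
  · intro X' hX' H hH h
    have := hI₁ R hR X' (Graph.mono hX hX') H hH (hoff α X' H h)
    rw [En_eq, hs'] at this
    refine this.trans ?_
    gcongr ?_ * ?_ * _
    · exact le_max_left _ _
    · exact hmono (by linarith [min_le_left δ₂ δ₃])
  · intro X' hX' H hH G hG h
    have := hI₃ R hR X' (Graph.mono hX hX') H hH ((R ^ α) ^ 2)
      (one_le_pow₀ (Real.one_le_rpow hR hα0.le)) ?_ G ?_ h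
    · rw [En_eq, hs'] at this
      refine this.trans ?_
      gcongr ?_ * ?_ * _
      · exact le_max_right _ _
      · exact hmono (by linarith [min_le_right δ₂ δ₃])
    · rw [hpow]
      exact hmono (by push_cast; linarith)
    · rwa [Real.rpow_neg hR0.le, ← div_eq_mul_inv]
  · intro X' hX' ν c' Y hν hY hXY H hH h
    refine tii_rot (R := R) (N := X.card) (M := (R ^ α) ^ 8) ?_ X' (Graph.mono hX hX')
      (Finset.card_le_card hX') ν c' Y hν hY hXY H hH h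
    intro X₁ h1 h2 c₀ Y₁ h3 h4 H₁ h5 h6
    rw [hpow] at h3 h4 h6
    push_cast at h3 h4 h6
    have := hII R hR X₁ h1 c₀ Y₁ h3 h4 H₁ h5 h6
    rw [En_eq] at this
    refine this.trans ?_
    simp only [ht]
    gcongr

end Crest.Agent.N76.II.A

namespace Crest.Agent.N76.II

open Crest.Agent.N76.Red Crest.Agent.N76.G A

/-- **Part A.** -/
theorem ss_of' (d : ℕ) (hd : 1 ≤ d) (hI : TI2 (d + 1)) (hI3 : TI3 (d + 1)) (hII : TII d) :
    SS (d + 1) := by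
  obtain ⟨c, γ, C, hγ, hγc, hC, h⟩ := en_bound' d hd hI hI3 hII
  have hn : (1 : ℝ) ≤ ((d + 1 : ℕ) : ℝ) := by exact_mod_cast Nat.le_add_left 1 d
  set c' : ℝ := γ / ((d + 1 : ℕ) : ℝ) with hc'
  have hc'0 : 0 < c' := by positivity
  have hc'1 : c' ≤ c := (div_le_self hγ.le hn).trans hγc
  refine ⟨c', C * (((3 : ℝ) ^ (d + 1)) ^ (c - c') + 1) * Real.exp (2 * Real.pi), hc'0,
    fun R hR X hX1 hX2 g hg hs lam hlam hl => ?_⟩
  have hR0 : 0 < R := by linarith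
  have hI : 0 ≤ ∫ ξ, ‖g ξ‖ ^ 2 := integral_nonneg fun ξ => by positivity
  rcases X.eq_empty_or_nonempty with rfl | hne
  · simp only [Finset.card_empty, Nat.cast_zero, mul_zero]; positivity
  obtain ⟨H, h1, h2, h3⟩ := exists_ext_eq g hg hs
  have hH : Supp H := by
    filter_upwards [h1] with ξ h4 h5
    rw [h4, hs ξ h5, mul_zero]
  have h4 := h R hR X ⟨hX1, hX2⟩ H hH
  have h5 : lam ^ 2 * X.card ≤ en X H := by
    rw [mul_comm, ← nsmul_eq_mul, ← Finset.sum_const]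
    exact Finset.sum_le_sum fun z hz => pow_le_pow_left₀ hlam (by rw [← h3]; exact hl z hz) 2
  set t : ℝ := (X.card : ℝ) / R ^ (d + 1) with ht
  have ht0 : 0 ≤ t := by positivity
  have ht1 : t ≤ 3 ^ (d + 1) := by
    rw [ht, div_le_iff₀ (by positivity), ← mul_pow]; exact graph_card hR ⟨hX1, hX2⟩
  have ht2 : (R ^ (d + 1))⁻¹ ≤ t := by
    rw [ht, ← one_div]; gcongr; exact_mod_cast hne.card_pos
  have h6 : t ^ c ≤ ((3 : ℝ) ^ (d + 1)) ^ (c - c') * t ^ c' := by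
    have hd : 0 ≤ c - c' := by linarith
    calc t ^ c = t ^ ((c - c') + c') := by congr 1; ring
      _ = _ := Real.rpow_add_of_nonneg ht0 hd hc'0.le
      _ ≤ _ := by gcongr
  have h7 : R ^ (-γ) ≤ t ^ c' := by
    calc R ^ (-γ) = ((R ^ (d + 1))⁻¹) ^ c' := by
          rw [← Real.rpow_natCast, ← Real.rpow_neg hR0.le, ← Real.rpow_mul hR0.le, hc']
          congr 1; field_simp
      _ ≤ _ := by gcongr
  have hs' : (((d + 1 : ℕ) : ℝ)) / (((d + 1 : ℕ) : ℝ) + 1) = ((d : ℝ) + 1) / (d + 2) := by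
    push_cast; ring
  rw [hs']
  refine h5.trans (h4.trans ?_)
  calc _ ≤ C * R ^ (((d : ℝ) + 1) / (d + 2)) *
        (((3 : ℝ) ^ (d + 1)) ^ (c - c') * t ^ c' + t ^ c') *
        (Real.exp (2 * Real.pi) * ∫ ξ, ‖g ξ‖ ^ 2) := by gcongr
    _ = _ := by ring

end Crest.Agent.N76.II
end

-- ▼ part N76/L/Dec
section

/-! # Row 76, Part I: refined decoupling `DEC` and the abstract sparse gain `SGa`
(pure real arithmetic on the interfaces `Bas1`, `Bas2`, `CoreP`). -/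

set_option autoImplicit false

open Finset

namespace Crest.Agent.N76.L

variable {n M : ℕ}

theorem q_nonneg (κ : ℕ) : (0 : ℝ) ≤ (κ : ℝ) / (κ + 2) := by positivity

theorem q_le_one (κ : ℕ) : (κ : ℝ) / (κ + 2) ≤ 1 := by
  rw [div_le_one (by positivity)]; linarith

theorem q_mono {κ κ' : ℕ} (h : κ' ≤ κ) : (κ' : ℝ) / (κ' + 2) ≤ (κ : ℝ) / (κ + 2) := by
  have h1 : (κ' : ℝ) ≤ κ := by exact_mod_cast h
  rw [div_le_div_iff₀ (by positivity) (by positivity)]; nlinarith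

/-- subadditivity of the defect -/
theorem g_sub {c : ℝ} {T : Tw n M} (h : Bas1 c T) (κ : ℕ) {i j l : ℕ} (hij : i ≤ j) (hjl : j ≤ l)
    (hl : l ≤ M) {N : Finset (Nd n)} (hN : N ⊆ T.al i) (hne : N.Nonempty) :
    T.g κ i l N ≤ T.g κ i j N + T.g κ j l (T.nS i j N) + c := by
  have hc := h.c_nonneg
  have h1 := h.m_sup i j l hij hjl hl
  have hne' := h.nS_ne i j N hij (hjl.trans hl) hN hne
  have h2 : T.C (T.nS j l (T.nS i j N)) ≤ T.C (T.nS i l N) :=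
    h.C_mono _ _ (h.nS_ne j l _ hjl hl (h.nS_sub i j N) hne') (h.nS_comp i j l N hij hjl hl)
  have hq0 := q_nonneg κ
  have hq1 := q_le_one κ
  unfold Tw.g
  generalize (κ : ℝ) / (κ + 2) = q at *
  have h3 := mul_le_mul_of_nonneg_left h1 (sub_nonneg.2 hq1)
  have h4 := mul_le_mul_of_nonneg_left h2 hq0
  have h5 := mul_nonneg hq0 hc
  nlinarith

/-- the defect is at most `m + 2c` -/
theorem g_le_m {c : ℝ} {T : Tw n M} (h : Bas1 c T) (κ : ℕ) {i j : ℕ} (hij : i ≤ j)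
    (hj : j ≤ M) {N : Finset (Nd n)} (hN : N ⊆ T.al i) (hne : N.Nonempty) :
    T.g κ i j N ≤ T.m i j + 2 * c := by
  have hc := h.c_nonneg
  have h1 := h.A_le i j hij hj
  have h2 := h.C_br i j N hij hj hN hne
  have hq0 := q_nonneg κ
  have hq1 := q_le_one κ
  unfold Tw.g
  generalize (κ : ℝ) / (κ + 2) = q at *
  have h4 := mul_le_mul_of_nonneg_left h2 hq0
  have h5 := mul_le_mul_of_nonneg_right hq1 hc
  nlinarith

/-- the trivial bound -/
theorem g_triv {c : ℝ} {T : Tw n M} (h : Bas1 c T) (κ : ℕ) {i j : ℕ} (hij : i ≤ j)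
    (hj : j ≤ M) {N : Finset (Nd n)} (hN : N ⊆ T.al i) (hne : N.Nonempty) :
    T.g κ i j N ≤ (n : ℝ) * ((j : ℝ) - i) + 3 * c := by
  have h1 := g_le_m h κ hij hj hN hne
  have h2 := h.m_nar i j n hij hj le_rfl (h.nar_n i j)
  linarith

/-- the defect is almost decreasing in `κ` -/
theorem g_anti {c : ℝ} {T : Tw n M} (h : Bas1 c T) {κ κ' : ℕ} (hκ : κ' ≤ κ) {i j : ℕ} (hij : i ≤ j)
    (hj : j ≤ M) {N : Finset (Nd n)} (hN : N ⊆ T.al i) (hne : N.Nonempty) :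
    T.g κ i j N ≤ T.g κ' i j N + c := by
  have hc := h.c_nonneg
  have h2 := h.C_br i j N hij hj hN hne
  have hq0 := q_nonneg κ'
  have hq1 := q_le_one κ
  have hq := q_mono hκ
  unfold Tw.g
  generalize (κ : ℝ) / (κ + 2) = q at *
  generalize (κ' : ℝ) / (κ' + 2) = q' at *
  have h4 := mul_le_mul_of_nonneg_left h2 (sub_nonneg.2 hq)
  have h5 : (q - q') * c ≤ c := by nlinarith
  nlinarith

theorem g_step {c : ℝ} {T : Tw n M} (h : Bas1 c T) (κ : ℕ) {i j : ℕ} (hij : i ≤ j)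
    (hj : j ≤ M) {N : Finset (Nd n)} (hN : N ⊆ T.al i) (hne : N.Nonempty) :
    T.g κ i j N ≤ T.g (κ - 1) i j N + c :=
  g_anti h (Nat.sub_le κ 1) hij hj hN hne

/-- the potential used in the doubling argument -/
noncomputable def Ypot (T : Tw n M) (κ b b' a : ℕ) (N : Finset (Nd n)) : ℝ :=
  T.A (b + a) + T.m b' (b + a) - T.A b +
    (κ : ℝ) / (κ + 2) * (T.cc b a N + ((n : ℝ) + 1) * a - T.C N)

theorem Ypot_ge {c₁ c₂ : ℝ} {T : Tw n M} (h : Bas1 c₁ T) (h' : Bas2 c₂ T) (hc₂ : 0 ≤ c₂)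
    (κ : ℕ) {b b' a : ℕ} (hb : b + a ≤ M) {N : Finset (Nd n)} (hne : N.Nonempty) :
    -(2 * n * a + 3 * c₁ + c₂) ≤ Ypot T κ b b' a N := by
  have h1 := h.A_le b (b + a) (Nat.le_add_right _ _) hb
  have h2 := h.m_nar b (b + a) n (Nat.le_add_right _ _) hb le_rfl (h.nar_n _ _)
  have h3 := h.m_nonneg b' (b + a)
  have h4 := h'.cc_lip b 0 a N (Nat.zero_le _) hne
  rw [h'.cc_zero] at h4
  have hq0 := q_nonneg κ
  have hq1 := q_le_one κ
  unfold Ypot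
  generalize (κ : ℝ) / (κ + 2) = q at *
  push_cast at h2 h4
  have h5 := mul_le_mul_of_nonneg_left h4 hq0
  have h6 := mul_le_mul_of_nonneg_right hq1 hc₂
  nlinarith

theorem Ypot_le {c₁ c₂ : ℝ} {T : Tw n M} (h : Bas1 c₁ T) (h' : Bas2 c₂ T) (hc₂ : 0 ≤ c₂)
    (κ : ℕ) {b b' a : ℕ} (hb' : b ≤ b') (hb'a : b' ≤ b + a) (hb : b + a ≤ M)
    {N : Finset (Nd n)} (hN : N ⊆ T.al b) (hne : N.Nonempty)
    (hg : -c₁ ≤ T.g κ b (b + a) N) :
    Ypot T κ b b' a N ≤ (2 * n + 1) * a + 3 * c₁ + c₂ := by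
  have hc := h.c_nonneg
  have h1 := h.C_br b (b + a) N (Nat.le_add_right _ _) hb hN hne
  have h2 := h.m_nar b' (b + a) n hb'a hb le_rfl (h.nar_n _ _)
  have h3 := h.m_nonneg b (b + a)
  have h4 := h'.cc_anti b 0 a N (Nat.zero_le _) hne
  rw [h'.cc_zero] at h4
  have hq0 := q_nonneg κ
  have hq1 := q_le_one κ
  have hbb : (b : ℝ) ≤ b' := by exact_mod_cast hb'
  have hn : (0 : ℝ) ≤ n := Nat.cast_nonneg _
  have ha : (0 : ℝ) ≤ a := Nat.cast_nonneg _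
  unfold Tw.g at hg
  unfold Ypot
  generalize (κ : ℝ) / (κ + 2) = q at *
  push_cast at h1 h2 hg
  have h5 := mul_le_mul_of_nonneg_left h1 hq0
  have h6 := mul_le_mul_of_nonneg_right hq1 hc
  have h7 : q * (T.cc b a N + ((n : ℝ) + 1) * a - T.C N) ≤ ((n : ℝ) + 1) * a + c₂ := by
    have h8 : q * (T.cc b a N + ((n : ℝ) + 1) * a - T.C N) ≤ q * (((n : ℝ) + 1) * a + c₂) :=
      mul_le_mul_of_nonneg_left (by linarith) hq0
    have h9 : q * (((n : ℝ) + 1) * a + c₂) ≤ 1 * (((n : ℝ) + 1) * a + c₂) :=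
      mul_le_mul_of_nonneg_right hq1 (by positivity)
    linarith
  have h10 := mul_le_mul_of_nonneg_left hbb hn
  nlinarith

/-- the doubling inequality -/
theorem Ypot_dbl {c₁ c₂ c₃ : ℝ} {T : Tw n M} (h : Bas1 c₁ T) (h' : Bas2 c₂ T) (hc₂ : 0 ≤ c₂)
    (h'' : CoreP c₃ T) (hc₃ : 0 ≤ c₃) {κ b m₀ a : ℕ} (hκ : 1 ≤ κ) (hκn : κ ≤ n) (hm : 1 ≤ m₀)
    (ha : n * m₀ + 2 ≤ a) (hb : b + (2 * a + 1) ≤ M) {N : Finset (Nd n)} (hN : N ⊆ T.al b)
    (hne : N.Nonempty) (hnar : ¬ T.Nar b (b + m₀) (κ - 1)) (hnar' : T.Nar b (b + (2 * a + 1)) κ) :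
    2 * Ypot T κ b (b + (n * m₀ + 2)) a N + T.g κ b (b + a) N - (c₁ + c₂ + 2 * c₃ * m₀) ≤
      Ypot T κ b (b + (n * m₀ + 2)) (2 * a + 1) N := by
  have hc := h.c_nonneg
  have hba : b + a ≤ M := by omega
  obtain ⟨h1, h2⟩ := (h'' κ b m₀ a (2 * a) N hκ hκn hm ha (by omega) le_rfl hba hN hne hnar).2
    (by omega) (by rwa [add_assoc]) _ rfl
  replace h2 := h2 rfl
  have h3 := h'.cc_lip b (2 * a) (2 * a + 1) N (Nat.le_succ _) hne
  have h4 := h.m_sup b (b + (n * m₀ + 2)) (b + a) (Nat.le_add_right _ _) (by omega) hba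
  have h5 := h.m_nonneg b (b + (n * m₀ + 2))
  have hq0 := q_nonneg κ
  have hq1 := q_le_one κ
  have hk : (1 : ℝ) ≤ κ := by exact_mod_cast hκ
  have hm0 : (0 : ℝ) ≤ m₀ := Nat.cast_nonneg _
  have e1 : (κ : ℝ) / (κ + 2) * (((κ : ℝ) + 1) / κ) * 2 = 1 + (κ : ℝ) / (κ + 2) := by
    field_simp; ring
  have e2 : (κ : ℝ) / (κ + 2) * (((κ : ℝ) + 1) / κ + 1 / κ) = 1 := by
    field_simp; ring
  have e3 : (κ : ℝ) / (κ + 2) * ((κ : ℝ) + 2) = κ := by field_simp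
  rw [add_assoc b (2 * a) 1] at h1 h2
  unfold Ypot Tw.g
  push_cast at h1 h2 h3 ⊢
  generalize T.m (b + (n * m₀ + 2)) (b + (2 * a + 1)) = m2 at *
  generalize T.m (b + (n * m₀ + 2)) (b + a) = m1 at *
  generalize T.A (b + (2 * a + 1)) = A2 at *
  generalize T.A (b + a) = A1 at *
  generalize T.cc b a N = k1 at *
  generalize T.cc b (2 * a) N = k2 at *
  generalize T.cc b (2 * a + 1) N = k3 at *
  generalize T.C (T.nS b (b + a) N) = Cs at *
  generalize T.m b (b + a) = m0 at *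
  generalize T.m b (b + (n * m₀ + 2)) = m3 at *
  obtain ⟨w, hw⟩ : ∃ w, w = (κ : ℝ) * (2 * (a : ℝ) - a) + m2 + A2 - A1 := ⟨_, rfl⟩
  rw [← hw] at h1 h2
  rw [div_eq_mul_one_div w (κ : ℝ)] at h2
  generalize ((κ : ℝ) + 1) / κ = r at *
  generalize 1 / (κ : ℝ) = s at *
  generalize (κ : ℝ) / (κ + 2) = q at *
  have i1 := mul_le_mul_of_nonneg_left h1 hq0
  have i2 := mul_le_mul_of_nonneg_left h2 hq0
  have i3 := mul_le_mul_of_nonneg_left h3 hq0
  have i4 := mul_le_mul_of_nonneg_left (show m1 - c₁ ≤ m0 by linarith) (sub_nonneg.2 hq1)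
  have i5 := mul_le_mul_of_nonneg_right hq1 hc₂
  have i6 := mul_le_mul_of_nonneg_right hq1 (mul_nonneg hc₃ hm0)
  have i7 := mul_nonneg hq0 hc
  have f1 : q * r * 2 * m1 = (1 + q) * m1 := by rw [e1]
  have f2 : q * (r + s) * w = w := by rw [e2, one_mul]
  have f3 : q * ((κ : ℝ) + 2) * a = κ * a := by rw [e3]
  linear_combination i1 + i2 + i3 + i4 + i5 + 2 * i6 + i7 - f1 + f2 - f3 + hw

/-- geometric block lengths -/
def blk (a₀ : ℕ) : ℕ → ℕ
  | 0 => a₀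
  | p + 1 => 2 * blk a₀ p + 1

theorem blk_mono (a₀ : ℕ) : Monotone (blk a₀) :=
  monotone_nat_of_le_succ fun p => by simp only [blk]; omega

/-- a good block exists -/
theorem exists_block {c₁ c₂ c₃ γ L : ℝ} {T : Tw n M} (h : Bas1 c₁ T) (h' : Bas2 c₂ T)
    (hc₂ : 0 ≤ c₂) (h'' : CoreP c₃ T) (hc₃ : 0 ≤ c₃) (hγ : 0 < γ) {κ m₀ a₀ P : ℕ} (hκ : 1 ≤ κ)
    (hκn : κ ≤ n) (hm : 1 ≤ m₀) (ha : n * m₀ + 2 ≤ a₀)
    (hd : ∀ i j N, i ≤ j → j ≤ M → N ⊆ T.al i → N.Nonempty → T.Nar i j (κ - 1) →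
      T.g (κ - 1) i j N ≤ γ / 2 * ((j : ℝ) - i) + L)
    (hm₀ : L + 2 * c₁ ≤ γ / 2 * m₀)
    (ha₀ : 2 * c₁ + c₂ + 2 * c₃ * m₀ + γ / 2 ≤ γ / 2 * a₀)
    (hP : 2 * (2 * n + 1 + 3 * c₁ + c₂) < P * (γ / 4))
    {b j : ℕ} (hbj : b + blk a₀ P ≤ j) (hj : j ≤ M) {N : Finset (Nd n)} (hN : N ⊆ T.al b)
    (hne : N.Nonempty) (hnar : T.Nar b j κ) :
    ∃ a, 1 ≤ a ∧ a ≤ blk a₀ P ∧ T.g κ b (b + a) N ≤ γ * a - c₁ := by
  have hc := h.c_nonneg
  have hn1 : 1 ≤ n := hκ.trans hκn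
  have hm₀a : m₀ ≤ a₀ := by nlinarith
  have h0P : a₀ ≤ blk a₀ P := blk_mono a₀ (Nat.zero_le P)
  by_cases hb : T.Nar b (b + m₀) (κ - 1)
  · refine ⟨m₀, hm, hm₀a.trans h0P, ?_⟩
    have h1 := g_step h κ (Nat.le_add_right b m₀) (by omega) hN hne
    have h2 := hd b (b + m₀) N (Nat.le_add_right b m₀) (by omega) hN hne hb
    push_cast at h2
    linarith
  by_contra hcon
  push Not at hcon
  have hle : ∀ p ≤ P, a₀ ≤ blk a₀ p ∧ blk a₀ p ≤ blk a₀ P := fun p hp =>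
    ⟨blk_mono a₀ (Nat.zero_le p), blk_mono a₀ hp⟩
  have hg : ∀ p ≤ P, γ * (blk a₀ p : ℕ) - c₁ < T.g κ b (b + blk a₀ p) N := fun p hp =>
    hcon _ (by have := hle p hp; omega) (hle p hp).2
  set C₀ : ℝ := 2 * n + 1 + 3 * c₁ + c₂ with hC₀
  have hn0 : (0 : ℝ) ≤ n := Nat.cast_nonneg _
  have key : ∀ p ≤ P, (-C₀ + p * (γ / 4)) * ((blk a₀ p : ℕ) + 1) ≤
      Ypot T κ b (b + (n * m₀ + 2)) (blk a₀ p) N := by
    intro p
    induction p with
    | zero =>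
      intro _
      have h1 := Ypot_ge h h' hc₂ κ (b := b) (b' := b + (n * m₀ + 2)) (a := blk a₀ 0)
        (by have := hle 0 (Nat.zero_le _); omega) hne
      have h2 : (0 : ℝ) ≤ (blk a₀ 0 : ℕ) := Nat.cast_nonneg _
      have h3 := mul_nonneg h2 hc
      have h4 := mul_nonneg h2 hc₂
      push_cast
      rw [hC₀]
      nlinarith
    | succ p ih =>
      intro hp
      have h1 := ih (by omega)
      have h2 := hle p (by omega)
      have h3 := hle (p + 1) hp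
      have h4 := hg p (by omega)
      simp only [blk] at h3 ⊢
      have h5 := Ypot_dbl h h' hc₂ h'' hc₃ hκ hκn hm (ha.trans h2.1) (by omega) hN hne hb
        (h.nar_sub b b (b + (2 * blk a₀ p + 1)) j κ le_rfl (Nat.le_add_right _ _) (by omega) hj hnar)
      have h6 : (a₀ : ℝ) ≤ (blk a₀ p : ℕ) := by exact_mod_cast h2.1
      have h7 := mul_le_mul_of_nonneg_left h6 hγ.le
      push_cast
      nlinarith
  have h1 := key P le_rfl
  have h2 : (0 : ℝ) ≤ (blk a₀ P : ℕ) := Nat.cast_nonneg _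
  have h3 := Ypot_le h h' hc₂ κ (b := b) (b' := b + (n * m₀ + 2)) (a := blk a₀ P)
    (Nat.le_add_right _ _) (by omega) (by omega) hN hne
    (by have := hg P le_rfl; have := mul_nonneg hγ.le h2; linarith)
  have h4 := mul_nonneg h2 hc
  have h5 := mul_nonneg h2 hc₂
  have h6 : C₀ * ((blk a₀ P : ℕ) + 1) < (-C₀ + P * (γ / 4)) * ((blk a₀ P : ℕ) + 1) :=
    mul_lt_mul_of_pos_right (by linarith) (by linarith)
  rw [hC₀] at h6
  nlinarith

/-- summing the blocks -/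
theorem g_le_of_block {c γ : ℝ} {T : Tw n M} (h : Bas1 c T) (hγ : 0 ≤ γ) {κ B : ℕ}
    (hb : ∀ b j N, b + B ≤ j → j ≤ M → N ⊆ T.al b → N.Nonempty → T.Nar b j κ →
      ∃ a, 1 ≤ a ∧ a ≤ B ∧ T.g κ b (b + a) N ≤ γ * a - c) :
    ∀ (d b j : ℕ) (N : Finset (Nd n)), j = b + d → j ≤ M → N ⊆ T.al b → N.Nonempty →
      T.Nar b j κ → T.g κ b j N ≤ γ * ((j : ℝ) - b) + (n * B + 3 * c) := by
  intro d
  induction d using Nat.strong_induction_on with
  | _ d ih =>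
    intro b j N hj hjM hN hne hnar
    have hn0 : (0 : ℝ) ≤ n := Nat.cast_nonneg _
    have hd : (j : ℝ) - b = d := by rw [hj]; push_cast; ring
    by_cases hB : d ≤ B
    · have h1 := g_triv h κ (show b ≤ j by omega) hjM hN hne
      have h2 : (d : ℝ) ≤ B := by exact_mod_cast hB
      have h3 := mul_le_mul_of_nonneg_left h2 hn0
      have h4 : 0 ≤ γ * d := mul_nonneg hγ (Nat.cast_nonneg _)
      rw [hd] at h1 ⊢
      linarith
    · obtain ⟨a, ha1, haB, hg⟩ := hb b j N (by omega) hjM hN hne hnar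
      have h1 := g_sub h κ (Nat.le_add_right b a) (show b + a ≤ j by omega) hjM hN hne
      have h2 := ih (d - a) (by omega) (b + a) j (T.nS b (b + a) N) (by omega) hjM (h.nS_sub _ _ _)
        (h.nS_ne _ _ _ (Nat.le_add_right _ _) (by omega) hN hne)
        (h.nar_sub b (b + a) j j κ (Nat.le_add_right _ _) (by omega) le_rfl hjM hnar)
      push_cast at h2
      linarith

theorem dec_zero (h1 : BasS1 n) : DEC n 0 := by
  obtain ⟨c, -, h⟩ := h1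
  intro γ hγ
  refine ⟨3 * c, fun M => (h M).mono fun T hT i j N hij hj hN hne hnar => ?_⟩
  have h1 := g_le_m hT 0 hij hj hN hne
  have h2 := hT.m_nar i j 0 hij hj (Nat.zero_le _) hnar
  have h3 : (i : ℝ) ≤ j := by exact_mod_cast hij
  have h4 := mul_nonneg hγ.le (sub_nonneg.2 h3)
  push_cast at h2
  linarith

theorem dec_succ (h1 : BasS1 n) (h2 : BasS2 n) (hc : CoreS n) {κ : ℕ} (hκ : 1 ≤ κ) (hκn : κ ≤ n)
    (hd : DEC n (κ - 1)) : DEC n κ := by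
  obtain ⟨c₁, hc₁, h1⟩ := h1
  obtain ⟨c₂, hc₂, h2⟩ := h2
  obtain ⟨c₃, hc₃, h3⟩ := hc
  intro γ hγ
  obtain ⟨L, hL⟩ := hd (γ / 2) (by positivity)
  obtain ⟨m₁, hm₁⟩ := exists_nat_ge ((L + 2 * c₁) / (γ / 2))
  obtain ⟨m₀, hm, hm₀⟩ : ∃ m₀ : ℕ, 1 ≤ m₀ ∧ L + 2 * c₁ ≤ γ / 2 * m₀ := by
    refine ⟨m₁ + 1, Nat.le_add_left _ _, ?_⟩
    rw [div_le_iff₀ (by positivity)] at hm₁
    push_cast
    nlinarith
  obtain ⟨a₁, ha₁⟩ := exists_nat_ge ((2 * c₁ + c₂ + 2 * c₃ * m₀ + γ / 2) / (γ / 2))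
  obtain ⟨a₀, ha, ha₀⟩ : ∃ a₀ : ℕ, n * m₀ + 2 ≤ a₀ ∧
      2 * c₁ + c₂ + 2 * c₃ * m₀ + γ / 2 ≤ γ / 2 * a₀ := by
    refine ⟨a₁ + (n * m₀ + 2), Nat.le_add_left _ _, ?_⟩
    rw [div_le_iff₀ (by positivity)] at ha₁
    have : (0 : ℝ) ≤ ((n * m₀ + 2 : ℕ) : ℝ) := Nat.cast_nonneg _
    rw [Nat.cast_add]
    nlinarith
  obtain ⟨P, hP⟩ := exists_nat_gt (2 * (2 * n + 1 + 3 * c₁ + c₂) / (γ / 4))
  rw [div_lt_iff₀ (by positivity)] at hP
  refine ⟨n * blk a₀ P + 3 * c₁, fun M => (((h1 M).and (h2 M)).and ((h3 M).and (hL M))).mono ?_⟩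
  rintro T ⟨⟨hT1, hT2⟩, hT3, hT4⟩ i j N hij hj hN hne hnar
  exact g_le_of_block hT1 hγ.le (fun b j N hbj hj hN hne hnar =>
    exists_block hT1 hT2 (by linarith) hT3 (by linarith) hγ hκ hκn hm ha hT4 hm₀ ha₀ hP hbj hj hN
      hne hnar) (j - i) i j N (by omega) hj hN hne hnar

/-- **refined decoupling** -/
theorem dec_of (h1 : BasS1 n) (h2 : BasS2 n) (hc : CoreS n) : ∀ κ ≤ n, DEC n κ := by
  intro κ
  induction κ with
  | zero => exact fun _ => dec_zero h1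
  | succ κ ih => exact fun hκ => dec_succ h1 h2 hc (Nat.le_add_left _ _) hκ (ih (by omega))

/-- **abstract sparse gain** -/
theorem sga_of (h1 : BasS1 n) (hd : DEC n n) : SGa n := by
  obtain ⟨c, hc, h1⟩ := h1
  intro ε hε
  obtain ⟨L, hL⟩ := hd (ε / 2) (by positivity)
  obtain ⟨M₀, hM₀⟩ := exists_nat_ge ((L + 3 * c) / (ε / 2))
  rw [div_le_iff₀ (by positivity)] at hM₀
  refine ⟨M₀, fun M hM => ((h1 M).and (hL M)).mono ?_⟩
  rintro T ⟨hT, hD⟩ j hj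
  have hM' : (M₀ : ℝ) ≤ M := by exact_mod_cast hM
  have hne := hT.nS_ne 0 j _ (Nat.zero_le _) hj subset_rfl T.ne
  have hsub := hT.nS_sub 0 j (T.al 0)
  have a1 := hT.A_le 0 j (Nat.zero_le _) hj
  have a2 := hT.W1 0 j _ (Nat.zero_le _) hj subset_rfl T.ne
  have a3 := hD j M _ hj le_rfl hsub hne (hT.nar_n _ _)
  have a4 := hT.top
  have a5 := hT.C_mono _ _ (hT.nS_ne j M _ hj le_rfl hsub hne) (hT.nS_sub j M _)
  have a6 := hT.W1 j M _ hj le_rfl hsub hne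
  have hq0 := q_nonneg n
  have hq1 := q_le_one n
  have e1 : (n : ℝ) / (n + 2) * ((n : ℝ) + 2) = n := by field_simp
  have e2 : 2 / ((n : ℝ) + 2) = 1 - (n : ℝ) / (n + 2) := by field_simp; ring
  have hj0 : (0 : ℝ) ≤ j := Nat.cast_nonneg _
  unfold Tw.g at a3
  unfold Tw.val
  rw [e2]
  generalize (n : ℝ) / (n + 2) = q at *
  have i1 := mul_le_mul_of_nonneg_left a6 (sub_nonneg.2 hq1)
  have i2 := mul_nonneg hq0 (zero_le_one.trans hc)
  have i3 := mul_nonneg hε.le hj0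
  have i4 := mul_le_mul_of_nonneg_left hM' hε.le
  have f1 : q * ((n : ℝ) + 2) * ((M : ℝ) - j) = n * ((M : ℝ) - j) := by rw [e1]
  linear_combination a1 + a2 + a3 + a4 + a5 + i1 + i2 + (1 / 2) * i3 + (1 / 2) * i4 + hM₀ + f1

end Crest.Agent.N76.L
private theorem rz_9bcbc5ba62 : type_of% @_root_.Crest.Agent.N76.L.blk.eq_def := @_root_.Crest.Agent.N76.L.blk.eq_def -- L194
private theorem rz_5ad4d78dbc : type_of% @_root_.Crest.Agent.N76.L.blk.eq_1 := @_root_.Crest.Agent.N76.L.blk.eq_1 -- L194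
end

-- ▼ part N76/L/WrapSG

/-! # Row 76, Part I: the sparse gain `SG` from the abstract tower (helper6). -/

set_option autoImplicit false

open MeasureTheory Finset Metric
open scoped RealInnerProductSpace

namespace Crest.Agent.N76.L

open Crest.Agent.N76.Red (V)
open Crest.Agent.N76.G

namespace WS

variable {n M : ℕ}

open Classical in
/-- total weight of the fibre -/
noncomputable def fw {ι α : Type*} (X : Finset ι) (p : ι → α) (w : ι → ℝ) (z : α) : ℝ :=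
  ∑ i ∈ X.filter (fun i => p i = z), w i

open Classical in
theorem sum_fw {ι α : Type*} (X : Finset ι) (p : ι → α) (w : ι → ℝ) (f : α → ℝ) :
    ∑ z ∈ X.image p, fw X p w z * f z = ∑ i ∈ X, w i * f (p i) := by
  rw [← sum_fiberwise_of_maps_to (fun i hi => mem_image_of_mem p hi)]
  refine sum_congr rfl fun z _ => ?_
  rw [fw, sum_mul]
  exact sum_congr rfl fun i hi => by rw [(mem_filter.1 hi).2]

open Classical in
theorem ms_eq {ι α : Type*} (X : Finset ι) (p : ι → α) (w : ι → ℝ) (E : Set α) :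
    ms X p w E = ∑ i ∈ X, w i * if p i ∈ E then 1 else 0 := by
  rw [ms, sum_filter]
  exact sum_congr rfl fun i _ => by split_ifs <;> simp

open Classical in
theorem ms_fw {ι α : Type*} (X : Finset ι) (p : ι → α) (w : ι → ℝ) (E : Set α) :
    ms (X.image p) id (fw X p w) E = ms X p w E := by
  rw [ms_eq, ms_eq]
  exact sum_fw X p w fun z => if z ∈ E then 1 else 0

theorem exists_red {ι α : Type*} (X : Finset ι) (p : ι → α) {w : ι → ℝ} (hw : ∀ i ∈ X, 0 ≤ w i) :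
    ∃ (X' : Finset α) (w' : α → ℝ), (∀ z ∈ X', 0 ≤ w' z) ∧ (∀ z ∈ X', ∃ i ∈ X, p i = z) ∧
      (∀ f : α → ℝ, ∑ z ∈ X', w' z * f z = ∑ i ∈ X, w i * f (p i)) ∧
      ∀ E, ms X' id w' E = ms X p w E := by
  classical
  exact ⟨X.image p, fw X p w, fun z _ => sum_nonneg fun i hi => hw i (mem_filter.1 hi).1,
    fun z hz => mem_image.1 hz, sum_fw X p w, ms_fw X p w⟩

theorem ms_cover {ι α κ : Type*} {X : Finset ι} {p : ι → α} {w : ι → ℝ} (hw : ∀ i ∈ X, 0 ≤ w i)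
    {E : Set α} (t : Finset κ) (E' : κ → Set α) (h : ∀ i ∈ X, p i ∈ E → ∃ c ∈ t, p i ∈ E' c) :
    ms X p w E ≤ ∑ c ∈ t, ms X p w (E' c) := by
  classical
  simp only [ms_eq]
  rw [sum_comm]
  refine sum_le_sum fun i hi => ?_
  rw [← mul_sum]
  refine mul_le_mul_of_nonneg_left ?_ (hw i hi)
  split_ifs with h1
  · obtain ⟨c, hc, h2⟩ := h i hi h1
    refine le_trans ?_ (single_le_sum (f := fun c => if p i ∈ E' c then (1 : ℝ) else 0)
      (fun c _ => by split_ifs <;> norm_num) hc)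
    simp [h2]
  · exact sum_nonneg fun c _ => by split_ifs <;> norm_num

theorem ms_ball_le {ι : Type*} {X : Finset ι} {p : ι → V n × ℝ} {w : ι → ℝ}
    (hw : ∀ i ∈ X, 0 ≤ w i) {r L N : ℝ} (hr : 0 < r) (hL : 0 ≤ L) (hN : 0 ≤ N)
    (h : ∀ c, ms X p w (closedBall c r) ≤ N) (u : V n × ℝ) :
    ms X p w (closedBall u (L * r)) ≤ (2 * L + 1) ^ (n + 1) * N := by
  classical
  obtain ⟨t, ht, hsep, hnet⟩ := II.exists_net (X.filter fun i => p i ∈ closedBall u (L * r)) p hr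
  have hc := II.card_le_of_sep_st t p u (by positivity : 0 ≤ L * r) hr
    (fun c hc => (mem_filter.1 (ht hc)).2) hsep
  rw [show 2 * (L * r) / r = 2 * L by field_simp] at hc
  refine (ms_cover hw t (fun c => closedBall (p c) r) fun i hi h1 => ?_).trans ?_
  · obtain ⟨c, hc, h2⟩ := hnet i (mem_filter.2 ⟨hi, h1⟩)
    exact ⟨c, hc, h2.le⟩
  · refine (sum_le_card_nsmul _ _ N fun c _ => h _).trans ?_
    rw [nsmul_eq_mul]
    exact mul_le_mul_of_nonneg_right hc hN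

/-- mass of the tube of an alive node -/
theorem nu_le (T : Tw n M) (hT : T.Std) {l P : ℕ} (hl : l ≤ M) {r N : ℝ} (hr : (T.k : ℝ) ^ l ≤ r)
    (hP : (T.k : ℝ) ^ (2 * l) ≤ P * r) (hN : 0 ≤ N)
    (h : ∀ c, ms T.X id T.w (closedBall c r) ≤ N) :
    T.ν l ≤ (P + 1) * ((T.k : ℝ) ^ (n + 1) * N) := by
  obtain ⟨h1, -, h3, -⟩ := hT.Λ_ge
  have hk : 1 ≤ T.k := by have := hT.k_ge; omega
  have hr0 : 0 < r := lt_of_lt_of_le (by positivity) hr
  obtain ⟨c, hc⟩ := T.al_nonempty hl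
  refine (T.νc l hl c hc).1.trans ((ms_cover T.w0 (range (P + 1)) (fun q : ℕ => closedBall
    (ps T.k l c (tm T.k l c + q * r), tm T.k l c + q * r) (3 * T.Λ ^ 2 * r)) fun z _ hz => ?_).trans ?_)
  · obtain ⟨h4, h5⟩ := box_tm hk hz
    simp only [id] at h4 h5 hz ⊢
    have h6 : 0 ≤ (z.2 - tm T.k l c) / r := div_nonneg (by linarith) hr0.le
    have h7 := Nat.floor_le h6
    have h8 := Nat.lt_floor_add_one ((z.2 - tm T.k l c) / r)
    refine ⟨⌊(z.2 - tm T.k l c) / r⌋₊, mem_range.2 (Nat.lt_succ_of_le (Nat.floor_le_of_le ?_)), ?_⟩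
    · rw [div_le_iff₀ hr0]; linarith
    generalize (⌊(z.2 - tm T.k l c) / r⌋₊ : ℝ) = q at h7 h8
    rw [le_div_iff₀ hr0] at h7
    rw [div_lt_iff₀ hr0] at h8
    have h9 : |z.2 - (tm T.k l c + q * r)| ≤ r := by rw [abs_le]; constructor <;> linarith
    rw [mem_closedBall, Prod.dist_eq, Real.dist_eq, dist_eq_norm]
    have hΛ : r ≤ T.Λ ^ 2 * r := le_mul_of_one_le_left hr0.le (by nlinarith)
    refine max_le ?_ (by linarith)
    have e : z.1 - ps T.k l c (tm T.k l c + q * r) = (z.1 - ps T.k l c z.2) -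
        (2 * (z.2 - (tm T.k l c + q * r))) • fq T.k l c := by
      rw [ps_sub T.k l c z.2 (tm T.k l c + q * r)]; abel
    rw [e]
    refine (norm_sub_le _ _).trans ?_
    rw [norm_smul, Real.norm_eq_abs, abs_mul, abs_two]
    have hlM : (l : ℝ) ≤ M := by exact_mod_cast hl
    have a1 : T.Λ * ((l : ℝ) + 1) * (T.k : ℝ) ^ l ≤ T.Λ ^ 2 * r :=
      mul_le_mul (by nlinarith) hr (by positivity) (by positivity)
    have a2 := mul_le_mul h9 (T.fqb l hl c hc) (norm_nonneg _) hr0.le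
    linarith [hz.2]
  · refine (sum_le_card_nsmul _ _ ((T.k : ℝ) ^ (n + 1) * N) fun q _ =>
      (ms_ball_le T.w0 hr0 (by positivity) hN h _).trans ?_).trans_eq (by simp)
    have a1 : T.Λ ^ 3 ≤ T.Λ ^ 10 := pow_le_pow_right₀ (by linarith) (by norm_num)
    gcongr
    nlinarith [hT.2]

/-- a line of a tile follows the node during its time window -/
theorem tile_close {k : ℕ} (hk : 1 ≤ k) {i : ℕ} {c : Nd n} {β : Ph n} (h : β ∈ tile k i c) :
    ‖β.2 - fq k i c‖ ≤ n / (k : ℝ) ^ i ∧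
    ∀ t, |t - tm k i c| ≤ (k : ℝ) ^ (2 * i) → ‖pos t β - ps k i c t‖ ≤ 3 * n * (k : ℝ) ^ i := by
  have hK : (0 : ℝ) < (k : ℝ) ^ i := by positivity
  have h1 : ‖β.2 - fq k i c‖ ≤ n / (k : ℝ) ^ i := by
    have := norm_sub_iv_fl ((k : ℝ) ^ i • β.2)
    rw [h.2] at this
    have e : β.2 - fq k i c = ((k : ℝ) ^ i)⁻¹ • ((k : ℝ) ^ i • β.2 - iv c.2.2) := by
      rw [smul_sub, smul_smul, inv_mul_cancel₀ hK.ne', one_smul, fq]
    rw [e, norm_smul, norm_inv, Real.norm_eq_abs, abs_of_pos hK, div_eq_inv_mul]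
    gcongr
  have h2 : ‖pos (tm k i c) β - ctr k i c‖ ≤ (k : ℝ) ^ i * n := by
    have := norm_sub_iv_fl (((k : ℝ) ^ i)⁻¹ • pos (tm k i c) β)
    rw [h.1] at this
    have e : pos (tm k i c) β - ctr k i c =
        (k : ℝ) ^ i • (((k : ℝ) ^ i)⁻¹ • pos (tm k i c) β - iv c.2.1) := by
      rw [smul_sub, smul_smul, mul_inv_cancel₀ hK.ne', one_smul, ctr]
    rw [e, norm_smul, Real.norm_eq_abs, abs_of_pos hK]
    gcongr
  refine ⟨h1, fun t ht => ?_⟩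
  have e : pos t β - ps k i c t = (pos (tm k i c) β - ctr k i c) -
      (2 * (t - tm k i c)) • (β.2 - fq k i c) := by
    simp only [pos, ps, mul_sub, sub_smul, smul_sub]; abel
  rw [e]
  refine (norm_sub_le _ _).trans ?_
  rw [norm_smul, Real.norm_eq_abs, abs_mul, abs_two]
  have a := mul_le_mul ht h1 (norm_nonneg _) (by positivity)
  rw [show (k : ℝ) ^ (2 * i) * (n / (k : ℝ) ^ i) = (k : ℝ) ^ i * n by
    rw [two_mul, pow_add]; field_simp] at a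
  linarith

/-- few directions at a point bound the multiplicity -/
theorem mm_le (T : Tw n M) (hT : T.Std) {j i : ℕ} (hji : j ≤ i) (hi : i ≤ M)
    {A : ℤ → Set (Ph n)} (hA : ∀ c ∈ T.al i, (A c.1 ∩ tile T.k i c).Nonempty) {y : ℝ}
    (hF : ∀ z ∈ T.X, ∃ F : Finset (V n), (F.card : ℝ) ≤ y ∧
      ∀ β ∈ A (win T.k i z.2), ‖pos z.2 β - z.1‖ ≤ (T.k : ℝ) ^ (i + 1) →
        ∃ ζ ∈ F, ‖β.2 - ζ‖ ≤ 1 / (T.k : ℝ) ^ j) :
    T.mm 0 j ≤ y * (T.k : ℝ) ^ n := by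
  classical
  obtain ⟨h1, h2, h3, -⟩ := hT.Λ_ge
  have hk' := hT.k_ge
  have hk : 1 ≤ T.k := by omega
  have hk1 : (1 : ℝ) ≤ T.k := by exact_mod_cast hk
  have hn : (0 : ℝ) ≤ n := Nat.cast_nonneg n
  have hiM : (i : ℝ) ≤ M := by exact_mod_cast hi
  have hj0 : (0 : ℝ) ≤ j := Nat.cast_nonneg j
  have hjM : (j : ℝ) ≤ i := by exact_mod_cast hji
  have hΛk : T.Λ ^ 6 ≤ T.k := (pow_le_pow_right₀ (by linarith) (by norm_num)).trans hT.2
  have hΛ2 : T.Λ ^ 2 ≤ T.k := (pow_le_pow_right₀ (by linarith) (by norm_num)).trans hT.2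
  obtain ⟨c, hc⟩ := T.ne
  obtain ⟨z, hz, hzb⟩ : ∃ z ∈ T.X, z ∈ box T.k T.Λ 0 c := by
    have := (T.ν0 0).trans_le (T.νc 0 (Nat.zero_le _) c hc).1
    obtain ⟨z, hz, -⟩ := exists_ne_zero_of_sum_ne_zero this.ne'
    exact ⟨z, (mem_filter.1 hz).1, (mem_filter.1 hz).2⟩
  obtain ⟨F, hFc, hF⟩ := hF z hz
  have hKj : (0 : ℝ) < (T.k : ℝ) ^ j := by positivity
  have hKi : (0 : ℝ) < (T.k : ℝ) ^ i := by positivity
  have hsub : T.nr 0 j c ⊆ F.biUnion fun ζ =>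
      (T.nr 0 j c).filter fun c' => ‖fq T.k j c' - ζ‖ ≤ T.Λ ^ 2 / (T.k : ℝ) ^ j := by
    intro c' hc'
    obtain ⟨a1, a2⟩ := T.mem_nr.1 hc'
    obtain ⟨c'', hc''⟩ := T.nr_nonempty hji hi a1
    obtain ⟨b1, b2⟩ := T.mem_nr.1 hc''
    have hb : z ∈ box T.k T.Λ i c'' := box_mono (by linarith) (Nat.zero_le i) (by omega)
      (a2.trans (by linarith) (Nat.zero_le j) hji (by omega) b2) hzb
    obtain ⟨β, hβ, hβt⟩ := hA c'' b1
    obtain ⟨d1, d2⟩ := tile_close hk hβt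
    obtain ⟨ζ, hζ, d3⟩ := hF β (by rwa [hb.1]) (by
      have d4 := norm_sub_le_norm_sub_add_norm_sub (pos z.2 β) (ps T.k i c'' z.2) z.1
      have d5 := hb.2
      rw [norm_sub_rev] at d5
      have d6 : (3 * n + T.Λ * ((i : ℝ) + 1)) * (T.k : ℝ) ^ i ≤ T.k * (T.k : ℝ) ^ i :=
        mul_le_mul_of_nonneg_right (by nlinarith) hKi.le
      rw [pow_succ']
      linarith [d2 z.2 (abs_box_tm hk hb)])
    refine mem_biUnion.2 ⟨ζ, hζ, mem_filter.2 ⟨hc', ?_⟩⟩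
    have d4 := norm_sub_le_norm_sub_add_norm_sub (fq T.k j c') (fq T.k i c'') ζ
    have d5 := norm_sub_le_norm_sub_add_norm_sub (fq T.k i c'') β.2 ζ
    have d6 := b2.2.1
    rw [norm_sub_rev] at d1 d6
    have d7 : (n : ℝ) / (T.k : ℝ) ^ i ≤ n / (T.k : ℝ) ^ j :=
      div_le_div_of_nonneg_left hn hKj (pow_le_pow_right₀ hk1 hji)
    have d8 : (T.Λ * ((i : ℝ) - j) + n + 1) / (T.k : ℝ) ^ j ≤ T.Λ ^ 2 / (T.k : ℝ) ^ j :=
      div_le_div_of_nonneg_right (by nlinarith) hKj.le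
    rw [add_div, add_div] at d8
    linarith
  have hΛ1 : 1 ≤ T.Λ ^ 2 := by nlinarith
  calc T.mm 0 j ≤ ((T.nr 0 j c).card : ℝ) := (T.mmc 0 j (Nat.zero_le _) (hji.trans hi) c hc).1
    _ ≤ ∑ ζ ∈ F, (((T.nr 0 j c).filter
          fun c' => ‖fq T.k j c' - ζ‖ ≤ T.Λ ^ 2 / (T.k : ℝ) ^ j).card : ℝ) := by
        exact_mod_cast (card_le_card hsub).trans card_biUnion_le
    _ ≤ F.card • (T.k : ℝ) ^ n := by
        refine sum_le_card_nsmul _ _ _ fun ζ _ => ?_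
        refine (card_nd hk j _ (c.1 / (T.k : ℤ) ^ (2 * (j - 0))) ζ (ctr T.k 0 c) (tm T.k 0 c) hΛ1 hΛ1
          fun c' hc' => ?_).trans ?_
        · obtain ⟨a1, a2⟩ := mem_filter.1 hc'
          obtain ⟨b1, -, b3⟩ := (T.mem_nr.1 a1).2
          refine ⟨b1, a2, b3.trans (mul_le_mul_of_nonneg_right ?_ hKj.le)⟩
          push_cast
          nlinarith
        · rw [← mul_pow]
          gcongr
          nlinarith [pow_le_pow_left₀ (by norm_num) h1 2, sq_nonneg (T.Λ ^ 2)]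
    _ ≤ _ := by rw [nsmul_eq_mul]; gcongr

theorem tower_univ {b : ℕ} (hb : 1 ≤ b) (A : ℕ → ℤ → Set (Ph n)) {i : ℕ} (hi : i ≤ M) (h : L2 n)
    (t : ℝ) : tower b (fun l => if l < i then fun _ => Set.univ else A l) 0 M h t =
      tower b A i M h t := by
  have key : ∀ l ≤ i, tower b (fun l => if l < i then fun _ => Set.univ else A l) 0 M h t =
      tower b (fun l => if l < i then fun _ => Set.univ else A l) l M h t := by
    intro l hl
    induction l with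
    | zero => rfl
    | succ l ih =>
      rw [ih (by omega), tower_eq_loc b _ (by omega : l ≤ M), lev, if_pos (by omega : l < i),
        loc_univ (by positivity)]
  rw [key i le_rfl]
  refine tw_congr _ _ (fun l hl => ?_) h
  rw [lev, lev, if_neg (by omega)]

end WS

open WS in
/-- **SG** from the abstract tower -/
theorem sg_of {d : ℕ} (hB : Build d) (hS : SGa d) : II.SG d := by
  intro ε hε m
  obtain ⟨M₀, hS⟩ := hS (ε / 2) (half_pos hε)
  obtain ⟨M₁, hM₁⟩ := exists_nat_ge ((2 * d + 4) / (ε / 2))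
  refine ⟨max M₀ M₁, fun M hM => ?_⟩
  obtain ⟨N₀, C₀, hG⟩ := (hS M ((le_max_left _ _).trans hM)).and (good_std M 0 0)
  obtain ⟨k₀, hB⟩ := hB M N₀ m C₀
  refine ⟨max k₀ 2, fun b hb j i hji hi ι X p w s₀ hw hX hs A hA _ φ N₁ N₂ hφ hN₁ hN₂ h1 h2 hF h =>
    ?_⟩
  have hb2 : 2 ≤ b := (le_max_right _ _).trans hb
  have hb1 : (1 : ℝ) < b := by exact_mod_cast hb2
  have hb0 : (0 : ℝ) < b := by linarith
  obtain ⟨X', w', hw', hX', hsum, hms⟩ := exists_red X p hw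
  have hE : En X' id w' (fun z =>
      tower b (fun l => if l < i then fun _ => Set.univ else A l) 0 M h z.2) =
      En X p w (fun z => tower b A i M h (p z).2) := by
    simp only [tower_univ (by omega : 1 ≤ b) A hi]
    exact hsum fun z => ‖inner ℂ (pt z) (tower b A i M h z.2)‖ ^ 2
  have hW : ∑ z ∈ X', w' z = ∑ z ∈ X, w z := by
    simpa using hsum fun _ => 1
  have hmain := hB b ((le_max_left _ _).trans hb) X' w' s₀ hw'
    (fun z hz => by obtain ⟨i, hi, rfl⟩ := hX' z hz; exact hX i hi)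
    (fun z hz => by obtain ⟨i, hi, rfl⟩ := hX' z hz; exact hs i hi)
    (fun l => if l < i then fun _ => Set.univ else A l)
    (fun l s => by split_ifs; exacts [MeasurableSet.univ, hA l s]) h
  rw [hE, hW] at hmain
  rcases hmain with h0 | ⟨T, hk, hTX, hTw, -, hC, hΛ, hal, -, h0⟩
  · exact h0.trans (mul_le_mul_of_nonneg_right (le_add_of_nonneg_left (by positivity))
      (sq_nonneg _))
  refine h0.trans (mul_le_mul_of_nonneg_right (add_le_add ?_ le_rfl) (sq_nonneg _))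
  subst hk
  obtain ⟨hv, hT, -⟩ := hG T hC hΛ
  have a1 : T.mm 0 j ≤ φ * ((T.k : ℝ) ^ j) ^ d * (T.k : ℝ) ^ d :=
    mm_le T hT hji hi (A := A i) (fun c hc => by simpa using hal i hi c hc) fun z hz => by
      rw [hTX] at hz
      obtain ⟨i, hi, rfl⟩ := hX' z hz
      exact hF i hi
  have a2 := nu_le T hT (hji.trans hi) (P := 1) (pow_le_pow_right₀ hb1.le (by omega : j ≤ 2 * j))
    (by simp) hN₁ fun c => by rw [hTX, hTw, hms]; exact h1 c
  have a3 := nu_le T hT le_rfl (P := T.k ^ M) le_rfl (by push_cast; rw [two_mul, pow_add]) hN₂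
    fun c => by rw [hTX, hTw, hms]; exact h2 c
  have hb2' : (2 : ℝ) ≤ T.k := by exact_mod_cast hb2
  have hKM : (1 : ℝ) ≤ (T.k : ℝ) ^ M := one_le_pow₀ hb1.le
  have hφ0 : 0 < φ := by
    refine hφ.lt_of_ne fun e => ?_
    rw [← e] at a1
    linarith [T.mm1 0 j]
  have hN₁0 : 0 < N₁ := by
    refine hN₁.lt_of_ne fun e => ?_
    rw [← e] at a2
    linarith [T.ν0 j]
  have hN₂0 : 0 < N₂ := by
    refine hN₂.lt_of_ne fun e => ?_
    rw [← e] at a3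
    linarith [T.ν0 M]
  have b1 := T.lg_le hb2 (K := 1) (e := j * d + d) (y := φ) (by linarith [T.mm1 0 j]) zero_le_one
    hb1.le (a1.trans_eq (by rw [pow_add, pow_mul]; ring))
  have b2 := T.lg_le hb2 (K := 2) (e := d + 1) (y := N₁) (T.ν0 j) zero_le_two hb2'
    (a2.trans_eq (by push_cast; ring))
  have b3 := T.lg_le hb2 (K := 2) (e := d + 1) (y := (T.k : ℝ) ^ M * N₂) (T.ν0 M) zero_le_two hb2'
    (a3.trans (by
      push_cast
      nlinarith [mul_le_mul_of_nonneg_right hKM (show 0 ≤ (T.k : ℝ) ^ (d + 1) * N₂ by positivity)]))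
  have hc : (0 : ℝ) < (T.al 0).card := by exact_mod_cast T.ne.card_pos
  have ha0 := T.a0 0
  have hν0 := T.ν0 0
  have hd0 : (0 : ℝ) ≤ d := Nat.cast_nonneg d
  rw [← Real.logb_le_logb hb1 (by positivity) (by positivity),
    Real.logb_mul hb0.ne' (by positivity), Real.logb_mul (by positivity) hc.ne',
    Real.logb_mul ha0.ne' hν0.ne', Real.logb_mul (by positivity) (by positivity),
    Real.logb_mul (by positivity) (by positivity), Real.logb_mul (by positivity) hφ0.ne',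
    Real.logb_self_eq_one hb1, Real.logb_rpow hb0 hb1.ne', Real.logb_rpow_eq_mul_logb_of_pos hN₁0,
    Real.logb_rpow_eq_mul_logb_of_pos (by positivity)]
  have hv := hv j (hji.trans hi)
  have c1 := mul_le_mul_of_nonneg_left b2 (show 0 ≤ (d : ℝ) / (d + 2) by positivity)
  have c2 := mul_le_mul_of_nonneg_left b3 (show 0 ≤ 2 / ((d : ℝ) + 2) by positivity)
  have c3 : (d : ℝ) / (d + 2) * (d + 2) + 2 / ((d : ℝ) + 2) * (d + 2) = d + 2 := by field_simp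
  have c4 : 2 * d + 4 ≤ ε / 2 * M := by
    rw [div_le_iff₀' (half_pos hε)] at hM₁
    have : (M₁ : ℝ) ≤ M := by exact_mod_cast (le_max_right _ _).trans hM
    nlinarith
  simp only [Tw.val, Tw.A, Tw.nu, Tw.C, Tw.m, Tw.lg] at hv b1 c1 c2
  push_cast at b1 c1 c2
  linarith

end Crest.Agent.N76.L
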