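import Crest.Agent.N76.Red.Max
import Crest.Agent.N76.L.Cnt
import Crest.Agent.N76.II.TIDefs
import Crest.Agent.N76.II.Net
import Crest.Agent.N76.G.Iso
import Crest.Agent.N76.G.Gam
import Crest.Agent.N76.II.B.Defs

-- ▼ part N76/Red/Main
section

/-! # Row 76: the single scale estimate `SS n` implies statement S0101 (helper14). -/

set_option autoImplicit false

open MeasureTheory Set Metric Filter Topology FourierTransform
open scoped ENNReal RealInnerProductSpace SchwartzMap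

namespace Crest.Agent.N76.Red

variable {n : ℕ}

theorem exists_limit {F : ℝ → ℝ → ℂ} {y : ℂ} {p : Filter ℝ} [p.NeBot]
    (h : ∀ ε : ℝ, 0 < ε → ∃ w : ℝ → ℂ, Continuous w ∧ ‖w 0 - y‖ ≤ ε ∧
      ∀ᶠ a in p, ∀ t, ‖F a t - w t‖ ≤ ε) :
    ∃ v : ℝ → ℂ, Continuous v ∧ v 0 = y ∧ TendstoUniformlyOn F v p univ := by
  have hC : UniformCauchySeqOn F p univ := by
    intro u hu
    obtain ⟨ε, hε, hεu⟩ := Metric.mem_uniformity_dist.1 hu
    obtain ⟨w, -, -, hw⟩ := h (ε / 3) (by positivity)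
    filter_upwards [hw.prod_mk hw] with m hm t _
    refine hεu ?_
    rw [dist_eq_norm]
    calc ‖F m.1 t - F m.2 t‖ = ‖(F m.1 t - w t) - (F m.2 t - w t)‖ := by congr 1; ring
      _ ≤ ε / 3 + ε / 3 := (norm_sub_le _ _).trans (add_le_add (hm.1 t) (hm.2 t))
      _ < ε := by linarith
  choose v hv using fun t => cauchy_map_iff_exists_tendsto.1 (hC.cauchy_map (mem_univ t))
  have hvw : ∀ ε : ℝ, 0 < ε → ∃ w : ℝ → ℂ, Continuous w ∧ ‖w 0 - y‖ ≤ ε ∧
      ∀ t, ‖v t - w t‖ ≤ ε := by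
    intro ε hε
    obtain ⟨w, h1, h2, h3⟩ := h ε hε
    exact ⟨w, h1, h2, fun t => le_of_tendsto ((hv t).sub_const (w t)).norm
      (h3.mono fun a ha => ha t)⟩
  refine ⟨v, continuous_of_uniform_approx_of_continuous fun u hu => ?_, ?_,
    hC.tendstoUniformlyOn_of_tendsto fun t _ => hv t⟩
  · obtain ⟨ε, hε, hεu⟩ := Metric.mem_uniformity_dist.1 hu
    obtain ⟨w, h1, -, h3⟩ := hvw (ε / 2) (by positivity)
    exact ⟨w, h1, fun t => hεu (by rw [dist_eq_norm]; linarith [h3 t])⟩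
  · refine eq_of_forall_dist_le fun ε hε => ?_
    obtain ⟨w, -, h2, h3⟩ := hvw (ε / 2) (by positivity)
    rw [dist_eq_norm]
    calc ‖v 0 - y‖ = ‖(v 0 - w 0) + (w 0 - y)‖ := by congr 1; ring
      _ ≤ ε / 2 + ε / 2 := (norm_add_le _ _).trans (add_le_add (h3 0) h2)
      _ = ε := by ring

theorem continuous_U_zero {ψ : V n → ℂ} (hψ : Integrable ψ) (x : V n) :
    Continuous fun t => U ψ 0 t x := by
  refine continuous_of_dominated (bound := fun ξ => ‖ψ ξ‖) (fun t => ?_) (fun t => ?_) hψ.norm ?_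
  · exact (continuous_Kr.comp (f := fun ξ : V n => ((x, ξ), 0, t))
      (by fun_prop)).aestronglyMeasurable.mul hψ.1
  · exact Eventually.of_forall fun ξ => by simp [norm_Kr]
  · exact Eventually.of_forall fun ξ => (continuous_Kr.comp
      (f := fun t : ℝ => ((x, ξ), 0, t)) (by fun_prop)).mul continuous_const

theorem U_zero_zero (ψ : V n → ℂ) (x : V n) : U ψ 0 0 x = 𝓕⁻ ψ x := by
  rw [Real.fourierInv_eq', U]
  congr 1; ext ξ
  rw [smul_eq_mul, Kr, real_inner_comm]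
  congr 2; push_cast; ring

theorem eventually_U_sub {ψ : V n → ℂ} (hψ : Integrable ψ) (x : V n) {ε : ℝ} (hε : 0 < ε) :
    ∀ᶠ a in 𝓝[>] (0 : ℝ), ∀ t, ‖U ψ a t x - U ψ 0 t x‖ ≤ ε := by
  set G : ℝ → V n → ℝ := fun a ξ =>
    (1 - Real.exp (-(4 * Real.pi ^ 2 * |a| * ‖ξ‖ ^ 2))) * ‖ψ ξ‖ with hG
  have h01 : ∀ (a : ℝ) (ξ : V n), 0 ≤ 1 - Real.exp (-(4 * Real.pi ^ 2 * |a| * ‖ξ‖ ^ 2)) :=
    fun a ξ => sub_nonneg.2 (Real.exp_le_one_iff.2 (neg_nonpos.2 (by positivity)))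
  have hm : ∀ a, AEStronglyMeasurable (G a) volume := fun a =>
    (Continuous.aestronglyMeasurable (by fun_prop)).mul hψ.1.norm
  have hb : ∀ a ξ, ‖G a ξ‖ ≤ ‖ψ ξ‖ := fun a ξ => by
    rw [Real.norm_of_nonneg (mul_nonneg (h01 a ξ) (norm_nonneg _))]
    exact mul_le_of_le_one_left (norm_nonneg _) (by linarith [Real.exp_pos (-(4 * Real.pi ^ 2 * |a| * ‖ξ‖ ^ 2))])
  have hc : Continuous fun a => ∫ ξ, G a ξ :=
    continuous_of_dominated hm (fun a => Eventually.of_forall (hb a)) hψ.norm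
      (Eventually.of_forall fun ξ => by simp only [hG]; fun_prop)
  have h0 : ∀ᶠ a in 𝓝 (0 : ℝ), ∫ ξ, G a ξ < ε :=
    hc.continuousAt.eventually (gt_mem_nhds (by simpa [hG] using hε))
  filter_upwards [nhdsWithin_le_nhds h0, self_mem_nhdsWithin] with a ha ha0 t
  have ha0' : 0 < a := ha0
  have hi : ∀ b : ℝ, 0 ≤ b → Integrable fun ξ => Kr x ξ b t * ψ ξ := fun b hb =>
    hψ.norm.mono' ((continuous_Kr.comp (f := fun ξ : V n => ((x, ξ), b, t))
      (by fun_prop)).aestronglyMeasurable.mul hψ.1) (Eventually.of_forall fun ξ => by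
        rw [norm_mul]
        exact mul_le_of_le_one_left (norm_nonneg _) ((norm_Kr_le x ξ hb t).trans (by simp)))
  rw [U, U, ← integral_sub (hi a ha0'.le) (hi 0 le_rfl)]
  refine (norm_integral_le_integral_norm _).trans (le_trans (le_of_eq ?_) ha.le)
  congr 1; ext ξ
  have h2 := h01 a ξ
  simp only [hG, abs_of_pos ha0'] at h2 ⊢
  rw [← sub_mul, norm_mul, Kr_eq, Kr_eq, ← sub_mul, norm_mul, norm_ph, mul_one,
    ← Complex.ofReal_sub, Complex.norm_real, norm_sub_rev]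
  simp only [mul_zero, zero_mul, neg_zero, Real.exp_zero]
  rw [Real.norm_of_nonneg h2]

theorem lintegral_sq_eq (F : Lp ℂ 2 (volume : Measure (V n))) : ∫⁻ x, ‖F x‖ₑ ^ 2 = ‖F‖ₑ ^ 2 := by
  have := eLpNorm_nnreal_pow_eq_lintegral (f := F) (p := 2) (μ := volume) two_ne_zero
  simp only [ENNReal.coe_ofNat, NNReal.coe_ofNat, ENNReal.rpow_two] at this
  rw [Lp.enorm_def, this]

theorem temperate_wt : Function.HasTemperateGrowth fun ξ : V n => (wt n ξ : ℂ) := by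
  unfold wt; fun_prop

theorem fourier_eq_wt_mul (f : Lp ℂ 2 (volume : Measure (V n)))
    (hf : TemperedDistribution.MemSobolev ((n : ℝ) / (2 * (n + 1))) 2
      (f : TemperedDistribution (V n) ℂ)) :
    ∃ u : Lp ℂ 2 (volume : Measure (V n)),
      (𝓕 f : Lp ℂ 2 (volume : Measure (V n))) =ᵐ[volume] fun ξ => (wt n ξ : ℂ) * u ξ := by
  obtain ⟨u, hu⟩ := TemperedDistribution.memSobolev_iff_exists_smulLeftCLM_fourier.1 hf
  have hw : MemLp (fun ξ : V n => (wt n ξ : ℂ)) ∞ volume :=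
    memLp_top_of_bound (Complex.continuous_ofReal.comp continuous_wt).aestronglyMeasurable 1
      (Eventually.of_forall fun ξ => by
        rw [Complex.norm_real, Real.norm_of_nonneg (wt_pos ξ).le]; exact wt_le_one ξ)
  have h1 : ((hw.toLp _ • u : Lp ℂ 2 (volume : Measure (V n))) : TemperedDistribution (V n) ℂ) =
      (𝓕 f : Lp ℂ 2 (volume : Measure (V n))) := by
    rw [Lp.toTemperedDistribution_smul_eq temperate_wt, ← hu,
      TemperedDistribution.smulLeftCLM_smulLeftCLM_apply (by fun_prop) temperate_wt,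
      ← Lp.fourier_toTemperedDistribution_eq]
    convert! (TemperedDistribution.smulLeftCLM_const 1 (𝓕 (f : TemperedDistribution (V n) ℂ)))
      using 1
    · congr
      ext x
      rw [Pi.mul_apply, wt]
      norm_cast
      rw [← Real.rpow_add (by positivity)]
      ring_nf
      simp
    · simp
  have hinj : Function.Injective (Lp.toTemperedDistributionCLM ℂ (volume : Measure (V n)) 2) :=
    LinearMap.ker_eq_bot.1 Lp.ker_toTemperedDistributionCLM_eq_bot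
  have h2 : (hw.toLp _ • u : Lp ℂ 2 (volume : Measure (V n))) = 𝓕 f := hinj h1
  refine ⟨u, ?_⟩
  rw [← h2]
  filter_upwards [Lp.coeFn_lpSMul (r := 2) (hw.toLp _) u, hw.coeFn_toLp] with x h3 h4
  rw [h3, Pi.smul_apply', h4, smul_eq_mul]

theorem exists_approx (f u : Lp ℂ 2 (volume : Measure (V n)))
    (hu : (𝓕 f : Lp ℂ 2 (volume : Measure (V n))) =ᵐ[volume] fun ξ => (wt n ξ : ℂ) * u ξ)
    {δ : ℝ} (hδ : 0 < δ) : ∃ φ ψ : 𝓢(V n, ℂ), (∀ ξ, ψ ξ = (wt n ξ : ℂ) * φ ξ) ∧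
      ∫⁻ ξ, ‖u ξ - φ ξ‖ₑ ^ 2 ≤ ENNReal.ofReal δ ^ 2 ∧
      ∫⁻ x, ‖𝓕⁻ (ψ : V n → ℂ) x - f x‖ₑ ^ 2 ≤ ENNReal.ofReal δ ^ 2 := by
  obtain ⟨φ, hφ⟩ := (SchwartzMap.denseRange_toLpCLM (E := V n) (F := ℂ) (p := 2)
    (μ := volume) ENNReal.ofNat_ne_top).exists_dist_lt u hδ
  rw [SchwartzMap.toLpCLM_apply, dist_eq_norm] at hφ
  set ψ : 𝓢(V n, ℂ) := SchwartzMap.smulLeftCLM ℂ (fun ξ : V n => (wt n ξ : ℂ)) φ with hψ
  have hψφ : ∀ ξ, ψ ξ = (wt n ξ : ℂ) * φ ξ := fun ξ => by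
    rw [hψ, SchwartzMap.smulLeftCLM_apply_apply temperate_wt, smul_eq_mul]
  have h1 : ∫⁻ ξ, ‖u ξ - φ ξ‖ₑ ^ 2 ≤ ENNReal.ofReal δ ^ 2 := by
    calc ∫⁻ ξ, ‖u ξ - φ ξ‖ₑ ^ 2 = ∫⁻ ξ, ‖(u - φ.toLp 2 volume : Lp ℂ 2 (volume : Measure (V n))) ξ‖ₑ ^ 2 := by
          refine lintegral_congr_ae ?_
          filter_upwards [Lp.coeFn_sub u (φ.toLp 2 volume), φ.coeFn_toLp 2 volume] with ξ h1 h2
          rw [h1, Pi.sub_apply, h2]
      _ ≤ _ := by
          rw [lintegral_sq_eq, ← ofReal_norm]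
          gcongr
  refine ⟨φ, ψ, hψφ, h1, le_trans ?_ h1⟩
  calc ∫⁻ x, ‖𝓕⁻ (ψ : V n → ℂ) x - f x‖ₑ ^ 2 
      = ∫⁻ x, ‖(SchwartzMap.toLp (𝓕⁻ ψ) 2 volume - f : Lp ℂ 2 (volume : Measure (V n))) x‖ₑ ^ 2 := by
        refine lintegral_congr_ae ?_
        filter_upwards [Lp.coeFn_sub (SchwartzMap.toLp (𝓕⁻ ψ) 2 volume) f,
          SchwartzMap.coeFn_toLp (𝓕⁻ ψ) 2 volume] with x h1 h2
        rw [h1, Pi.sub_apply, h2, SchwartzMap.fourierInv_coe]
    _ = ∫⁻ ξ, ‖(ψ.toLp 2 volume - 𝓕 f : Lp ℂ 2 (volume : Measure (V n))) ξ‖ₑ ^ 2 := by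
        rw [lintegral_sq_eq, lintegral_sq_eq, ← ofReal_norm, ← ofReal_norm,
          ← Lp.norm_fourier_eq, ← SchwartzMap.toLp_fourierInv_eq, sub_eq_add_neg,
          FourierTransform.fourier_add, FourierTransform.fourier_neg, fourier_fourierInv_eq,
          ← sub_eq_add_neg]
    _ ≤ _ := by
        refine lintegral_mono_ae ?_
        filter_upwards [Lp.coeFn_sub (ψ.toLp 2 volume) (𝓕 f), ψ.coeFn_toLp 2 volume, hu] with ξ h1 h2 h3
        rw [h1, Pi.sub_apply, h2, h3, hψφ, ← mul_sub, enorm_mul, enorm_sub_rev]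
        refine pow_le_pow_left' (mul_le_of_le_one_left' ?_) 2
        rw [← ofReal_norm, Complex.norm_real, Real.norm_of_nonneg (wt_pos ξ).le]
        exact ENNReal.ofReal_le_one.2 (wt_le_one ξ)

theorem ae_approx (hn : 1 ≤ n) (hSS : SS n) (f u : Lp ℂ 2 (volume : Measure (V n)))
    (hu : (𝓕 f : Lp ℂ 2 (volume : Measure (V n))) =ᵐ[volume] fun ξ => (wt n ξ : ℂ) * u ξ)
    (x₀ : V n) {lam : ℝ} (hlam : 0 < lam) :
    ∀ᵐ x, x ∈ closedBall x₀ 1 → ∃ ψ : V n → ℂ, Integrable ψ ∧ ‖𝓕⁻ ψ x - f x‖ ≤ lam ∧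
      ∀ a t : ℝ, 0 < a → ‖U (fun ξ => (wt n ξ : ℂ) * u ξ) a t x - U ψ a t x‖ ≤ lam := by
  obtain ⟨C, hC, hmax⟩ := weak_max hn hSS
  rw [ae_iff]
  set Bad := {x : V n | ¬ (x ∈ closedBall x₀ 1 → ∃ ψ : V n → ℂ, Integrable ψ ∧
    ‖𝓕⁻ ψ x - f x‖ ≤ lam ∧
      ∀ a t : ℝ, 0 < a → ‖U (fun ξ => (wt n ξ : ℂ) * u ξ) a t x - U ψ a t x‖ ≤ lam)} with hBad
  have key : ∀ δ : ℝ, 0 < δ →
      ENNReal.ofReal lam ^ 2 * volume Bad ≤ (C + 1) * ENNReal.ofReal δ ^ 2 := by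
    intro δ hδ
    obtain ⟨φ, ψ, hψ, h1, h2⟩ := exists_approx f u hu hδ
    have mr : Measurable fun ξ => u ξ - φ ξ :=
      (Lp.stronglyMeasurable u).measurable.sub φ.continuous.measurable
    have hr : MemLp (fun ξ => u ξ - φ ξ) 2 volume := (Lp.memLp u).sub (φ.memLp 2)
    have h3 := hmax x₀ _ mr hr lam hlam
    have mf : Measurable fun x => ‖𝓕⁻ (ψ : V n → ℂ) x - f x‖ₑ ^ 2 := by
      rw [← SchwartzMap.fourierInv_coe]
      exact ((𝓕⁻ ψ).continuous.measurable.sub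
        (Lp.stronglyMeasurable f).measurable).enorm.pow_const 2
    have h4 := mul_meas_ge_le_lintegral₀ (μ := volume) mf.aemeasurable (ENNReal.ofReal lam ^ 2)
    have hsub : Bad ⊆ {x | x ∈ closedBall x₀ 1 ∧ ∃ a t : ℝ, 0 < a ∧
        lam < ‖U (fun ξ => (wt n ξ : ℂ) * (u ξ - φ ξ)) a t x‖} ∪
        {x | ENNReal.ofReal lam ^ 2 ≤ ‖𝓕⁻ (ψ : V n → ℂ) x - f x‖ₑ ^ 2} := by
      intro x hx
      by_contra hcon
      rw [mem_union, not_or] at hcon
      refine hx fun hxb => ⟨ψ, ψ.integrable, ?_, fun a t ha => ?_⟩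
      · by_contra h5
        refine hcon.2 (mem_setOf.2 (pow_le_pow_left' ?_ 2))
        rw [← ofReal_norm]
        exact ENNReal.ofReal_le_ofReal (not_le.1 h5).le
      · by_contra h5
        refine hcon.1 ⟨hxb, a, t, ha, (not_le.1 h5).trans_eq ?_⟩
        rw [U, U, U, ← integral_sub (integrable_Kr_mul (memLp_wt_mul (Lp.memLp u)) ha t x)
          (integrable_Kr_mul (ψ.memLp 2) ha t x)]
        congr 2; ext ξ; rw [hψ]; ring
    calc ENNReal.ofReal lam ^ 2 * volume Bad ≤ _ :=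
          mul_le_mul_right ((measure_mono hsub).trans (measure_union_le _ _)) _
      _ ≤ C * ENNReal.ofReal δ ^ 2 + ENNReal.ofReal δ ^ 2 := by
          rw [mul_add]
          exact add_le_add (h3.trans (mul_le_mul_right h1 _)) (h4.trans h2)
      _ = _ := by ring
  have ht : Tendsto (fun δ : ℝ => (C + 1) * ENNReal.ofReal δ ^ 2) (𝓝[>] 0) (𝓝 0) := by
    have h1 : Tendsto (fun δ : ℝ => ENNReal.ofReal δ ^ 2) (𝓝 0) (𝓝 0) := by
      have := ((ENNReal.continuous_pow 2).comp ENNReal.continuous_ofReal).tendsto 0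
      simpa [Function.comp_def] using this
    have := ENNReal.Tendsto.const_mul (a := C + 1) h1 (Or.inr (by finiteness))
    simpa using this.mono_left nhdsWithin_le_nhds
  have h0 : ENNReal.ofReal lam ^ 2 * volume Bad ≤ 0 :=
    ge_of_tendsto ht (eventually_nhdsWithin_of_forall key)
  rcases mul_eq_zero.1 (le_antisymm h0 zero_le) with h | h
  · exact absurd h (pow_ne_zero 2 (ENNReal.ofReal_pos.2 hlam).ne')
  · exact h

/-- **The reduction**: the single scale theorem implies S0101 in dimension `n`. -/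
theorem s0101_of_SS (n : ℕ) (hn : 1 ≤ n) (hSS : SS n)
    (f : MeasureTheory.Lp ℂ 2 (MeasureTheory.volume : MeasureTheory.Measure (EuclideanSpace ℝ (Fin n))))
    (hf : TemperedDistribution.MemSobolev ((n : ℝ) / (2 * (n + 1))) 2
      (f : TemperedDistribution (EuclideanSpace ℝ (Fin n)) ℂ)) :
    ∀ᵐ x ∂(MeasureTheory.volume : MeasureTheory.Measure (EuclideanSpace ℝ (Fin n))), ∃ v : ℝ → ℂ,
      ContinuousOn v (Set.Ico 0 1) ∧ v 0 = f x ∧
      TendstoUniformlyOn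
        (fun (a : ℝ) (t : ℝ) => ∫ ξ : EuclideanSpace ℝ (Fin n),
          Complex.exp (2 * Real.pi * ⟪x, ξ⟫ * Complex.I
            - 4 * Real.pi ^ 2 * ‖ξ‖ ^ 2 * ((a : ℂ) + t * Complex.I)) *
          (𝓕 f : MeasureTheory.Lp ℂ 2 (MeasureTheory.volume : MeasureTheory.Measure (EuclideanSpace ℝ (Fin n)))) ξ)
        v (nhdsWithin 0 (Set.Ioi 0)) (Set.Ioo 0 1) := by
  obtain ⟨u, hu⟩ := fourier_eq_wt_mul f hf
  have h1 := fun (i m : ℕ) => ae_approx hn hSS f u hu (TopologicalSpace.denseSeq (V n) i)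
    (lam := 1 / ((m : ℝ) + 1)) Nat.one_div_pos_of_nat
  filter_upwards [ae_all_iff.2 fun i => ae_all_iff.2 fun m => h1 i m] with x hx
  obtain ⟨i, hi⟩ := (TopologicalSpace.denseRange_denseSeq (V n)).exists_dist_lt x one_pos
  obtain ⟨v, hv1, hv2, hv3⟩ := exists_limit (p := 𝓝[>] (0 : ℝ)) (y := f x)
    (F := fun a t => U (fun ξ => (wt n ξ : ℂ) * u ξ) a t x) fun ε hε => by
      obtain ⟨m, hm⟩ := exists_nat_one_div_lt (half_pos hε)
      obtain ⟨ψ, hψ, h2, h3⟩ := hx i m (mem_closedBall.2 hi.le)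
      refine ⟨fun t => U ψ 0 t x, continuous_U_zero hψ x, ?_, ?_⟩
      · simp only [U_zero_zero]; linarith
      · filter_upwards [eventually_U_sub hψ x (half_pos hε), self_mem_nhdsWithin] with a ha ha0 t
        calc _ = ‖(U (fun ξ => (wt n ξ : ℂ) * u ξ) a t x - U ψ a t x) +
              (U ψ a t x - U ψ 0 t x)‖ := by congr 1; ring
          _ ≤ 1 / ((m : ℝ) + 1) + ε / 2 := (norm_add_le _ _).trans (add_le_add (h3 a t ha0) (ha t))
          _ ≤ ε := by linarith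
  refine ⟨v, hv1.continuousOn, hv2, ?_⟩
  convert hv3.mono (subset_univ _) using 3 with a t
  refine integral_congr_ae ?_
  filter_upwards [hu] with ξ hξ
  rw [hξ]; rfl

end Crest.Agent.N76.Red
end

-- ▼ part N76/L/WrapTI1
section

/-! # Row 76: from the abstract theorem I to `TI3`; the common reduction (helper73). -/

set_option autoImplicit false

open MeasureTheory Finset Metric
open scoped RealInnerProductSpace

namespace Crest.Agent.N76.L

open Crest.Agent.N76.Red (V)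
open Crest.Agent.N76.G Crest.Agent.N76.II

variable {n M : ℕ}

namespace Wr

/-- the support property delivered by `Build` -/
def Supp (T : Tw n M) (H : L2 n) : Prop :=
  ∀ c ∈ T.al M, ∀ E : Set (V n), (∀ᵐ ξ : V n, ξ ∉ E → H ξ = 0) →
    ∃ ξ ∈ E, ‖ξ - fq T.k M c‖ ≤ T.Λ / (T.k : ℝ) ^ M

/-- the data of a critical tower over a part of a graph -/
structure Dat (R : ℝ) (X : Finset (V n × ℝ)) (T : Tw n M) : Prop where
  sub : T.X ⊆ X
  w1 : T.w = fun _ => 1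
  win : ∀ z ∈ T.X, win T.k M z.2 = T.s₀
  std : T.Std
  lo : (T.k : ℝ) ^ (2 * M - 1) ≤ R
  hi : R < (T.k : ℝ) ^ (2 * M)

lemma tower_univ {k : ℕ} (hk : 1 ≤ k) (M : ℕ) (H : L2 n) (t : ℝ) :
    tower k (fun _ _ => Set.univ) 0 M H t = H := by
  unfold tower
  generalize M + 1 - 0 = m
  generalize (0 : ℕ) = i
  induction m generalizing i with
  | zero => rfl
  | succ m ih =>
    rw [tw, ih, lev, loc_univ]
    have : (0 : ℝ) < k := by exact_mod_cast hk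
    positivity

open Classical in
lemma ms_one {α : Type*} (X : Finset α) (E : Set α) :
    ms X id (fun _ => 1) E = (X.filter fun z => z ∈ E).card := by
  simp [ms]

lemma card_graph {X : Finset (V n × ℝ)} (hX : ∀ z ∈ X, ∀ z' ∈ X, z ≠ z' → 1 ≤ ‖z.1 - z'.1‖)
    (x : V n) {r : ℝ} (hr : 1 ≤ r) (h : ∀ z ∈ X, ‖z.1 - x‖ ≤ r) : (X.card : ℝ) ≤ (3 * r) ^ n := by
  refine (card_le_of_sep_sp X Prod.fst x (by linarith) one_pos
    (fun z hz => by rw [dist_eq_norm]; exact h z hz)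
    (fun z hz z' hz' hne => by rw [dist_eq_norm]; exact hX z hz z' hz' hne)).trans ?_
  exact pow_le_pow_left₀ (by positivity) (by linarith) _

lemma En_le_card (X : Finset (V n × ℝ)) (H : L2 n) :
    En X id (fun _ => 1) (fun _ => H) ≤ X.card * ‖H‖ ^ 2 := by
  unfold En
  rw [← nsmul_eq_mul]
  refine sum_le_card_nsmul _ _ _ fun z _ => ?_
  rw [one_mul]
  refine pow_le_pow_left₀ (norm_nonneg _) ((norm_inner_le_norm _ _).trans ?_) 2
  rw [pt, norm_gam one_pos, one_mul]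

open Classical in
lemma exists_mem_box (T : Tw n M) {i : ℕ} (hi : i ≤ M) {c : Nd n} (hc : c ∈ T.al i) :
    ∃ z ∈ T.X, z ∈ box T.k T.Λ i c := by
  have h := (T.ν0 i).trans_le (T.νc i hi c hc).1
  obtain ⟨z, hz⟩ := nonempty_of_sum_ne_zero h.ne'
  exact ⟨z, (mem_filter.1 hz).1, (mem_filter.1 hz).2⟩

lemma lg_le_iff (T : Tw n M) (hk : 2 ≤ T.k) {x e : ℝ} (hx : 0 < x) :
    T.lg x ≤ e ↔ x ≤ (T.k : ℝ) ^ e :=
  Real.logb_le_iff_le_rpow (by exact_mod_cast hk) hx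

lemma le_lg_iff (T : Tw n M) (hk : 2 ≤ T.k) {x e : ℝ} (hx : 0 < x) :
    e ≤ T.lg x ↔ (T.k : ℝ) ^ e ≤ x :=
  Real.le_logb_iff_rpow_le (by exact_mod_cast hk) hx

lemma rpow_lg (T : Tw n M) (hk : 2 ≤ T.k) {x : ℝ} (hx : 0 < x) : (T.k : ℝ) ^ T.lg x = x := by
  have : (2 : ℝ) ≤ T.k := by exact_mod_cast hk
  exact Real.rpow_logb (by linarith) (by linarith) hx

/-- the common reduction -/
theorem core (hn : 1 ≤ n) (hB : Build n) {P : Tw n M → Prop} (hP : Good n M P) {δ : ℝ}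
    (hδ : 0 < δ) (hδ1 : δ ≤ 1) (hM : 2 ≤ δ * M) :
    ∃ C : ℝ, 0 ≤ C ∧ ∀ R : ℝ, 1 ≤ R → ∀ X : Finset (V n × ℝ), Graph R X → ∀ H : L2 n,
      (∀ T : Tw n M, Dat R X T → P T → T.Crit δ → Supp T H → False) →
      En X id (fun _ => 1) (fun _ => H) ≤ C * R ^ ((n : ℝ) / (n + 1) - δ / 4) * ‖H‖ ^ 2 := by
  classical
  obtain ⟨N₀, C₀, hP⟩ := hP.and (good_std M 1 (3 ^ n))
  obtain ⟨k₀, hk₀⟩ := hB M N₀ (2 * n) C₀
  have hn1 : (1 : ℝ) ≤ n := by exact_mod_cast hn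
  have hM0 : (0 : ℝ) ≤ M := Nat.cast_nonneg M
  have hM2 : (2 : ℝ) ≤ M := by nlinarith
  have hM2' : 2 ≤ M := by exact_mod_cast hM2
  set e : ℝ := (n : ℝ) / (n + 1) - δ / 4 with he
  have he0 : 0 ≤ e := by
    have : (1 : ℝ) / 2 ≤ n / (n + 1) := by rw [div_le_div_iff₀ (by norm_num) (by linarith)]; linarith
    linarith
  have he1 : e ≤ 1 := by
    have : (n : ℝ) / (n + 1) ≤ 1 := (div_le_one (by linarith)).2 (by linarith)
    linarith
  set k₁ := max k₀ (4 ^ M) with hk₁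
  refine ⟨(3 * (k₁ : ℝ) ^ (2 * M)) ^ n + 2 * (4 ^ M + 3 ^ n), by positivity, ?_⟩
  intro R hR X hX H hT
  have hRe : 1 ≤ R ^ e := Real.one_le_rpow hR he0
  set x := R ^ (1 / (2 * M : ℝ)) with hx
  have hx1 : 1 ≤ x := Real.one_le_rpow hR (by positivity)
  have hxM : x ^ (2 * M) = R := by
    rw [hx, ← Real.rpow_natCast, ← Real.rpow_mul (by linarith)]
    push_cast
    rw [one_div_mul_cancel (by linarith), Real.rpow_one]
  set k := ⌊x⌋₊ + 1 with hk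
  have hk1 : x < k := by rw [hk]; push_cast; exact Nat.lt_floor_add_one x
  have hk2 : (k : ℝ) ≤ 2 * x := by
    rw [hk]; push_cast; linarith [Nat.floor_le (by linarith : 0 ≤ x)]
  have hk0 : (1 : ℝ) ≤ k := by linarith
  have hhi : R < (k : ℝ) ^ (2 * M) := by
    rw [← hxM]; exact pow_lt_pow_left₀ hk1 (by linarith) (by omega)
  have hup : (k : ℝ) ^ (2 * M) ≤ 4 ^ M * R := by
    rw [← hxM, show (4 : ℝ) ^ M = 2 ^ (2 * M) by rw [pow_mul]; norm_num, ← mul_pow]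
    exact pow_le_pow_left₀ (by linarith) hk2 _
  have hcard : ∀ Y ⊆ X, (Y.card : ℝ) ≤ (3 * (k : ℝ) ^ (2 * M)) ^ n := fun Y hY =>
    card_graph (fun z hz z' hz' => hX.2 z (hY hz) z' (hY hz')) 0 (by linarith)
      fun z hz => by rw [sub_zero]; exact (hX.1 z (hY hz)).1.trans hhi.le
  rcases lt_or_ge k k₁ with hkk | hkk
  · refine (En_le_card X H).trans (mul_le_mul_of_nonneg_right ?_ (by positivity))
    have h1 : (X.card : ℝ) ≤ (3 * (k₁ : ℝ) ^ (2 * M)) ^ n := by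
      refine (hcard X Subset.rfl).trans ?_
      have : (k : ℝ) ≤ k₁ := by exact_mod_cast hkk.le
      gcongr
    refine h1.trans (le_trans ?_ (le_mul_of_one_le_right (by positivity) hRe))
    exact le_add_of_nonneg_right (by positivity)
  have hk4 : (4 : ℝ) ^ M ≤ k := by exact_mod_cast (le_max_right _ _).trans hkk
  have hlo : (k : ℝ) ^ (2 * M - 1) ≤ R := by
    have h1 : (k : ℝ) * k ^ (2 * M - 1) ≤ k * R := by
      rw [← pow_succ', show 2 * M - 1 + 1 = 2 * M by omega]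
      exact hup.trans (by gcongr)
    exact le_of_mul_le_mul_left h1 (by linarith)
  have key : ∀ s : ℤ, En (X.filter fun z => win k M z.2 = s) id (fun _ => 1) (fun _ => H) ≤
      (4 ^ M + 3 ^ n) * R ^ e * ‖H‖ ^ 2 := fun s => by
    set Y := X.filter fun z => win k M z.2 = s with hY
    have hYX : Y ⊆ X := filter_subset _ _
    have hj : (∑ _z ∈ Y, (1 : ℝ)) / (k : ℝ) ^ (2 * n * M) ≤ 3 ^ n * R ^ e := by
      rw [sum_const, nsmul_eq_mul, mul_one, div_le_iff₀ (by positivity)]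
      refine (hcard Y hYX).trans ?_
      rw [mul_pow, ← pow_mul, mul_right_comm 2 M n, mul_right_comm (3 ^ n : ℝ)]
      exact le_mul_of_one_le_right (by positivity) hRe
    have h := hk₀ k ((le_max_left _ _).trans hkk) Y (fun _ => 1) s (fun _ _ => zero_le_one)
      (fun z hz => ?_) (fun z hz => (mem_filter.1 hz).2) (fun _ _ => Set.univ)
      (fun _ _ => MeasurableSet.univ) H
    swap
    · rw [mem_closedBall_zero_iff, Prod.norm_def]
      have := hX.1 z (hYX hz)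
      exact (max_le this.1 this.2).trans (hhi.le.trans (pow_le_pow_right₀ hk0 (by omega)))
    simp only [tower_univ (by exact_mod_cast hk0 : 1 ≤ k)] at h
    rcases h with h | ⟨T, hTk, hTX, hTw, hTs, hC, hΛ, -, hsupp, h⟩
    · refine h.trans (mul_le_mul_of_nonneg_right (hj.trans ?_) (by positivity))
      gcongr; exact le_add_of_nonneg_left (by positivity)
    obtain ⟨hPT, hstd, h3, -⟩ := hP T hC (by rwa [hTk])
    have hk2' : 2 ≤ T.k := le_trans (by omega) hstd.k_ge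
    have hD : Dat R X T := ⟨by rw [hTX]; exact hYX, hTw,
      by rw [hTX, hTk, hTs]; exact fun z hz => (mem_filter.1 hz).2, hstd, by rwa [hTk],
      by rwa [hTk]⟩
    have hval : T.val < 2 * (n : ℝ) / (n + 1) * M - δ * M := by
      by_contra hv
      refine hT T hD hPT ⟨fun u r hr => ?_, ?_, not_lt.1 hv⟩ (by rw [Supp, hTk]; exact hsupp)
      · rw [hTw, ms_one]
        refine (card_graph (fun z hz z' hz' => hX.2 z (hD.sub (mem_filter.1 hz).1) z'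
          (hD.sub (mem_filter.1 hz').1)) u.1 hr fun z hz => ?_).trans ?_
        · rw [← dist_eq_norm]
          exact (le_max_left _ _).trans (mem_closedBall.1 (mem_filter.1 hz).2)
        · rw [mul_pow]; gcongr
      · obtain ⟨c, hc⟩ := T.ne
        obtain ⟨z, hz, hz'⟩ := exists_mem_box T (Nat.zero_le _) hc
        have h1 := (T.νc 0 (Nat.zero_le _) c hc).2
        rw [hTw, ms_one] at h1
        have h2 : (1 : ℝ) ≤ (T.X.filter fun z => z ∈ box T.k T.Λ 0 c).card := by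
          exact_mod_cast card_pos.2 ⟨z, mem_filter.2 ⟨hz, hz'⟩⟩
        rw [Tw.nu, le_lg_iff T hk2' (T.ν0 0), Real.rpow_neg_one, inv_le_iff_one_le_mul₀'
          (by rw [hTk]; linarith)]
        exact (h2.trans h1).trans (mul_le_mul_of_nonneg_right hstd.Λ_ge.2.2.2 (T.ν0 0).le)
    have hc0 : (0 : ℝ) < (T.al 0).card := by exact_mod_cast T.ne.card_pos
    have h1 : T.a 0 * T.ν 0 * (T.al 0).card = (k : ℝ) ^ T.val := by
      rw [Tw.val, Real.rpow_add (by linarith), Real.rpow_add (by linarith), ← hTk, Tw.A, Tw.nu,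
        Tw.C, rpow_lg T hk2' (T.a0 0), rpow_lg T hk2' (T.ν0 0), rpow_lg T hk2' hc0]
    have h2 : (k : ℝ) * (k : ℝ) ^ T.val ≤ 4 ^ M * R ^ e := by
      calc (k : ℝ) * (k : ℝ) ^ T.val = (k : ℝ) ^ (1 + T.val) := by
            rw [Real.rpow_add (by linarith), Real.rpow_one]
        _ ≤ (k : ℝ) ^ (((2 * M : ℕ) : ℝ) * e) := by
            refine Real.rpow_le_rpow_of_exponent_le hk0 ?_
            push_cast
            have : 2 * (M : ℝ) * e = 2 * (n : ℝ) / (n + 1) * M - δ * M / 2 := by rw [he]; ring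
            linarith
        _ ≤ (4 ^ M * R) ^ e := by
            rw [Real.rpow_mul (by linarith), Real.rpow_natCast]
            gcongr
        _ ≤ 4 ^ M * R ^ e := by
            rw [Real.mul_rpow (by positivity) (by linarith)]
            gcongr
            exact Real.rpow_le_self_of_one_le (one_le_pow₀ (by norm_num)) he1
    rw [h1] at h
    refine h.trans (mul_le_mul_of_nonneg_right ?_ (by positivity))
    linarith
  have hsplit : En X id (fun _ => 1) (fun _ => H) =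
      En (X.filter fun z => win k M z.2 = 0) id (fun _ => 1) (fun _ => H) +
      En (X.filter fun z => win k M z.2 = -1) id (fun _ => 1) (fun _ => H) := by
    unfold En
    rw [← sum_filter_add_sum_filter_not X (fun z => win k M z.2 = 0)]
    congr 2
    refine filter_congr fun z hz => ?_
    have h1 := abs_le.1 (hX.1 z hz).2
    have h2 : win k M z.2 < 1 := by
      rw [win, Int.floor_lt, div_lt_iff₀ (by positivity)]; push_cast; linarith
    have h3 : -1 ≤ win k M z.2 := by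
      rw [win, Int.le_floor, le_div_iff₀ (by positivity)]; push_cast; linarith
    omega
  rw [hsplit]
  have h0 := key 0
  have h1 := key (-1)
  have : 0 ≤ (3 * (k₁ : ℝ) ^ (2 * M)) ^ n * R ^ e * ‖H‖ ^ 2 := by positivity
  linarith

lemma Dat.facts {R : ℝ} {X : Finset (V n × ℝ)} {T : Tw n M} (h : Dat R X T) (hM : 1 ≤ M) :
    2 ≤ T.k ∧ 100 ≤ T.Λ ∧ T.Λ * (M + 1) ≤ T.Λ ^ 2 ∧ 100 * T.Λ ^ 2 ≤ T.k ∧ (n : ℝ) ≤ T.Λ ∧
      (T.k : ℝ) ^ M ≤ R := by
  obtain ⟨h1, h2, h3, h4⟩ := h.std.Λ_ge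
  have hk : 2 ≤ T.k := le_trans (by omega) h.std.k_ge
  have hn0 : (0 : ℝ) ≤ n := Nat.cast_nonneg n
  refine ⟨hk, h1, by nlinarith, le_trans ?_ h.std.2, by linarith, le_trans ?_ h.lo⟩
  · have : T.Λ ^ 10 = T.Λ ^ 8 * T.Λ ^ 2 := by ring
    rw [this]
    gcongr
    exact h1.trans (le_self_pow₀ (by linarith) (by norm_num))
  · exact pow_le_pow_right₀ (by exact_mod_cast le_trans one_le_two hk) (by omega)

/-- a node has a frequency of the support nearby -/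
lemma supp_near {T : Tw n M} {H : L2 n} (hS : Supp T H) (hk : 1 ≤ T.k) (hΛ : 0 ≤ T.Λ) {j : ℕ}
    (hj : j ≤ M) {c : Nd n} (hc : c ∈ T.al j) {E : Set (V n)}
    (hE : ∀ᵐ ξ : V n, ξ ∉ E → H ξ = 0) :
    ∃ ξ ∈ E, ‖ξ - fq T.k j c‖ ≤ T.Λ * (M + 1) / (T.k : ℝ) ^ j := by
  obtain ⟨c', hc'⟩ := T.nr_nonempty hj le_rfl hc
  obtain ⟨h1, -, h2, -⟩ := T.mem_nr.1 hc'
  obtain ⟨ξ, hξ, h3⟩ := hS c' h1 E hE
  have hk1 : (1 : ℝ) ≤ T.k := by exact_mod_cast hk
  refine ⟨ξ, hξ, (norm_sub_le_norm_sub_add_norm_sub _ (fq T.k M c') _).trans ?_⟩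
  have h4 : T.Λ / (T.k : ℝ) ^ M ≤ T.Λ / (T.k : ℝ) ^ j :=
    div_le_div_of_nonneg_left hΛ (by positivity) (pow_le_pow_right₀ hk1 hj)
  have h5 : T.Λ * ((M : ℝ) - j) / (T.k : ℝ) ^ j ≤ T.Λ * M / (T.k : ℝ) ^ j := by
    gcongr; linarith [Nat.cast_nonneg (α := ℝ) j]
  rw [mul_add, add_div, mul_one]
  linarith

lemma exists_level {k : ℕ} (hk : 2 ≤ k) {s : ℝ} (hs : 1 ≤ s) :
    ∃ j : ℕ, s ≤ (k : ℝ) ^ j ∧ (k : ℝ) ^ j ≤ k * s ∧ ∀ e : ℝ, s ≤ (k : ℝ) ^ e → (j : ℝ) < e + 1 := by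
  have hk1 : (1 : ℝ) < k := by exact_mod_cast hk
  have h0 : 0 ≤ Real.logb k s := Real.logb_nonneg hk1 hs
  have h1 := Nat.ceil_lt_add_one h0
  refine ⟨⌈Real.logb k s⌉₊, ?_, ?_, fun e he => ?_⟩
  · rw [← Real.rpow_natCast, ← Real.logb_le_iff_le_rpow hk1 (by linarith)]
    exact Nat.le_ceil _
  · rw [← Real.rpow_natCast]
    refine (Real.rpow_le_rpow_of_exponent_le hk1.le h1.le).trans (le_of_eq ?_)
    rw [Real.rpow_add (by linarith), Real.rpow_logb (by linarith) hk1.ne' (by linarith),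
      Real.rpow_one, mul_comm]
  · have := (Real.logb_le_iff_le_rpow hk1 (by linarith)).2 he
    linarith

lemma exists_nat_mul_ge {a : ℝ} (ha : 0 < a) (b : ℝ) : ∃ M₁ : ℕ, ∀ M : ℕ, M₁ ≤ M → b ≤ a * M := by
  refine ⟨⌈b / a⌉₊, fun M hM => ?_⟩
  have : b / a ≤ M := (Nat.le_ceil _).trans (by exact_mod_cast hM)
  rwa [div_le_iff₀' ha] at this

lemma crit_mono {T : Tw n M} {δ δ' : ℝ} (h : δ ≤ δ') (hT : T.Crit δ) : T.Crit δ' :=
  ⟨hT.1, hT.2.1, le_trans (by nlinarith [Nat.cast_nonneg (α := ℝ) M]) hT.2.2⟩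

/-- the conclusion of `TIa` -/
def Con (θ c η : ℝ) (T : Tw n M) : Prop :=
  (∀ j : ℕ, (j : ℝ) ≤ θ * M → ((n : ℝ) - 1) * j - η * M ≤ T.m 0 j) ∧
  (∀ j : ℕ, (j : ℝ) ≤ θ * M → T.m 0 M ≤ ((n : ℝ) - 1) * j + T.m j M + η * M) ∧
  T.C (T.al M) + ((n : ℝ) + 1) * M ≤ T.C (T.al 0) + T.m 0 M + η * M ∧
  ∀ j₁ ≤ M, T.Nar 0 j₁ (n - 1) → ∀ j ≤ M,
    T.C (T.al 0) - lprof n M j - c * ((M : ℝ) - j₁) - η * M ≤ T.cc 0 j (T.al 0)

lemma tia' (hT : TIa n) : ∃ θ c : ℝ, 0 < θ ∧ θ ≤ 1 ∧ 0 ≤ c ∧ ∀ η : ℝ, 0 < η →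
    ∃ (δ : ℝ) (M₀ : ℕ), 0 < δ ∧ ∀ M, M₀ ≤ M → Good n M fun T => T.Crit δ → Con θ c η T := by
  obtain ⟨θ, c, hθ, hc, hT⟩ := hT
  refine ⟨min θ 1, c, lt_min hθ one_pos, min_le_right _ _, hc, fun η hη => ?_⟩
  obtain ⟨δ, M₀, hδ, hT⟩ := hT η hη
  refine ⟨δ, M₀, hδ, fun M hM => (hT M hM).mono fun T h hc => ?_⟩
  obtain ⟨h1, h2, h3⟩ := h hc
  have : min θ 1 * M ≤ θ * M := mul_le_mul_of_nonneg_right (min_le_left _ _) (Nat.cast_nonneg _)
  exact ⟨fun j hj => h1 j (hj.trans this), fun j hj => h2 j (hj.trans this), h3⟩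

end Wr

open Wr in
theorem ti3_of (hB : Build n) (hT : TIa n) (hn : 1 ≤ n) : TI3 n := by
  classical
  obtain ⟨θ, c, hθ, hθ1, -, hT⟩ := tia' hT
  refine ⟨θ / 4, by positivity, fun α hα => ?_⟩
  obtain ⟨δ, M₀, hδ, hT⟩ := hT (α / 2) (by positivity)
  have hδ' : 0 < min δ 1 := lt_min hδ one_pos
  obtain ⟨M₁, hM₁⟩ := exists_nat_mul_ge hδ' 2
  obtain ⟨M₂, hM₂⟩ := exists_nat_mul_ge (half_pos hθ) 1
  obtain ⟨M₃, hM₃⟩ := exists_nat_mul_ge (half_pos hα) (4 * n + 1)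
  set M := M₀ + M₁ + M₂ + M₃ + 1 with hM
  obtain ⟨C, hC, h⟩ := core hn hB (hT M (by omega)) hδ' (min_le_right _ _) (hM₁ M (by omega))
  refine ⟨min δ 1 / 4, C, by positivity, hC, fun R hR X hX H _ s hs hsR F hF hH => ?_⟩
  refine h R hR X hX H fun T hD hP hc hS => ?_
  obtain ⟨hk, hΛ, hΛM, hΛk, -, hkR⟩ := hD.facts (by omega)
  have hk1 : (1 : ℝ) < T.k := by exact_mod_cast hk
  obtain ⟨j, hj1, hj2, hj3⟩ := exists_level hk hs
  have hM0 : (0 : ℝ) ≤ M := Nat.cast_nonneg M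
  have hjθ : (j : ℝ) ≤ θ * M := by
    have h1 := hj3 (((2 * M : ℕ) : ℝ) * (θ / 4)) (hsR.trans (by
      rw [Real.rpow_mul (by linarith), Real.rpow_natCast]
      exact Real.rpow_le_rpow (by linarith) hD.hi.le (by positivity)))
    have h2 := hM₂ M (by omega)
    push_cast at h1
    linarith
  have h1 := (hP (crit_mono (min_le_left _ _) hc)).1
  have hjM : j ≤ M := by exact_mod_cast hjθ.trans (mul_le_of_le_one_left hM0 hθ1)
  have h2 := h1 j hjθ
  obtain ⟨c₀, hc₀⟩ := T.ne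
  have h3 : ((T.nr 0 j c₀).card : ℝ) ≤ F.card * ((3 * (2 * T.k)) ^ n * (3 * T.k) ^ n) := by
    have hsub : T.nr 0 j c₀ ⊆ F.biUnion fun f => (T.nr 0 j c₀).filter
        fun c' => ‖fq T.k j c' - f‖ ≤ 2 * T.k / (T.k : ℝ) ^ j := fun c' hc' => by
      obtain ⟨ξ, ⟨f, hf, hξ⟩, hξ'⟩ := supp_near hS (by omega) (by linarith) hjM (T.mem_nr.1 hc').1
        (E := {ξ | ∃ c ∈ F, ‖ξ - c‖ ≤ 1 / s})
        (hH.mono fun ξ h1 h2 => by by_contra h3; exact h2 (h1 h3))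
      refine mem_biUnion.2 ⟨f, hf, mem_filter.2 ⟨hc', ?_⟩⟩
      refine (norm_sub_le_norm_sub_add_norm_sub _ ξ _).trans ?_
      rw [norm_sub_rev]
      have e1 : 1 / s ≤ T.k / (T.k : ℝ) ^ j := by
        rw [div_le_div_iff₀ (by linarith) (by positivity)]; linarith
      have e2 : T.Λ * (M + 1) / (T.k : ℝ) ^ j ≤ T.k / (T.k : ℝ) ^ j := by
        gcongr; nlinarith
      rw [two_mul, add_div]; linarith
    refine (Nat.cast_le.2 ((card_le_card hsub).trans card_biUnion_le)).trans ?_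
    rw [Nat.cast_sum, ← nsmul_eq_mul]
    refine sum_le_card_nsmul _ _ _ fun f _ => ?_
    refine card_nd (k := T.k) (by omega) j _ (c₀.1 / (T.k : ℤ) ^ (2 * (j - 0))) f (ctr T.k 0 c₀)
      (tm T.k 0 c₀) (by linarith) hk1.le fun c' hc' => ?_
    obtain ⟨e1, e2⟩ := mem_filter.1 hc'
    obtain ⟨-, e3, -, e4⟩ := T.mem_nr.1 e1
    refine ⟨e3, e2, e4.trans ?_⟩
    have : (j : ℝ) ≤ M := by exact_mod_cast hjM
    gcongr
    push_cast
    nlinarith
  have h4 : T.mm 0 j ≤ (T.k : ℝ) ^ (((n : ℝ) - 1) * j - α * M + 4 * n) := by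
    refine (T.mmc 0 j (Nat.zero_le _) hjM c₀ hc₀).1.trans (h3.trans ?_)
    have e1 : (F.card : ℝ) ≤ (T.k : ℝ) ^ (((n : ℝ) - 1) * j - α * M) := by
      refine hF.trans ?_
      rw [sub_eq_add_neg, Real.rpow_add (by linarith)]
      refine mul_le_mul ?_ ?_ (by positivity) (by positivity)
      · rw [mul_comm, Real.rpow_mul (by linarith), Real.rpow_natCast,
          show (n : ℝ) - 1 = ((n - 1 : ℕ) : ℝ) by rw [Nat.cast_sub hn]; simp, Real.rpow_natCast]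
        gcongr
      · rw [show -(α * M) = M * (-α) by ring, Real.rpow_mul (by linarith), Real.rpow_natCast]
        exact Real.rpow_le_rpow_of_nonpos (by positivity) hkR (by linarith)
    have e2 : (3 * (2 * (T.k : ℝ))) ^ n * (3 * T.k) ^ n ≤ (T.k : ℝ) ^ (4 * (n : ℝ)) := by
      rw [← mul_pow, Real.rpow_mul (by linarith), Real.rpow_natCast,
        show (4 : ℝ) = (4 : ℕ) by norm_num, Real.rpow_natCast]
      gcongr
      have : (100 : ℝ) ≤ T.k := by nlinarith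
      calc _ = 18 * (T.k : ℝ) ^ 2 := by ring
        _ ≤ (T.k : ℝ) ^ 2 * (T.k : ℝ) ^ 2 := by gcongr; nlinarith
        _ = _ := by ring
    rw [Real.rpow_add (by linarith)]
    gcongr
  have h5 := (lg_le_iff T hk (lt_of_lt_of_le one_pos (T.mm1 0 j))).2 h4
  have h6 := hM₃ M (by omega)
  rw [Tw.m] at h2
  linarith

end Crest.Agent.N76.L
end

-- ▼ part N76/L/WrapTI2
section

/-! # Row 76: the plank of a critical tower, and `TI2` (helper73). -/

set_option autoImplicit false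

open MeasureTheory Finset Metric
open scoped RealInnerProductSpace

namespace Crest.Agent.N76.L

open Crest.Agent.N76.Red (V)
open Crest.Agent.N76.G Crest.Agent.N76.II

variable {n M : ℕ}

namespace Wr

open Classical in
/-- the points in the boxes of the roots -/
noncomputable def X0 (T : Tw n M) : Finset (V n × ℝ) :=
  T.X.filter fun z => ∃ c ∈ T.al 0, z ∈ box T.k T.Λ 0 c

lemma card_al0_le {R : ℝ} {X : Finset (V n × ℝ)} {T : Tw n M} (hD : Dat R X T) (hM : 1 ≤ M) :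
    ((T.al 0).card : ℝ) ≤ (T.k : ℝ) ^ (2 * n) * (X0 T).card := by
  classical
  obtain ⟨hk, hΛ, -, hΛk, -, -⟩ := hD.facts hM
  have hsub : T.al 0 ⊆ (X0 T).biUnion fun z => (T.al 0).filter fun c => z ∈ box T.k T.Λ 0 c :=
    fun c hc => by
      obtain ⟨z, hz, hz'⟩ := exists_mem_box T (Nat.zero_le _) hc
      exact mem_biUnion.2 ⟨z, mem_filter.2 ⟨hz, c, hc, hz'⟩, mem_filter.2 ⟨hc, hz'⟩⟩
  refine (Nat.cast_le.2 ((card_le_card hsub).trans card_biUnion_le)).trans ?_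
  rw [Nat.cast_sum, mul_comm, ← nsmul_eq_mul]
  refine sum_le_card_nsmul _ _ _ fun z _ => ?_
  refine (card_nd (k := T.k) (by omega) 0 _ (win T.k 0 z.2) 0 z.1 z.2 (ρ₁ := T.Λ ^ 2) (ρ₂ := T.Λ)
    (by nlinarith) (by linarith) fun c hc => ?_).trans ?_
  · obtain ⟨h1, h2, h3⟩ := mem_filter.1 hc
    refine ⟨h2.symm, by simpa using T.fqb 0 (Nat.zero_le _) c h1, ?_⟩
    rw [norm_sub_rev]; simpa using h3
  · rw [two_mul, pow_add]
    gcongr <;> nlinarith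

lemma card_X0_le {R : ℝ} {X : Finset (V n × ℝ)} (hX : Graph R X) {T : Tw n M} (hD : Dat R X T)
    (hM : 1 ≤ M) : ((X0 T).card : ℝ) ≤ (T.k : ℝ) ^ n * (T.al 0).card := by
  classical
  obtain ⟨hk, hΛ, -, hΛk, -, -⟩ := hD.facts hM
  have hsub : X0 T ⊆ (T.al 0).biUnion fun c => T.X.filter fun z => z ∈ box T.k T.Λ 0 c :=
    fun z hz => by
      obtain ⟨hz, c, hc, hz'⟩ := mem_filter.1 hz
      exact mem_biUnion.2 ⟨c, hc, mem_filter.2 ⟨hz, hz'⟩⟩
  refine (Nat.cast_le.2 ((card_le_card hsub).trans card_biUnion_le)).trans ?_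
  rw [Nat.cast_sum, mul_comm, ← nsmul_eq_mul]
  refine sum_le_card_nsmul _ _ _ fun c hc => ?_
  refine (card_graph (fun z hz z' hz' => hX.2 z (hD.sub (mem_filter.1 hz).1) z'
    (hD.sub (mem_filter.1 hz').1)) (ctr T.k 0 c) (r := 3 * T.Λ ^ 2) (by nlinarith)
    fun z hz => ?_).trans ?_
  · have h1 := (mem_filter.1 hz).2
    have h2 := box_tm (by omega) h1
    have h3 := T.fqb 0 (Nat.zero_le _) c hc
    have h4 : ‖z.1 - ps T.k 0 c z.2‖ ≤ T.Λ := by simpa using h1.2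
    have h5 : ‖ps T.k 0 c z.2 - ctr T.k 0 c‖ ≤ 2 * T.Λ ^ 2 := by
      rw [ps, sub_sub_cancel_left, norm_neg, norm_smul, Real.norm_of_nonneg (by linarith [h2.1])]
      simp only [mul_zero, pow_zero] at h2
      exact mul_le_mul (by linarith [h2.2]) h3 (norm_nonneg _) (by norm_num)
    refine (norm_sub_le_norm_sub_add_norm_sub _ (ps T.k 0 c z.2) _).trans ?_
    nlinarith
  · gcongr; nlinarith

open Classical in
/-- the plank of a critical tower -/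
theorem plank_T (hn : 1 ≤ n) (hP : Plank n) {S : ℕ} (hS : 1 ≤ S) : ∃ C : ℕ, ∀ (M j : ℕ),
    M = S * j → 1 ≤ j → ∀ (R : ℝ) (X : Finset (V n × ℝ)), Graph R X → ∀ T : Tw n M, Dat R X T →
    ∀ θ c η : ℝ, 0 ≤ η → (j : ℝ) ≤ θ * M → Con θ c η T → C * (2 * η * M + 2 * n) ≤ j →
    ∀ D : ℝ, (T.k : ℝ) ^ (C * (2 * η * M + 2 * n)) ≤ D →
    ∃ (G : V n) (y₀ : ℝ), (T.k : ℝ) ^ (2 * M * n) ≤ D *
        ((X0 T).filter fun z => |z.2 - ⟪G, z.1⟫ - y₀| ≤ D * (T.k : ℝ) ^ M).card ∧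
      ∃ L ∈ T.al M, |1 + 2 * ⟪G, fq T.k M L⟫| ≤ D / (T.k : ℝ) ^ M := by
  obtain ⟨C, hC⟩ := hP S hS
  refine ⟨C, fun M j hMj hj R X hX T hD θ c η hη hjθ hcon hCj D hDk => ?_⟩
  have hM : 1 ≤ M := by rw [hMj]; exact Nat.mul_pos hS hj
  have hjM : j ≤ M := by rw [hMj]; exact Nat.le_mul_of_pos_left _ hS
  obtain ⟨hk, hΛ, hΛM, hΛk, -, -⟩ := hD.facts hM
  have hk1 : (1 : ℝ) < T.k := by exact_mod_cast hk
  have hk0 : (0 : ℝ) < T.k := by linarith
  have hn1 : (1 : ℝ) ≤ n := by exact_mod_cast hn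
  have hM0 : (0 : ℝ) ≤ M := Nat.cast_nonneg M
  have hjM' : (j : ℝ) ≤ M := by exact_mod_cast hjM
  have hj0 : (0 : ℝ) ≤ j := Nat.cast_nonneg j
  set β : ℝ := 2 * η * M + 2 * n with hβ
  have hηM : 0 ≤ η * M := by positivity
  set B := (T.k : ℝ) ^ β with hB
  have hkB : (T.k : ℝ) ≤ B := Real.self_le_rpow_of_one_le hk1.le (by linarith)
  have hBC : B ^ C = (T.k : ℝ) ^ (C * β) := by
    rw [hB, ← Real.rpow_natCast, ← Real.rpow_mul hk0.le, mul_comm]
  have hQS : ((T.k : ℝ) ^ j) ^ S = (T.k : ℝ) ^ M := by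
    rw [← pow_mul, mul_comm, ← hMj]
  have hroot : ∀ z ∈ X0 T, ∃ c ∈ T.al 0, z ∈ box T.k T.Λ 0 c := fun z hz => (mem_filter.1 hz).2
  choose! r hr hr' using hroot
  set Φ : V n × ℝ → Finset (Fin n → ℤ) := fun z => (T.nr 0 j (r z)).image fun c => c.2.2 with hΦ
  have hch : ∀ z, ∀ p ∈ Φ z, ∃ c' ∈ T.nr 0 j (r z), c'.2.2 = p := fun z p hp => mem_image.1 hp
  choose! ch hch hch' using hch
  have hΛM' : T.Λ * (M + 1) ≤ T.k := by nlinarith
  have hpow : ∀ x : ℝ, ((T.k : ℝ) ^ j) ^ (n - 1) = (T.k : ℝ) ^ (((n : ℝ) - 1) * j) := fun _ => by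
    rw [mul_comm, Real.rpow_mul hk0.le, Real.rpow_natCast,
      show (n : ℝ) - 1 = ((n - 1 : ℕ) : ℝ) by rw [Nat.cast_sub hn]; simp, Real.rpow_natCast]
  have hmm : ∀ i l, 0 < T.mm i l := fun i l => lt_of_lt_of_le one_pos (T.mm1 i l)
  refine Exists.elim (hC ((T.k : ℝ) ^ j) B (T.s₀ * (T.k : ℝ) ^ (2 * M))
    (T.mm j M) (by linarith [show (2 : ℝ) ≤ T.k by exact_mod_cast hk])
    (by rw [hBC, ← Real.rpow_natCast]; exact Real.rpow_le_rpow_of_exponent_le hk1.le hCj)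
    (hmm j M) (Nd n) (Fin n → ℤ) (X0 T) (T.al M) (fun L => ps T.k M L 0) (fun L => fq T.k M L)
    (fun p => ((T.k : ℝ) ^ j)⁻¹ • iv p) Φ (fun z p => T.nr j M (ch z p)) ?_ ?_ ?_ ?_ ?_ ?_ ?_ ?_)
    fun G ⟨y₀, _, h1, L, hL, h2⟩ => ?_
  rotate_right
  · have hBD : B ^ C ≤ D := by rw [hBC]; exact hDk
    have hB0 : 0 ≤ B ^ C := by positivity
    rw [hQS] at h1 h2
    refine ⟨G, y₀, ?_, L, hL, h2.trans (by gcongr)⟩
    rw [← pow_mul, ← pow_mul, ← mul_assoc, mul_comm M 2] at h1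
    refine h1.trans (mul_le_mul hBD (Nat.cast_le.2 (card_le_card ?_)) (Nat.cast_nonneg _)
      (hB0.trans hBD))
    exact monotone_filter_right _ fun z _ hz => hz.trans (by gcongr)
  · obtain ⟨c, hc⟩ := T.ne
    obtain ⟨z, hz, hz'⟩ := exists_mem_box T (Nat.zero_le _) hc
    exact ⟨z, mem_filter.2 ⟨hz, c, hc, hz'⟩⟩
  · intro z hz
    have hz1 := (mem_filter.1 hz).1
    rw [hQS, ← pow_mul, mul_comm M 2]
    have hw := hD.win z hz1
    have e1 := Int.floor_le (z.2 / (T.k : ℝ) ^ (2 * M))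
    have e2 := Int.lt_floor_add_one (z.2 / (T.k : ℝ) ^ (2 * M))
    rw [← win, hw] at e1 e2
    rw [le_div_iff₀ (by positivity)] at e1
    rw [div_lt_iff₀ (by positivity)] at e2
    refine ⟨((hX.1 z (hD.sub hz1)).1.trans hD.hi.le).trans
      (le_mul_of_one_le_left (by positivity) (by linarith)), e1, by linarith⟩
  · exact fun z hz z' hz' => hX.2 z (hD.sub (mem_filter.1 hz).1) z' (hD.sub (mem_filter.1 hz').1)
  · exact fun L hL => (T.fqb M le_rfl L hL).trans (by nlinarith)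
  · intro z hz
    have e1 : ((T.nr 0 j (r z)).card : ℝ) ≤ (Φ z).card * (T.k : ℝ) ^ n := by
      refine card_le_image_mul _ _ fun p _ => ?_
      refine (card_nd_cap (k := T.k) (by omega) j _ ((r z).1 / (T.k : ℤ) ^ (2 * (j - 0))) p
        (ctr T.k 0 (r z)) (tm T.k 0 (r z)) (ρ := T.Λ * (M + 1)) (by nlinarith)
        fun c hc => ?_).trans ?_
      · obtain ⟨e1, e2⟩ := mem_filter.1 hc
        obtain ⟨-, e3, -, e4⟩ := T.mem_nr.1 e1
        refine ⟨e3, e2, e4.trans ?_⟩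
        gcongr
        push_cast; linarith
      · gcongr; nlinarith
    have e2 := (le_lg_iff T hk (hmm 0 j)).1 (hcon.1 j hjθ)
    have e3 := (T.mmc 0 j (Nat.zero_le _) hjM _ (hr z hz)).1
    have e4 : (T.k : ℝ) ^ (((n : ℝ) - 1) * j) =
        (T.k : ℝ) ^ (η * M) * (T.k : ℝ) ^ (((n : ℝ) - 1) * j - η * M) := by
      rw [← Real.rpow_add hk0]; congr 1; ring
    have e5 : (T.k : ℝ) ^ (η * M) * (T.k : ℝ) ^ n ≤ B := by
      rw [← Real.rpow_natCast, ← Real.rpow_add hk0]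
      exact Real.rpow_le_rpow_of_exponent_le hk1.le (by linarith)
    rw [hpow 0, e4]
    calc _ ≤ (T.k : ℝ) ^ (η * M) * ((Φ z).card * (T.k : ℝ) ^ n) :=
          mul_le_mul_of_nonneg_left (e2.trans (e3.trans e1)) (by positivity)
      _ = (T.k : ℝ) ^ (η * M) * (T.k : ℝ) ^ n * (Φ z).card := by ring
      _ ≤ _ := by gcongr
  · intro z _ p _ p' _ hne
    rw [← smul_sub, norm_smul, Real.norm_of_nonneg (by positivity), one_div]
    exact le_mul_of_one_le_right (by positivity) (one_le_norm_iv_sub hne)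
  · intro z hz p hp
    obtain ⟨e1, e2⟩ := T.mem_nr.1 (hch z p hp)
    refine ⟨fun L hL => (T.mem_nr.1 hL).1, (T.mmc j M hjM le_rfl _ e1).1, fun L hL => ?_⟩
    obtain ⟨-, e3⟩ := T.mem_nr.1 hL
    constructor
    · have e4 := e3.2.1
      rw [fq, fq, hch' z p hp] at e4
      refine e4.trans ?_
      gcongr; nlinarith
    · have hkM := hD.std.k_ge
      have e4 := box_mono (by linarith) (Nat.zero_le M) (by omega)
        (Nr.trans (by linarith) (Nat.zero_le j) hjM (by omega) e2 e3) (hr' z hz)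
      have e5 := e4.2
      rw [ps_sub _ _ _ _ 0, sub_zero] at e5
      rw [hQS]
      refine e5.trans ?_
      gcongr; linarith
  · have hcM : (0 : ℝ) < (T.al M).card := by exact_mod_cast (T.al_nonempty le_rfl).card_pos
    have hc0 : (0 : ℝ) < (T.al 0).card := by exact_mod_cast T.ne.card_pos
    have e1 : T.C (T.al M) + ((n : ℝ) + 1) * M ≤
        T.C (T.al 0) + 2 * η * M + T.m j M + ((n : ℝ) - 1) * j := by
      linarith [hcon.2.1 j hjθ, hcon.2.2.1]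
    have e2 := Real.rpow_le_rpow_of_exponent_le hk1.le e1
    rw [Real.rpow_add hk0, Real.rpow_add hk0, Real.rpow_add hk0, Real.rpow_add hk0, Tw.C, Tw.C,
      Tw.m, rpow_lg T hk hcM, rpow_lg T hk hc0, rpow_lg T hk (hmm j M)] at e2
    rw [hQS, hpow 0, ← pow_mul, ← Real.rpow_natCast]
    push_cast
    rw [mul_comm (M : ℝ)]
    refine e2.trans ?_
    refine mul_le_mul_of_nonneg_right (mul_le_mul_of_nonneg_right ?_ (hmm j M).le) (by positivity)
    rw [hB, hβ, Real.rpow_add hk0, mul_comm ((T.al 0).card : ℝ), mul_assoc _ _ ((X0 T).card : ℝ)]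
    refine mul_le_mul_of_nonneg_left ?_ (by positivity)
    have := card_al0_le hD hM
    rw [← Real.rpow_natCast] at this
    push_cast at this
    exact this

/-- choice of the parameters for the plank lemma -/
lemma params {θ ε : ℝ} (hθ : 0 < θ) (hε : 0 < ε) :
    ∃ S : ℕ, 1 ≤ S ∧ ∀ C n : ℕ, ∃ η₀ : ℝ, 0 < η₀ ∧ ∃ j₀ : ℕ, ∀ η : ℝ, η ≤ η₀ → ∀ j M : ℕ,
      j₀ ≤ j → M = S * j → (j : ℝ) ≤ θ * M ∧ C * (2 * η * M + 2 * n) ≤ j ∧
        C * (2 * η * M + 2 * n) ≤ ε * M := by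
  obtain ⟨S₀, hS₀⟩ := exists_nat_mul_ge hθ 1
  refine ⟨S₀ + 1, by omega, fun C n => ?_⟩
  set S := S₀ + 1 with hS
  have hS1 : (1 : ℝ) ≤ S := by rw [hS]; push_cast; linarith [Nat.cast_nonneg (α := ℝ) S₀]
  have hC0 : (0 : ℝ) ≤ C := Nat.cast_nonneg C
  set ε' := min ε (1 / S) with hε'
  have hε'0 : 0 < ε' := lt_min hε (by positivity)
  obtain ⟨j₀, hj₀⟩ := exists_nat_mul_ge (half_pos hε'0) (C * (2 * n))
  refine ⟨ε' / (4 * (C + 1)), by positivity, j₀, fun η hη j M hj hM => ?_⟩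
  have hj0 : (0 : ℝ) ≤ j := Nat.cast_nonneg j
  have hM' : (M : ℝ) = S * j := by rw [hM]; push_cast; ring
  have hM0 : (0 : ℝ) ≤ M := Nat.cast_nonneg M
  have h1 := hj₀ M (hj.trans (by rw [hM]; exact Nat.le_mul_of_pos_left _ (by omega)))
  have h2 : C * (2 * η * M) ≤ ε' / 2 * M := by
    have : C * (2 * η) ≤ ε' / 2 := by
      refine (mul_le_mul_of_nonneg_left (by linarith : 2 * η ≤ 2 * (ε' / (4 * (C + 1)))) hC0).trans ?_
      rw [← mul_div_assoc, ← mul_div_assoc, div_le_div_iff₀ (by positivity) (by norm_num)]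
      nlinarith
    nlinarith
  have h3 : C * (2 * η * M + 2 * n) ≤ ε' * M := by rw [mul_add]; linarith
  refine ⟨?_, h3.trans ?_, h3.trans (mul_le_mul_of_nonneg_right (min_le_left _ _) hM0)⟩
  · rw [hM', ← mul_assoc]
    exact le_mul_of_one_le_left hj0 (hS₀ S (by omega))
  · refine (mul_le_mul_of_nonneg_right (min_le_right _ _) hM0).trans (le_of_eq ?_)
    rw [hM']; field_simp

lemma sqrt_bounds {R : ℝ} {X : Finset (V n × ℝ)} {T : Tw n M} (hD : Dat R X T) (hM : 1 ≤ M) :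
    Real.sqrt R ≤ (T.k : ℝ) ^ M ∧ (T.k : ℝ) ^ M ≤ T.k * Real.sqrt R := by
  have hk1 : (1 : ℝ) ≤ T.k := by exact_mod_cast le_trans one_le_two (hD.facts hM).1
  constructor
  · rw [Real.sqrt_le_left (by positivity), ← pow_mul, mul_comm]; exact hD.hi.le
  · have : (T.k : ℝ) ^ (M - 1) ≤ Real.sqrt R := by
      refine Real.le_sqrt_of_sq_le ?_
      rw [← pow_mul]
      exact (pow_le_pow_right₀ hk1 (by omega)).trans hD.lo
    calc (T.k : ℝ) ^ M = T.k * T.k ^ (M - 1) := by rw [← pow_succ']; congr 1; omega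
      _ ≤ _ := by gcongr

lemma aux1 {Λ D k : ℝ} (hΛ : 100 ≤ Λ) (hD : 1 ≤ D) (hk : 100 * Λ ^ 2 ≤ k) (hk1 : 1 ≤ k) :
    Λ + 2 * Λ ^ 2 * D ≤ D * k * k := by
  have e3 : Λ ≤ Λ ^ 2 := by nlinarith
  have e4 : Λ ^ 2 ≤ Λ ^ 2 * D := le_mul_of_one_le_right (by positivity) hD
  have e5 : 3 * Λ ^ 2 * D ≤ D * k := by nlinarith
  have e6 : D * k ≤ D * k * k := le_mul_of_one_le_right (by positivity) hk1
  linarith

end Wr

open Wr in
theorem ti2_of (hB : Build n) (hT : TIa n) (hP : Plank n) (hn : 1 ≤ n) : TI2 n := by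
  classical
  obtain ⟨θ, c, hθ, -, -, hT⟩ := tia' hT
  intro α hα
  obtain ⟨S, hS, hpar⟩ := params hθ (lt_min (half_pos hα) (by norm_num : (0 : ℝ) < 1 / 2))
  obtain ⟨C₁, hpl⟩ := plank_T hn hP hS
  obtain ⟨η, hη, j₀, hpar⟩ := hpar C₁ n
  obtain ⟨δ, M₀, hδ, hT⟩ := hT η hη
  have hδ' : 0 < min δ 1 := lt_min hδ one_pos
  obtain ⟨M₁, hM₁⟩ := exists_nat_mul_ge hδ' 2
  obtain ⟨M₂, hM₂⟩ := exists_nat_mul_ge (half_pos hα) 2
  set j := M₀ + M₁ + M₂ + j₀ + 2 with hj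
  set M := S * j with hM
  have hjM : j ≤ M := Nat.le_mul_of_pos_left _ hS
  obtain ⟨C, hC, h⟩ := core hn hB (hT M (by omega)) hδ' (min_le_right _ _) (hM₁ M (by omega))
  refine ⟨min δ 1 / 4, C, by positivity, hC, fun R hR X hX H _ hH => ?_⟩
  refine h R hR X hX H fun T hD hcon hc hS' => ?_
  obtain ⟨hk, hΛ, hΛM, hΛk, -, hkR⟩ := hD.facts (by omega)
  have hk1 : (1 : ℝ) < T.k := by exact_mod_cast hk
  have hk0 : (0 : ℝ) < T.k := by linarith
  obtain ⟨p1, p2, p3⟩ := hpar η le_rfl j M (by omega) hM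
  set e := min (α / 2) (1 / 2) * M with he
  have hM0 : (0 : ℝ) ≤ M := Nat.cast_nonneg M
  have hM2 : (2 : ℝ) ≤ M := by exact_mod_cast (show 2 ≤ M by omega)
  have he1 : e ≤ α / 2 * M := mul_le_mul_of_nonneg_right (min_le_left _ _) hM0
  have he2 : e ≤ 1 / 2 * M := mul_le_mul_of_nonneg_right (min_le_right _ _) hM0
  set D := (T.k : ℝ) ^ e with hDdef
  have hD1 : 1 ≤ D := Real.one_le_rpow hk1.le (by positivity)
  obtain ⟨G, y₀, h1, L, hL, h2⟩ := hpl M j hM (by omega) R X hX T hD θ c η hη.le p1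
    (hcon (crit_mono (min_le_left _ _) hc)) p2 D (Real.rpow_le_rpow_of_exponent_le hk1.le p3)
  have hDk : D * T.k ≤ (T.k : ℝ) ^ M := by
    rw [hDdef, ← Real.rpow_add_one hk0.ne', ← Real.rpow_natCast]
    exact Real.rpow_le_rpow_of_exponent_le hk1.le (by linarith)
  have hDα : D * T.k * T.k ≤ R ^ α := by
    rw [hDdef, ← Real.rpow_add_one hk0.ne', ← Real.rpow_add_one hk0.ne']
    refine le_trans (Real.rpow_le_rpow_of_exponent_le hk1.le (show _ ≤ M * α by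
      linarith [hM₂ M (by omega)])) ?_
    rw [Real.rpow_mul hk0.le, Real.rpow_natCast]
    gcongr
  obtain ⟨s1, s2⟩ := sqrt_bounds hD (by omega)
  have hs0 : 0 < Real.sqrt R := Real.sqrt_pos.2 (by linarith)
  have hζ := T.fqb M le_rfl L hL
  have hG : 1 ≤ 4 * T.Λ ^ 2 * ‖G‖ := by
    have e1 : D / (T.k : ℝ) ^ M ≤ 1 / 2 := by
      rw [div_le_div_iff₀ (by positivity) (by norm_num)]
      have : (2 : ℝ) ≤ T.k := by exact_mod_cast hk
      have := mul_le_mul_of_nonneg_left this (by linarith : 0 ≤ D)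
      linarith
    have e2 := abs_le.1 (h2.trans e1)
    have e3 := abs_real_inner_le_norm G (fq T.k M L)
    have e4 := neg_abs_le ⟪G, fq T.k M L⟫
    linarith [mul_le_mul_of_nonneg_left hζ (norm_nonneg G)]
  have hG0 : 0 < ‖G‖ := by
    by_contra h0
    rw [le_antisymm (not_lt.1 h0) (norm_nonneg _)] at hG
    linarith
  have hGi : ‖G‖⁻¹ ≤ 4 * T.Λ ^ 2 := by rw [inv_le_iff_one_le_mul₀ hG0]; exact hG
  have hν : ‖‖G‖⁻¹ • G‖ = 1 := norm_smul_inv_norm (norm_pos_iff.1 hG0)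
  have h3 := hH (‖G‖⁻¹ • G) (-(‖G‖⁻¹ / 2)) (-(‖G‖⁻¹ * y₀)) hν (by
    rw [ms_one]
    have e1 : R ^ ((n : ℝ) - α) ≤ ((X0 T).filter
        fun z => |z.2 - ⟪G, z.1⟫ - y₀| ≤ D * (T.k : ℝ) ^ M).card := by
      rw [Real.rpow_sub (by linarith), div_le_iff₀' (by positivity), Real.rpow_natCast]
      refine le_trans ?_ (h1.trans ?_)
      · rw [pow_mul]; exact pow_le_pow_left₀ (by linarith) hD.hi.le _
      · gcongr
        exact le_trans (le_mul_of_one_le_right (by positivity) (one_le_mul_of_one_le_of_one_le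
          hk1.le hk1.le)) (by rw [← mul_assoc]; exact hDα)
    refine e1.trans (Nat.cast_le.2 (card_le_card fun z hz => ?_))
    obtain ⟨hz1, hz2⟩ := mem_filter.1 hz
    refine mem_filter.2 ⟨hD.sub (mem_filter.1 hz1).1, ?_⟩
    simp only [plank, Set.mem_ofPred_eq, real_inner_smul_left]
    rw [show ‖G‖⁻¹ * ⟪G, z.1⟫ + 2 * -(‖G‖⁻¹ / 2) * z.2 - -(‖G‖⁻¹ * y₀) =
      -(‖G‖⁻¹ * (z.2 - ⟪G, z.1⟫ - y₀)) by ring, abs_neg, abs_mul, abs_of_pos (by positivity)]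
    calc _ ≤ T.k * (D * (T.k * Real.sqrt R)) :=
          mul_le_mul (hGi.trans (by linarith [sq_nonneg T.Λ])) (hz2.trans (by gcongr))
            (abs_nonneg _) hk0.le
      _ = D * T.k * T.k * Real.sqrt R := by ring
      _ ≤ _ := by gcongr)
  obtain ⟨ξ, hξ, h4⟩ := hS' L hL {ξ | ¬ |⟪‖G‖⁻¹ • G, ξ⟫ - -(‖G‖⁻¹ / 2)| ≤ R ^ α / Real.sqrt R}
    (h3.mono fun ξ h hξ => h (not_not.1 hξ))
  refine hξ ?_
  have e1 : ⟪‖G‖⁻¹ • G, ξ⟫ - -(‖G‖⁻¹ / 2) =
      ⟪‖G‖⁻¹ • G, ξ - fq T.k M L⟫ + ‖G‖⁻¹ / 2 * (1 + 2 * ⟪G, fq T.k M L⟫) := by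
    rw [inner_sub_right, real_inner_smul_left G (fq T.k M L)]; ring
  have e2 : |⟪‖G‖⁻¹ • G, ξ - fq T.k M L⟫| ≤ T.Λ / (T.k : ℝ) ^ M := by
    refine (abs_real_inner_le_norm _ _).trans ?_
    rw [hν, one_mul]; exact h4
  have e3 : |‖G‖⁻¹ / 2 * (1 + 2 * ⟪G, fq T.k M L⟫)| ≤ 2 * T.Λ ^ 2 * (D / (T.k : ℝ) ^ M) := by
    rw [abs_mul, abs_of_pos (by positivity)]
    exact mul_le_mul (by linarith) h2 (abs_nonneg _) (by positivity)
  rw [e1]
  refine (abs_add_le _ _).trans ((add_le_add e2 e3).trans ?_)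
  rw [← mul_div_assoc, ← add_div]
  refine div_le_div₀ (by positivity) (le_trans ?_ hDα) hs0 s1
  exact aux1 hΛ hD1 hΛk hk1.le

end Crest.Agent.N76.L
end

-- ▼ part N76/L/WrapTI

/-! # Row 76: `TI1`, and the three parts of theorem I together (helper73). -/

set_option autoImplicit false

open MeasureTheory Finset Metric
open scoped RealInnerProductSpace

namespace Crest.Agent.N76.L

open Crest.Agent.N76.Red (V)
open Crest.Agent.N76.G Crest.Agent.N76.II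

variable {n M : ℕ}

namespace Wr

lemma exists_onb (hn : 1 ≤ n) {ν : V n} (hν : ‖ν‖ = 1) :
    ∃ O : OrthonormalBasis (Fin n) ℝ (V n), ∀ l : Fin n, n - 1 ≤ (l : ℕ) → O l = ν := by
  have ho : Orthonormal ℝ (Set.domRestrict ({⟨n - 1, by omega⟩} : Set (Fin n)) fun _ => ν) :=
    ⟨fun _ => hν, fun i j hij => absurd (Subsingleton.elim i j) hij⟩
  obtain ⟨O, hO⟩ := ho.exists_orthonormalBasis_extension_of_card_eq (by simp)
  exact ⟨O, fun l hl => hO l (Fin.ext (by have := l.2; simp only; omega))⟩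

lemma card_nd_le (S : Finset (Nd n)) {a b c : ℝ} (ha : ((S.image fun x => x.1).card : ℝ) ≤ a)
    (hb : ((S.image fun x => x.2.1).card : ℝ) ≤ b) (hc : ((S.image fun x => x.2.2).card : ℝ) ≤ c) :
    (S.card : ℝ) ≤ a * (b * c) := by
  have h : S ⊆ (S.image fun x => x.1) ×ˢ ((S.image fun x => x.2.1) ×ˢ (S.image fun x => x.2.2)) :=
    fun x hx => mem_product.2 ⟨mem_image_of_mem _ hx,
      mem_product.2 ⟨mem_image_of_mem _ hx, mem_image_of_mem _ hx⟩⟩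
  refine (Nat.cast_le.2 (card_le_card h)).trans ?_
  rw [card_product, card_product]
  push_cast
  have := (Nat.cast_nonneg _).trans ha
  have := (Nat.cast_nonneg _).trans hb
  gcongr

/-- few balls give few cells -/
lemma card_cells {R : ℝ} {X : Finset (V n × ℝ)} {T : Tw n M} (hD : Dat R X T) (hM : 1 ≤ M)
    {r N : ℝ} {j : ℕ} (hr : r ≤ (T.k : ℝ) ^ j) (hcov : Cov X id r N) :
    (((T.al 0).image (cell T.k 0 j)).card : ℝ) ≤ N * (T.k : ℝ) ^ (2 * n + 1) := by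
  classical
  obtain ⟨hk, hΛ, -, hΛk, hn, -⟩ := hD.facts hM
  have hk1 : (1 : ℝ) < T.k := by exact_mod_cast hk
  obtain ⟨F, hF, hF'⟩ := hcov
  set K := (T.k : ℝ) ^ j with hK
  have hK1 : 1 ≤ K := one_le_pow₀ hk1.le
  set P : V n × ℝ → Nd n → Prop := fun u c => ∃ z ∈ box T.k T.Λ 0 c, dist z u ≤ K with hP
  have hsub : (T.al 0).image (cell T.k 0 j) ⊆
      F.biUnion fun u => ((T.al 0).filter (P u)).image (cell T.k 0 j) := fun x hx => by
    obtain ⟨c, hc, rfl⟩ := mem_image.1 hx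
    obtain ⟨z, hz, hz'⟩ := exists_mem_box T (Nat.zero_le _) hc
    obtain ⟨u, hu, hu'⟩ := hF' z (hD.sub hz)
    exact mem_biUnion.2 ⟨u, hu, mem_image_of_mem _ (mem_filter.2 ⟨hc, z, hz', hu'.trans hr⟩)⟩
  refine (Nat.cast_le.2 ((card_le_card hsub).trans card_biUnion_le)).trans ?_
  refine le_trans ?_ (mul_le_mul_of_nonneg_right hF (by positivity))
  rw [Nat.cast_sum, ← nsmul_eq_mul]
  refine sum_le_card_nsmul _ _ _ fun u _ => ?_
  have ht : ∀ c : Nd n, ∀ z ∈ box T.k T.Λ 0 c,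
      |z.2 - ((c.1 / (T.k : ℤ) ^ j : ℤ) : ℝ) * K| ≤ K := fun c z hz => by
    have h1 := box_tm (by omega) hz
    have h2 := ediv_bounds (k := T.k) (by omega) c.1 j 0
    simp only [tm, mul_zero, pow_zero, mul_one, add_zero] at h1 h2
    rw [abs_le]; constructor <;> linarith [h1.1, h1.2, h2.1, h2.2]
  refine (card_nd_le _ (a := 3 * 2) (b := (3 * (5 * T.Λ ^ 2)) ^ n) (c := (3 * T.Λ ^ 2) ^ n)
    (card_int _ (u.2 / K) (by norm_num) fun p hp => ?_)
    (card_lattice _ (K⁻¹ • u.1) (by nlinarith) fun p hp => ?_)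
    (card_lattice _ 0 (by nlinarith) fun p hp => ?_)).trans ?_
  · simp only [mem_image, mem_filter] at hp
    obtain ⟨_, ⟨c, ⟨-, z, hz, hzu⟩, rfl⟩, rfl⟩ := hp
    have h1 := ht c z hz
    have h2 : |z.2 - u.2| ≤ K := (le_max_right _ _).trans hzu
    simp only [cell]
    rw [show ((c.1 / (T.k : ℤ) ^ j : ℤ) : ℝ) - u.2 / K =
      ((z.2 - u.2) - (z.2 - ((c.1 / (T.k : ℤ) ^ j : ℤ) : ℝ) * K)) / K by field_simp; ring,
      abs_div, abs_of_pos (by linarith : 0 < K), div_le_iff₀ (by positivity)]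
    exact (abs_sub _ _).trans (by linarith)
  · simp only [mem_image, mem_filter] at hp
    obtain ⟨_, ⟨c, ⟨hc, z, hz, hzu⟩, rfl⟩, rfl⟩ := hp
    have h1 := ht c z hz
    have h2 : ‖z.1 - u.1‖ ≤ K := by rw [← dist_eq_norm]; exact (le_max_left _ _).trans hzu
    have h3 : ‖z.1 - ps T.k 0 c z.2‖ ≤ T.Λ := by simpa using hz.2
    have h4 := T.fqb 0 (Nat.zero_le _) c hc
    simp only [cell, zero_add, mul_zero, ← hK]
    set t₀ := ((c.1 / (T.k : ℤ) ^ j : ℤ) : ℝ) * K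
    have h5 : ‖ps T.k 0 c t₀ - ps T.k 0 c z.2‖ ≤ 2 * K * T.Λ ^ 2 := by
      rw [ps_sub _ _ _ t₀ z.2, sub_sub_cancel_left, norm_neg, norm_smul, Real.norm_eq_abs, abs_mul,
        abs_sub_comm, abs_two]
      gcongr
    have h6 : ‖ps T.k 0 c t₀ - u.1‖ ≤ 4 * T.Λ ^ 2 * K := by
      refine (norm_sub_le_norm_sub_add_norm_sub _ (ps T.k 0 c z.2) _).trans ?_
      have := norm_sub_le_norm_sub_add_norm_sub (ps T.k 0 c z.2) z.1 u.1
      rw [norm_sub_rev] at h3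
      have e1 : T.Λ ≤ T.Λ ^ 2 * K := by nlinarith
      have e2 : K ≤ T.Λ ^ 2 * K := le_mul_of_one_le_left (by linarith) (by nlinarith)
      linarith
    refine (norm_sub_le_norm_sub_add_norm_sub _ (K⁻¹ • ps T.k 0 c t₀) _).trans ?_
    rw [norm_sub_rev, ← smul_sub, norm_smul, Real.norm_of_nonneg (by positivity)]
    have e1 := norm_sub_iv_fl (K⁻¹ • ps T.k 0 c t₀)
    have e2 : K⁻¹ * ‖ps T.k 0 c t₀ - u.1‖ ≤ 4 * T.Λ ^ 2 := by
      rw [inv_mul_le_iff₀ (by linarith)]; linarith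
    nlinarith
  · simp only [mem_image, mem_filter] at hp
    obtain ⟨_, ⟨c, ⟨hc, -⟩, rfl⟩, rfl⟩ := hp
    simpa [fq, cell] using T.fqb 0 (Nat.zero_le _) c hc
  · rw [pow_succ' (T.k : ℝ), two_mul n, pow_add]
    gcongr <;> nlinarith

lemma prof_ge {R : ℝ} {X : Finset (V n × ℝ)} {T : Tw n M} (hD : Dat R X T) (hM : 1 ≤ M)
    (hn : 1 ≤ n) (hR : 1 ≤ R) {r : ℝ} {j : ℕ} (hr : (T.k : ℝ) ^ j ≤ T.k * r) :
    (T.k : ℝ) ^ (lprof n M j - (n + 1)) ≤ prof n R r := by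
  obtain ⟨hk, -⟩ := hD.facts hM
  have hk1 : (1 : ℝ) < T.k := by exact_mod_cast hk
  have hk0 : (0 : ℝ) < T.k := by linarith
  have hn0 : (0 : ℝ) ≤ n := Nat.cast_nonneg n
  have h1 : (T.k : ℝ) ^ ((j : ℝ) - 1) ≤ r := by
    rw [Real.rpow_sub_one hk0.ne', Real.rpow_natCast, div_le_iff₀' hk0]; exact hr
  have h2 : ∀ m : ℕ, (T.k : ℝ) ^ (((j : ℝ) - 1) * m) ≤ r ^ m := fun m => by
    rw [Real.rpow_mul hk0.le, Real.rpow_natCast]; gcongr
  have hS : Ssc n R ^ (n - 1) ≤ (T.k : ℝ) ^ (((n : ℝ) - 1) * (M / ((n : ℝ) + 1))) := by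
    rw [mul_comm, Real.rpow_mul hk0.le, show (n : ℝ) - 1 = ((n - 1 : ℕ) : ℝ) by
      rw [Nat.cast_sub hn]; simp, Real.rpow_natCast]
    refine pow_le_pow_left₀ (by unfold Ssc; positivity) ?_ _
    refine (Real.rpow_le_rpow (by linarith) hD.hi.le (by positivity)).trans (le_of_eq ?_)
    rw [← Real.rpow_natCast, ← Real.rpow_mul hk0.le]
    congr 1; push_cast; field_simp
  have hS0 : 0 < Ssc n R ^ (n - 1) := by unfold Ssc; positivity
  have hr0 : 0 ≤ r := le_trans (by positivity) h1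
  unfold lprof prof
  rcases max_cases (j : ℝ) (max ((n : ℝ) * j - ((n : ℝ) - 1) * (M / ((n : ℝ) + 1)))
    (((n : ℝ) + 1) * j - M)) with h | h
  · rw [h.1]
    exact le_max_of_le_left ((Real.rpow_le_rpow_of_exponent_le hk1.le (by linarith)).trans h1)
  rw [h.1]
  refine le_max_of_le_right ?_
  rcases max_cases ((n : ℝ) * j - ((n : ℝ) - 1) * (M / ((n : ℝ) + 1)))
    (((n : ℝ) + 1) * j - M) with h | h
  · rw [h.1]
    refine le_max_of_le_left (le_trans ?_ (div_le_div₀ (by positivity) (h2 n) hS0 hS))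
    rw [← Real.rpow_sub hk0]
    exact Real.rpow_le_rpow_of_exponent_le hk1.le (by linarith)
  · rw [h.1]
    refine le_max_of_le_right (le_trans ?_ (div_le_div₀ (by positivity) (h2 (n + 1))
      (Real.sqrt_pos.2 (by linarith)) (sqrt_bounds hD hM).1))
    rw [← Real.rpow_natCast _ M, ← Real.rpow_sub hk0]
    exact Real.rpow_le_rpow_of_exponent_le hk1.le (by push_cast; linarith)

/-- a thin slab gives global narrowness -/
lemma nar_of_slab {R : ℝ} {X : Finset (V n × ℝ)} {T : Tw n M} (hD : Dat R X T) (hM : 1 ≤ M)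
    (hn : 1 ≤ n) (hR : 1 ≤ R) {H : L2 n} (hS : Supp T H) {ν : V n} (hν : ‖ν‖ = 1) {c δ : ℝ}
    (hδ : 0 ≤ δ) (hH : ∀ᵐ ξ : V n, R ^ δ / Real.sqrt R < |⟪ν, ξ⟫ - c| → H ξ = 0) {j : ℕ}
    (hj : j + 2 * δ * M + 1 ≤ M) : T.Nar 0 j (n - 1) := by
  obtain ⟨hk, hΛ, hΛM, -⟩ := hD.facts hM
  have hk1 : (1 : ℝ) < T.k := by exact_mod_cast hk
  have hk0 : (0 : ℝ) < T.k := by linarith
  have hM0 : (0 : ℝ) ≤ M := Nat.cast_nonneg M
  have hjM : j ≤ M := by
    have : 0 ≤ 2 * δ * M := by positivity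
    exact_mod_cast (show (j : ℝ) ≤ M by linarith)
  obtain ⟨O, hO⟩ := exists_onb hn hν
  refine fun c₀ _ => ⟨O, c • ν, fun c' hc' _ l hl => ?_⟩
  obtain ⟨ξ, hξ, h1⟩ := supp_near hS (by omega) (by linarith) hjM hc'
    (E := {ξ | |⟪ν, ξ⟫ - c| ≤ R ^ δ / Real.sqrt R}) (hH.mono fun ξ h hξ => h (not_le.1 hξ))
  have h2 : R ^ δ / Real.sqrt R ≤ 1 / (T.k : ℝ) ^ j := by
    rw [div_le_div_iff₀ (Real.sqrt_pos.2 (by linarith)) (by positivity), one_mul]
    refine le_of_mul_le_mul_left (le_trans ?_ (sqrt_bounds hD hM).2) hk0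
    have e1 : R ^ δ ≤ (T.k : ℝ) ^ (2 * δ * M) := by
      refine (Real.rpow_le_rpow (by linarith) hD.hi.le hδ).trans (le_of_eq ?_)
      rw [← Real.rpow_natCast, ← Real.rpow_mul hk0.le]
      congr 1; push_cast; ring
    calc _ ≤ (T.k : ℝ) ^ (2 * δ * M) * (T.k : ℝ) ^ j * T.k := by rw [mul_comm]; gcongr
      _ ≤ _ := by
        rw [← Real.rpow_natCast, ← Real.rpow_add hk0, ← Real.rpow_add_one hk0.ne',
          ← Real.rpow_natCast]
        exact Real.rpow_le_rpow_of_exponent_le hk1.le (by linarith)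
  have e1 : ⟪ν, fq T.k j c' - c • ν⟫ = (⟪ν, ξ⟫ - c) - ⟪ν, ξ - fq T.k j c'⟫ := by
    rw [inner_sub_right, inner_sub_right, real_inner_smul_right, real_inner_self_eq_norm_sq, hν]
    ring
  have e2 : |⟪ν, ξ - fq T.k j c'⟫| ≤ T.Λ * (M + 1) / (T.k : ℝ) ^ j :=
    (abs_real_inner_le_norm _ _).trans (by rw [hν, one_mul]; exact h1)
  rw [hO l hl, e1]
  refine (abs_sub _ _).trans ((add_le_add (le_trans hξ h2) e2).trans ?_)
  rw [← add_div]
  gcongr
  nlinarith [hD.std.Λ_ge.2.2.1]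

end Wr

open Wr in
theorem ti1_of (hB : Build n) (hT : TIa n) (hP : Plank n) (hn : 1 ≤ n) : B.TI1 n := by
  classical
  obtain ⟨θ, c, hθ, -, hc0, hT⟩ := tia' hT
  intro α hα
  have hα4 : 0 < α / 4 := by positivity
  obtain ⟨S, hS, hpar⟩ := params hθ hα4
  obtain ⟨C₁, hpl⟩ := plank_T hn hP hS
  obtain ⟨η₀, hη₀, j₀, hpar⟩ := hpar C₁ n
  have hη : 0 < min η₀ (α / 4) := lt_min hη₀ hα4
  obtain ⟨δ₀, M₀, hδ₀, hT⟩ := hT _ hη
  set δ := min (min δ₀ 1) (α / (2 * (c + 1))) with hδdef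
  have hδ : 0 < δ := lt_min (lt_min hδ₀ one_pos) (by positivity)
  have hδ1 : δ ≤ 1 := (min_le_left _ _).trans (min_le_right _ _)
  have hδ2 : δ ≤ δ₀ := (min_le_left _ _).trans (min_le_left _ _)
  have hδ3 : c * δ ≤ α / 2 := by
    refine (mul_le_mul_of_nonneg_left (min_le_right _ _) hc0).trans ?_
    rw [← mul_div_assoc, div_le_div_iff₀ (by positivity) (by norm_num)]
    nlinarith
  obtain ⟨M₁, hM₁⟩ := exists_nat_mul_ge hδ 2
  obtain ⟨M₂, hM₂⟩ := exists_nat_mul_ge hα4 (4 * n + 3 + 2 * c)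
  set j := M₀ + M₁ + M₂ + j₀ + 4 with hj
  set M := S * j with hM
  have hjM : j ≤ M := Nat.le_mul_of_pos_left _ hS
  obtain ⟨C, hC, h⟩ := core hn hB (hT M (by omega)) hδ hδ1 (hM₁ M (by omega))
  refine ⟨δ / 4, C, by positivity, hC, fun R hR X hX H _ ν c₀ hν hH r hr hrR hcov => ?_⟩
  refine h R hR X hX H fun T hD hcon hc hS' => ?_
  have hM1 : 1 ≤ M := by omega
  obtain ⟨hk, -, -, -, -, hkR⟩ := hD.facts hM1
  have hk1 : (1 : ℝ) < T.k := by exact_mod_cast hk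
  have hk0 : (0 : ℝ) < T.k := by linarith
  obtain ⟨p1, p2, p3⟩ := hpar _ (min_le_left η₀ (α / 4)) j M (by omega) hM
  have hM0 : (0 : ℝ) ≤ M := Nat.cast_nonneg M
  have hM4 : (4 : ℝ) ≤ M := by exact_mod_cast (show 4 ≤ M by omega)
  have hcon' := hcon (crit_mono hδ2 hc)
  obtain ⟨G, y₀, h1, -⟩ := hpl M j hM (by omega) R X hX T hD θ c _ hη.le p1 hcon' p2 _
    (Real.rpow_le_rpow_of_exponent_le hk1.le p3)
  have hc0' : (0 : ℝ) < (T.al 0).card := by exact_mod_cast T.ne.card_pos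
  have h2 : 2 * M * n - α / 4 * M - n ≤ T.C (T.al 0) := by
    rw [Tw.C, le_lg_iff T hk hc0', Real.rpow_sub hk0, Real.rpow_sub hk0, div_div,
      div_le_iff₀' (by positivity), Real.rpow_natCast,
      show (2 * M * n : ℝ) = ((2 * M * n : ℕ) : ℝ) by push_cast; ring, Real.rpow_natCast,
      mul_assoc _ _ ((T.al 0).card : ℝ)]
    refine h1.trans (mul_le_mul_of_nonneg_left ?_ (by positivity))
    exact (Nat.cast_le.2 (card_filter_le _ _)).trans (card_X0_le hX hD hM1)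
  obtain ⟨j₁, hj₁, hj₁'⟩ : ∃ j₁ : ℕ, j₁ + 2 * (δ / 4) * M + 1 ≤ M ∧
      (M : ℝ) - j₁ ≤ δ / 2 * M + 2 := by
    have e1 : 0 ≤ (M : ℝ) - (δ / 2 * M + 1) := by nlinarith
    refine ⟨⌊(M : ℝ) - (δ / 2 * M + 1)⌋₊, by linarith [Nat.floor_le e1], ?_⟩
    linarith [Nat.lt_floor_add_one ((M : ℝ) - (δ / 2 * M + 1))]
  have hnar := nar_of_slab hD hM1 hn hR hS' hν (by positivity) hH hj₁
  have hj₁M : j₁ ≤ M := by
    have : 0 ≤ 2 * (δ / 4) * M := by positivity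
    exact_mod_cast (show (j₁ : ℝ) ≤ M by linarith)
  obtain ⟨l, hl1, hl2, hl3⟩ := exists_level hk hr
  have hlM : l ≤ M := by
    have := hl3 M (by rw [Real.rpow_natCast]; exact hrR.trans (sqrt_bounds hD hM1).1)
    exact Nat.lt_succ_iff.1 (by exact_mod_cast this)
  have h3 := hcon'.2.2.2 j₁ hj₁M hnar l hlM
  have h4 : T.cc 0 l (T.al 0) ≤ 2 * M * n - α * M - (lprof n M l - (n + 1)) + (2 * n + 1) := by
    rw [Tw.cc, lg_le_iff T hk (by exact_mod_cast (T.ne.image _).card_pos)]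
    refine (card_cells hD hM1 hl1 hcov).trans ?_
    rw [Real.rpow_add hk0, show (2 * n + 1 : ℝ) = ((2 * n + 1 : ℕ) : ℝ) by push_cast; ring,
      Real.rpow_natCast, Real.rpow_sub hk0 (_ - _)]
    refine mul_le_mul_of_nonneg_right (div_le_div₀ (by positivity) ?_ (by positivity)
      (prof_ge hD hM1 hn hR hl2)) (by positivity)
    rw [Real.rpow_sub (by linarith), Real.rpow_sub hk0, Real.rpow_natCast,
      show (2 * M * n : ℝ) = ((2 * M * n : ℕ) : ℝ) by push_cast; ring, Real.rpow_natCast,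
      mul_comm α, Real.rpow_mul hk0.le, Real.rpow_natCast]
    refine div_le_div₀ (by positivity) ?_ (by positivity) (by gcongr)
    rw [pow_mul]; exact pow_le_pow_left₀ (by linarith) hD.hi.le _
  have h5 := hM₂ M (by omega)
  have h6 : min η₀ (α / 4) * M ≤ α / 4 * M := mul_le_mul_of_nonneg_right (min_le_right _ _) hM0
  have h7 : c * ((M : ℝ) - j₁) ≤ c * (δ / 2 * M + 2) := mul_le_mul_of_nonneg_left hj₁' hc0
  have h8 : c * δ * M ≤ α / 2 * M := mul_le_mul_of_nonneg_right hδ3 hM0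
  linarith

/-- **Theorem I** from its abstract form -/
theorem ti_of (hB : Build n) (hT : TIa n) (hP : Plank n) (hn : 2 ≤ n) :
    B.TI1 n ∧ TI2 n ∧ TI3 n :=
  ⟨ti1_of hB hT hP (by omega), ti2_of hB hT hP (by omega), ti3_of hB hT (by omega)⟩

end Crest.Agent.N76.L
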