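import Crest.Agent.N76.G.Tail
import Crest.Agent.N76.G.Iso
import Crest.Agent.N76.G.Avg
import Crest.Agent.N76.L.Cnt

-- ▼ part N76/T/Defs
section

/-! # Row 76 (S0101): tiles, alive sets and masses of a Gaussian tower (helper13). -/

set_option autoImplicit false

open MeasureTheory Set Metric
open scoped ENNReal RealInnerProductSpace

namespace Crest.Agent.N76.T

open Crest.Agent.N76.Red (V)
open Crest.Agent.N76.G

/-- lattice cell of phase space: (position index, frequency index) -/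
abbrev Cell (d : ℕ) := (Fin d → ℤ) × (Fin d → ℤ)

/-- node of one level: (time window, cell) -/
abbrev Node (d : ℕ) := ℤ × Cell d

variable {d : ℕ}

/-- cell of the line `β` in the frame of width `a` at time `t` -/
noncomputable def idx (a t : ℝ) (β : Ph d) : Cell d :=
  (fun i => ⌊pos t β i / a⌋, fun i => ⌊a * β.2 i⌋)

/-- left end point of window `k` of level `j` -/
noncomputable def tk (b j : ℕ) (k : ℤ) : ℝ := (k : ℝ) * (b : ℝ) ^ (2 * j)

/-- the tile (a set of lines, volume one) of a level `j` node -/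
def tile (b j : ℕ) (ν : Node d) : Set (Ph d) := {β | idx ((b : ℝ) ^ j) (tk b j ν.1) β = ν.2}

/-- external set `A` cut down to the alive tiles -/
def Aset (b : ℕ) (A : ℕ → ℤ → Set (Ph d)) (al : ℕ → Finset (Node d)) (j : ℕ) (k : ℤ) :
    Set (Ph d) :=
  A j k ∩ {β | (k, idx ((b : ℝ) ^ j) (tk b j k) β) ∈ al j}

/-- the level `j` coefficient function in window `k` of the tower with sets `A` -/
noncomputable def coef (b : ℕ) (A : ℕ → ℤ → Set (Ph d)) (M : ℕ) (h : L2 d) (j : ℕ) (k : ℤ) :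
    Ph d → ℂ :=
  co ((b : ℝ) ^ j) (tk b j k) (tower b A (j + 1) M h (tk b j k))

/-- mass of the level `j` node `ν` (it depends only on the alive sets of levels `> j`) -/
noncomputable def mass (b : ℕ) (A : ℕ → ℤ → Set (Ph d)) (al : ℕ → Finset (Node d)) (M : ℕ)
    (h : L2 d) (j : ℕ) (ν : Node d) : ℝ :=
  ∫ β in A j ν.1 ∩ tile b j ν, ‖coef b (Aset b A al) M h j ν.1 β‖ ^ 2

/-- the dimension free constant of the tail estimates -/
noncomputable def C0 : ℝ := 16 * Real.exp (12 * Real.pi)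

end Crest.Agent.N76.T
end

-- ▼ part N76/T/Tile
section

/-! # Row 76 (S0101): tiles have volume one; sup bounds for syntheses (helper13). -/

set_option autoImplicit false

open MeasureTheory Set Metric
open scoped ENNReal RealInnerProductSpace

namespace Crest.Agent.N76.T

open Crest.Agent.N76.Red (V)
open Crest.Agent.N76.G

variable {d : ℕ}

theorem measurable_idx (a t : ℝ) : Measurable (idx a t : Ph d → Cell d) := by
  have h1 := (continuous_pos (d := d) t).measurable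
  refine Measurable.prodMk (measurable_pi_lambda _ fun i => ?_) (measurable_pi_lambda _ fun i => ?_)
  · refine Measurable.floor ?_
    exact ((EuclideanSpace.proj (𝕜 := ℝ) i).continuous.measurable.comp h1).div_const a
  · refine Measurable.floor ?_
    exact (((EuclideanSpace.proj (𝕜 := ℝ) i).continuous.measurable.comp measurable_snd)).const_mul a

theorem measurableSet_idx (a t : ℝ) (S : Set (Cell d)) :
    MeasurableSet {β : Ph d | idx a t β ∈ S} :=
  measurable_idx a t (MeasurableSet.of_discrete)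

theorem measurableSet_tile (b j : ℕ) (ν : Node d) : MeasurableSet (tile b j ν) :=
  measurableSet_idx _ _ {ν.2}

theorem measurableSet_Aset (b : ℕ) {A : ℕ → ℤ → Set (Ph d)} (hA : ∀ j k, MeasurableSet (A j k))
    (al : ℕ → Finset (Node d)) (j : ℕ) (k : ℤ) : MeasurableSet (Aset b A al j k) :=
  (hA j k).inter (measurableSet_idx _ _ {c | (k, c) ∈ al j})

theorem volume_cube {a : ℝ} (ha : 0 < a) (y : Fin d → ℤ) (u : V d) :
    volume {x : V d | ∀ i, ⌊(x - u) i / a⌋ = y i} = ENNReal.ofReal (a ^ d) := by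
  have h := (PiLp.volume_preserving_toLp (Fin d))
  have hm : MeasurableSet {x : V d | ∀ i, ⌊(x - u) i / a⌋ = y i} := by
    rw [ofPred_forall]
    refine MeasurableSet.iInter fun i => ?_
    have : Measurable fun x : V d => ⌊(x - u) i / a⌋ :=
      (((EuclideanSpace.proj (𝕜 := ℝ) i).continuous.measurable.comp
        (measurable_id.sub_const u)).div_const a).floor
    exact this (measurableSet_singleton _)
  rw [← h.measure_preimage hm.nullMeasurableSet]
  have : (WithLp.toLp 2 ⁻¹' {x : V d | ∀ i, ⌊(x - u) i / a⌋ = y i}) =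
      Set.pi univ fun i => Ico (u i + y i * a) (u i + (y i + 1) * a) := by
    ext x
    simp only [mem_preimage, mem_ofPred_eq, PiLp.sub_apply, mem_pi, mem_univ, true_imp_iff, mem_Ico,
      Int.floor_eq_iff, le_div_iff₀ ha, div_lt_iff₀ ha]
    refine forall_congr' fun i => ?_
    constructor <;> rintro ⟨h1, h2⟩ <;> constructor <;> linarith
  rw [this, Real.volume_pi_Ico]
  simp only [add_sub_add_left_eq_sub]
  rw [show (fun i => ENNReal.ofReal (((y i : ℝ) + 1) * a - y i * a)) = fun _ => ENNReal.ofReal a from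
    funext fun i => by congr 1; ring]
  rw [Finset.prod_const, Finset.card_univ, Fintype.card_fin, ENNReal.ofReal_pow ha.le]

theorem volume_idx {a : ℝ} (ha : 0 < a) (t : ℝ) (c : Cell d) :
    volume {β : Ph d | idx a t β = c} = 1 := by
  have hm : MeasurableSet {β : Ph d | idx a t β = c} := measurableSet_idx a t {c}
  rw [Measure.volume_eq_prod, Measure.prod_apply_symm hm]
  have h1 : ∀ ζ : V d, volume ((fun y : V d => (y, ζ)) ⁻¹' {β : Ph d | idx a t β = c}) =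
      {ζ : V d | ∀ i, ⌊(ζ - 0) i / a⁻¹⌋ = c.2 i}.indicator (fun _ => ENNReal.ofReal (a ^ d)) ζ := by
    intro ζ
    by_cases hζ : ζ ∈ {ζ : V d | ∀ i, ⌊(ζ - 0) i / a⁻¹⌋ = c.2 i}
    · rw [indicator_of_mem hζ, ← volume_cube ha c.1 ((2 * t) • ζ)]
      congr 1
      ext y
      simp only [mem_ofPred_eq, sub_zero, div_inv_eq_mul] at hζ
      simp only [mem_preimage, mem_ofPred_eq, idx, pos, Prod.ext_iff, funext_iff]
      exact and_iff_left fun i => by rw [mul_comm]; exact hζ i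
    · rw [indicator_of_notMem hζ]
      convert measure_empty (μ := (volume : Measure (V d)))
      ext y
      simp only [mem_ofPred_eq, sub_zero, div_inv_eq_mul] at hζ
      simp only [mem_preimage, mem_ofPred_eq, idx, pos, Prod.ext_iff, funext_iff, mem_empty_iff_false,
        iff_false, not_and]
      exact fun _ h => hζ fun i => by rw [mul_comm]; exact h i
  simp_rw [h1]
  have hm2 : MeasurableSet {ζ : V d | ∀ i, ⌊(ζ - 0) i / a⁻¹⌋ = c.2 i} := by
    rw [ofPred_forall]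
    refine MeasurableSet.iInter fun i => ?_
    have : Measurable fun x : V d => ⌊(x - 0) i / a⁻¹⌋ :=
      (((EuclideanSpace.proj (𝕜 := ℝ) i).continuous.measurable.comp
        (measurable_id.sub_const 0)).div_const a⁻¹).floor
    exact this (measurableSet_singleton _)
  rw [lintegral_indicator_const hm2, volume_cube (inv_pos.2 ha), ← ENNReal.ofReal_mul (by positivity),
    ← mul_pow, mul_inv_cancel₀ ha.ne', one_pow, ENNReal.ofReal_one]

theorem volume_tile {b : ℕ} (hb : 1 ≤ b) (j : ℕ) (ν : Node d) : volume (tile b j ν) = 1 :=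
  volume_idx (pow_pos (by exact_mod_cast hb) j) _ _

theorem norm_le_of_coord {x : V d} {r : ℝ} (_hr : 0 ≤ r) (h : ∀ i, |x i| ≤ r) :
    ‖x‖ ^ 2 ≤ d * r ^ 2 := by
  rw [EuclideanSpace.norm_sq_eq]
  calc ∑ i, ‖x i‖ ^ 2 ≤ ∑ _i : Fin d, r ^ 2 :=
        Finset.sum_le_sum fun i _ => pow_le_pow_left₀ (norm_nonneg _) (h i) 2
    _ = d * r ^ 2 := by simp

theorem abs_sub_lt_of_floor_eq {x y : ℝ} (h : ⌊x⌋ = ⌊y⌋) : |x - y| ≤ 1 :=
  (Int.abs_sub_lt_one_of_floor_eq_floor h).le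

/-- two lines of one cell are close -/
theorem close_of_idx_eq {a : ℝ} (ha : 0 < a) {t : ℝ} {β β' : Ph d} (h : idx a t β = idx a t β') :
    ‖pos t (β - β')‖ ^ 2 ≤ d * a ^ 2 ∧ ‖(β - β').2‖ ^ 2 ≤ d * (1 / a) ^ 2 := by
  simp only [idx, Prod.ext_iff, funext_iff] at h
  refine ⟨norm_le_of_coord ha.le fun i => ?_, norm_le_of_coord (by positivity) fun i => ?_⟩
  · have := abs_sub_lt_of_floor_eq (h.1 i)
    rw [← sub_div, abs_div, abs_of_pos ha, div_le_one ha] at this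
    rw [pos_sub]; exact this
  · have := abs_sub_lt_of_floor_eq (h.2 i)
    rw [← mul_sub, abs_mul, abs_of_pos ha] at this
    rw [le_div_iff₀ ha, mul_comm]; exact this

theorem pos_eq_pos (t t' : ℝ) (β : Ph d) : pos t β = pos t' β - (2 * (t - t')) • β.2 := by
  simp only [pos, sub_sub, ← add_smul]; congr 2; ring

theorem Qf_le_of_idx_eq {a a' t t' : ℝ} (ha : 0 < a) (haa : a ≤ a') (ht : |t - t'| ≤ a' ^ 2)
    {β β' : Ph d} (h : idx a' t' β = idx a' t' β') : Qf a t a' t' (β - β') ≤ 13 * d - d := by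
  have ha' : 0 < a' := ha.trans_le haa
  obtain ⟨h1, h2⟩ := close_of_idx_eq ha' h
  set Δ := β - β'
  have hd : (0 : ℝ) ≤ d := Nat.cast_nonneg d
  have h2' : a' ^ 2 * ‖Δ.2‖ ^ 2 ≤ d := by
    calc a' ^ 2 * ‖Δ.2‖ ^ 2 ≤ a' ^ 2 * (d * (1 / a') ^ 2) := by gcongr
      _ = (d : ℝ) := by field_simp
  have h3 : ‖pos t Δ‖ ≤ ‖pos t' Δ‖ + 2 * a' * (a' * ‖Δ.2‖) := by
    rw [pos_eq_pos t t']
    refine (norm_sub_le _ _).trans ?_
    rw [norm_smul, Real.norm_eq_abs, abs_mul, abs_two]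
    have : 2 * |t - t'| * ‖Δ.2‖ ≤ 2 * a' ^ 2 * ‖Δ.2‖ := by gcongr
    nlinarith
  have h4 : ‖pos t Δ‖ ^ 2 ≤ 9 * d * a' ^ 2 := by
    have e1 : ‖pos t' Δ‖ ≤ Real.sqrt d * a' := by
      refine (pow_le_pow_iff_left₀ (norm_nonneg _) (by positivity) two_ne_zero).1 ?_
      rw [mul_pow, Real.sq_sqrt hd]; exact h1
    have e2 : a' * ‖Δ.2‖ ≤ Real.sqrt d := by
      refine (pow_le_pow_iff_left₀ (by positivity) (by positivity) two_ne_zero).1 ?_
      rw [mul_pow, Real.sq_sqrt hd]; exact h2'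
    have e3 : ‖pos t Δ‖ ≤ 3 * (Real.sqrt d * a') := by nlinarith
    calc ‖pos t Δ‖ ^ 2 ≤ (3 * (Real.sqrt d * a')) ^ 2 := by gcongr
      _ = 9 * d * a' ^ 2 := by rw [mul_pow, mul_pow, Real.sq_sqrt hd]; ring
  have hs : a' ^ 4 ≤ sig a t a' t' := by unfold sig; nlinarith [sq_nonneg (t - t'), sq_nonneg a, sq_nonneg a', mul_nonneg (sq_nonneg a) (sq_nonneg a')]
  unfold Qf
  rw [div_le_iff₀ (sig_pos ha t t')]
  have haa2 : a ^ 2 ≤ a' ^ 2 := by gcongr
  have e4 : a' ^ 2 * ‖pos t Δ‖ ^ 2 ≤ 9 * d * a' ^ 4 := by nlinarith [sq_nonneg a']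
  have e5 : a ^ 2 * ‖pos t' Δ‖ ^ 2 ≤ d * a' ^ 4 := by
    calc a ^ 2 * ‖pos t' Δ‖ ^ 2 ≤ a' ^ 2 * (d * a' ^ 2) := by gcongr
      _ = d * a' ^ 4 := by ring
  have e6 : a ^ 2 * a' ^ 2 * (a ^ 2 + a' ^ 2) * ‖Δ.2‖ ^ 2 ≤ 2 * d * a' ^ 4 := by
    calc a ^ 2 * a' ^ 2 * (a ^ 2 + a' ^ 2) * ‖Δ.2‖ ^ 2
        = a ^ 2 * (a ^ 2 + a' ^ 2) * (a' ^ 2 * ‖Δ.2‖ ^ 2) := by ring
      _ ≤ a' ^ 2 * (a' ^ 2 + a' ^ 2) * d := by gcongr
      _ = 2 * d * a' ^ 4 := by ring
  nlinarith

theorem Qf_add_le (a t a' t' : ℝ) (u v : Ph d) :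
    Qf a t a' t' (u + v) ≤ 2 * Qf a t a' t' u + 2 * Qf a t a' t' v := by
  have key : ∀ x y : V d, ‖x + y‖ ^ 2 ≤ 2 * ‖x‖ ^ 2 + 2 * ‖y‖ ^ 2 := fun x y => by
    have := norm_add_le x y
    nlinarith [norm_nonneg (x + y), norm_nonneg x, norm_nonneg y, sq_nonneg (‖x‖ - ‖y‖)]
  have hp : ∀ s, pos s (u + v) = pos s u + pos s v := fun s => by
    simp only [pos, Prod.fst_add, Prod.snd_add, smul_add]; abel
  unfold Qf
  rw [hp, hp, Prod.snd_add, ← mul_div_assoc, ← mul_div_assoc, ← add_div]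
  refine div_le_div_of_nonneg_right ?_ (by unfold sig; positivity)
  have h1 := mul_le_mul_of_nonneg_left (key (pos t u) (pos t v)) (sq_nonneg a')
  have h2 := mul_le_mul_of_nonneg_left (key (pos t' u) (pos t' v)) (sq_nonneg a)
  have h3 := mul_le_mul_of_nonneg_left (key u.2 v.2)
    (show 0 ≤ a ^ 2 * a' ^ 2 * (a ^ 2 + a' ^ 2) by positivity)
  linarith

theorem inv_pre_sq_le {a a' t t' : ℝ} (ha : 0 < a) (haa : a ≤ a') (ht : |t - t'| ≤ a' ^ 2) :
    1 / pre d a t a' t' ^ 2 ≤ (2 * a' / a) ^ d := by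
  have ha' : 0 < a' := ha.trans_le haa
  have hs := sig_pos (a' := a') ha t t'
  have h1 : sig a t a' t' ≤ 8 * a' ^ 4 := by
    unfold sig
    have : (t - t') ^ 2 ≤ (a' ^ 2) ^ 2 := by rw [← sq_abs]; gcongr
    have haa2 : a ^ 2 ≤ a' ^ 2 := by gcongr
    have : (a ^ 2 + a' ^ 2) ^ 2 ≤ (a' ^ 2 + a' ^ 2) ^ 2 := by gcongr
    nlinarith
  have h2 : ((a / (2 * a')) ^ 2 : ℝ) ≤ 4 * a ^ 2 * a' ^ 2 / sig a t a' t' := by
    rw [le_div_iff₀ hs]
    calc (a / (2 * a')) ^ 2 * sig a t a' t' ≤ (a / (2 * a')) ^ 2 * (16 * a' ^ 4) := by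
          gcongr; nlinarith [pow_pos ha' 4]
      _ = 4 * a ^ 2 * a' ^ 2 := by field_simp; ring
  have h3 : (a / (2 * a')) ^ d ≤ pre d a t a' t' ^ 2 := by
    rw [pre, ← Real.rpow_natCast (_ ^ _) 2, ← Real.rpow_mul (by positivity)]
    calc (a / (2 * a')) ^ d = (((a / (2 * a')) ^ 2 : ℝ)) ^ ((d : ℝ) / 4 * (2 : ℕ)) := by
          rw [← Real.rpow_natCast _ 2, ← Real.rpow_mul (by positivity), ← Real.rpow_natCast]
          congr 1; push_cast; ring
      _ ≤ _ := Real.rpow_le_rpow (by positivity) h2 (by positivity)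
  rw [div_le_iff₀ (pow_pos (pre_pos ha ha' t t') 2)]
  calc (1 : ℝ) = (2 * a' / a) ^ d * (a / (2 * a')) ^ d := by
        rw [← mul_pow, show 2 * a' / a * (a / (2 * a')) = 1 by field_simp, one_pow]
    _ ≤ _ := by gcongr

theorem pre_sq_le {a a' : ℝ} (ha : 0 < a) (ha' : 0 < a') (t t' : ℝ) :
    pre d a t a' t' ^ 2 ≤ (2 * a / a') ^ d := by
  have hs := sig_pos (a' := a') ha t t'
  have hs' : a' ^ 4 ≤ sig a t a' t' := by
    unfold sig
    nlinarith [sq_nonneg (t - t'), sq_nonneg a, sq_nonneg a', mul_nonneg (sq_nonneg a) (sq_nonneg a')]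
  have h2 : 4 * a ^ 2 * a' ^ 2 / sig a t a' t' ≤ ((2 * a / a') ^ 2 : ℝ) := by
    rw [div_le_iff₀ hs]
    calc 4 * a ^ 2 * a' ^ 2 = (2 * a / a') ^ 2 * a' ^ 4 := by field_simp; ring
      _ ≤ _ := by gcongr
  rw [pre, ← Real.rpow_natCast (_ ^ _) 2, ← Real.rpow_mul (by positivity)]
  calc _ ≤ (((2 * a / a') ^ 2 : ℝ)) ^ ((d : ℝ) / 4 * (2 : ℕ)) :=
        Real.rpow_le_rpow (by positivity) h2 (by positivity)
    _ = _ := by
        rw [← Real.rpow_natCast _ 2, ← Real.rpow_mul (by positivity), ← Real.rpow_natCast]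
        congr 1; push_cast; ring

/-- basic pointwise bound -/
theorem enorm_co_syn_le' {a a' : ℝ} (ha : 0 < a) (ha' : 0 < a') (t t' : ℝ) {c : Ph d → ℂ}
    (hc : MemLp c 2 volume) (β : Ph d) :
    ‖co a t (syn a' t' c) β‖ₑ ≤ ∫⁻ β', ENNReal.ofReal (pre d a t a' t' *
      Real.exp (-Real.pi * 1 * Qf a t a' t' (β - β'))) * ‖c β'‖ₑ := by
  rw [co, inner_syn ha' t' hc]
  refine (enorm_integral_le_lintegral_enorm _).trans (lintegral_mono fun β' => ?_)
  rw [enorm_mul, ← ofReal_norm, norm_inner_gam ha ha', mul_one]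

theorem lintegral_ker {a a' : ℝ} (ha : 0 < a) (ha' : 0 < a') (t t' : ℝ) {s C : ℝ} (hs : 0 < s)
    (hC : 0 ≤ C) (β : Ph d) :
    ∫⁻ β', ENNReal.ofReal (C * Real.exp (-Real.pi * s * Qf a t a' t' (β - β'))) =
      ENNReal.ofReal (C * ((2 / s) ^ d / pre d a t a' t' ^ 2)) := by
  rw [lintegral_sub_left_eq_self
    (fun Δ => ENNReal.ofReal (C * Real.exp (-Real.pi * s * Qf a t a' t' Δ))),
    lintegral_exp_Qf ha ha' t t' hs hC]

/-- propagation of sup bounds -/
theorem sup_step {a a' t t' : ℝ} (ha : 0 < a) (haa : a ≤ a') (ht : |t - t'| ≤ a' ^ 2)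
    {c : Ph d → ℂ} (hc : MemLp c 2 volume) {s : ℝ} (hs0 : 0 ≤ s) (hs : ∀ β', ‖c β'‖ ≤ s) (β : Ph d) :
    ‖co a t (syn a' t' c) β‖ ≤ (4 * a' / a) ^ d * s := by
  have ha' : 0 < a' := ha.trans_le haa
  have hp := pre_pos (d := d) ha ha' t t'
  have h1 := enorm_co_syn_le' ha ha' t t' hc β
  have h2 : ∫⁻ β', ENNReal.ofReal (pre d a t a' t' *
      Real.exp (-Real.pi * 1 * Qf a t a' t' (β - β'))) * ‖c β'‖ₑ ≤
      ∫⁻ β', ENNReal.ofReal (pre d a t a' t' * s *
      Real.exp (-Real.pi * 1 * Qf a t a' t' (β - β'))) := by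
    refine lintegral_mono fun β' => ?_
    rw [← ofReal_norm, ← ENNReal.ofReal_mul (by positivity)]
    refine ENNReal.ofReal_le_ofReal ?_
    rw [mul_right_comm]
    gcongr
    exact hs β'
  rw [lintegral_ker ha ha' t t' one_pos (by positivity)] at h2
  have h3 := h1.trans h2
  rw [← ofReal_norm, ENNReal.ofReal_le_ofReal_iff (by positivity)] at h3
  refine h3.trans ?_
  have h4 := inv_pre_sq_le (d := d) ha haa ht
  have h5 := pre_le_one (d := d) ha ha' t t'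
  calc pre d a t a' t' * s * ((2 / 1) ^ d / pre d a t a' t' ^ 2)
      = pre d a t a' t' * s * (2 ^ d * (1 / pre d a t a' t' ^ 2)) := by ring
    _ ≤ 1 * s * (2 ^ d * (2 * a' / a) ^ d) := by gcongr
    _ = (4 * a' / a) ^ d * s := by rw [← mul_pow]; ring_nf

/-- if every cell carries mass at most `μ`, the synthesis is pointwise small -/
theorem tile_sup {a a' t t' : ℝ} (ha : 0 < a) (haa : a ≤ a') (ht : |t - t'| ≤ a' ^ 2)
    {c : Ph d → ℂ} (hc : MemLp c 2 volume) (hcm : Measurable c) {μ : ℝ} (hμ0 : 0 ≤ μ)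
    (hμ : ∀ q : Cell d, ∫ β' in {β' | idx a' t' β' = q}, ‖c β'‖ ^ 2 ≤ μ) (β : Ph d) :
    ‖co a t (syn a' t' c) β‖ ^ 2 ≤ (C0 * a' / a) ^ d * μ := by
  have ha' : 0 < a' := ha.trans_le haa
  have hp := pre_pos (d := d) ha ha' t t'
  have hQ := (continuous_Qf (d := d) a t a' t').measurable
  set P := pre d a t a' t'
  set k : Ph d → ℝ≥0∞ := fun β' => ENNReal.ofReal (P *
      Real.exp (-Real.pi * 1 * Qf a t a' t' (β - β'))) with hk
  have hkm : Measurable k := by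
    refine ENNReal.measurable_ofReal.comp ?_
    exact ((hQ.comp (measurable_const.sub measurable_id)).const_mul _).exp.const_mul _
  set E : ℝ := Real.exp (Real.pi * (13 * d - d))
  set g : Ph d → ℝ≥0∞ := fun β' => ENNReal.ofReal (P * E *
      Real.exp (-Real.pi * (1 / 2) * Qf a t a' t' (β - β'))) with hg
  have hgm : Measurable g := by
    refine ENNReal.measurable_ofReal.comp ?_
    exact ((hQ.comp (measurable_const.sub measurable_id)).const_mul _).exp.const_mul _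
  set R : Set (Ph d × Ph d) := {q | idx a' t' q.1 = idx a' t' q.2}
  have hR : MeasurableSet R :=
    measurableSet_eq_fun ((measurable_idx a' t').comp measurable_fst)
      ((measurable_idx a' t').comp measurable_snd)
  have hmt : ∀ q : Cell d, MeasurableSet {β' : Ph d | idx a' t' β' = q} :=
    fun q => measurableSet_idx a' t' {q}
  have h1 : ∀ β', k β' ≤ ∫⁻ β'', R.indicator (fun q => g q.2) (β', β'') := by
    intro β'
    have e : (fun β'' => R.indicator (fun q => g q.2) (β', β'')) =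
        {β'' | idx a' t' β'' = idx a' t' β'}.indicator g := by
      funext β''
      by_cases h : idx a' t' β'' = idx a' t' β'
      · rw [indicator_of_mem (show (β', β'') ∈ R from h.symm), indicator_of_mem (by exact h)]
      · rw [indicator_of_notMem (show (β', β'') ∉ R from fun h' => h h'.symm),
          indicator_of_notMem (by exact h)]
    rw [e, lintegral_indicator (hmt _)]
    calc k β' = ∫⁻ _ in {β'' | idx a' t' β'' = idx a' t' β'}, k β' := by
          rw [setLIntegral_const, volume_idx ha', mul_one]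
      _ ≤ _ := by
          refine setLIntegral_mono' (hmt _) fun β'' hβ'' => ENNReal.ofReal_le_ofReal ?_
          rw [mul_assoc P E, ← Real.exp_add]
          refine mul_le_mul_of_nonneg_left (Real.exp_le_exp.2 ?_) hp.le
          have e1 := Qf_add_le a t a' t' (β - β') (β' - β'')
          rw [sub_add_sub_cancel] at e1
          have e2 := Qf_le_of_idx_eq ha haa ht (show idx a' t' β' = idx a' t' β'' from hβ''.symm)
          nlinarith [Real.pi_pos]
  have hcm2 : Measurable fun β' => ‖c β'‖ₑ ^ 2 := hcm.enorm.pow_const 2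
  have h2 : ∫⁻ β', k β' * ‖c β'‖ₑ ^ 2 ≤ (∫⁻ β'', g β'') * ENNReal.ofReal μ := by
    calc ∫⁻ β', k β' * ‖c β'‖ₑ ^ 2
        ≤ ∫⁻ β', ∫⁻ β'', R.indicator (fun q => g q.2) (β', β'') * ‖c β'‖ₑ ^ 2 := by
          refine lintegral_mono fun β' => ?_
          rw [lintegral_mul_const (f := fun β'' => R.indicator (fun q => g q.2) (β', β'')) _
            (((hgm.comp measurable_snd).indicator hR).comp measurable_prodMk_left)]
          exact mul_le_mul' (h1 β') le_rfl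
      _ = ∫⁻ β'', ∫⁻ β', R.indicator (fun q => g q.2) (β', β'') * ‖c β'‖ₑ ^ 2 := by
          refine lintegral_lintegral_swap ?_
          exact (((hgm.comp measurable_snd).indicator hR).mul (hcm2.comp measurable_fst)).aemeasurable
      _ ≤ ∫⁻ β'', g β'' * ENNReal.ofReal μ := by
          refine lintegral_mono fun β'' => ?_
          have e : (fun β' => R.indicator (fun q => g q.2) (β', β'') * ‖c β'‖ₑ ^ 2) =
              {β' | idx a' t' β' = idx a' t' β''}.indicator fun β' => g β'' * ‖c β'‖ₑ ^ 2 := by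
            funext β'
            by_cases h : idx a' t' β' = idx a' t' β''
            · rw [indicator_of_mem (show (β', β'') ∈ R from h), indicator_of_mem (by exact h)]
            · rw [indicator_of_notMem (show (β', β'') ∉ R from h), indicator_of_notMem (by exact h),
                zero_mul]
          rw [e, lintegral_indicator (hmt _), lintegral_const_mul _ hcm2]
          refine mul_le_mul' le_rfl ?_
          rw [lintegral_enorm_sq_eq (hc.restrict _)]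
          exact ENNReal.ofReal_le_ofReal (hμ _)
      _ = _ := lintegral_mul_const _ hgm
  have h3 := (pow_le_pow_left₀ zero_le (enorm_co_syn_le' ha ha' t t' hc β) 2).trans
    ((lintegral_weight_sq_le hkm.aemeasurable hcm.enorm.aemeasurable).trans
      (mul_le_mul' le_rfl h2))
  rw [hk, hg, lintegral_ker ha ha' t t' one_pos hp.le,
    lintegral_ker ha ha' t t' (by norm_num) (by positivity), ← ENNReal.ofReal_mul (by positivity),
    ← ENNReal.ofReal_mul (by positivity), ← ofReal_norm, ← ENNReal.ofReal_pow (norm_nonneg _),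
    ENNReal.ofReal_le_ofReal_iff (by positivity)] at h3
  refine h3.trans ?_
  have h4 := inv_pre_sq_le (d := d) ha haa ht
  have hE : E = Real.exp (12 * Real.pi) ^ d := by
    rw [← Real.exp_nat_mul]; exact congrArg Real.exp (by ring)
  calc P * ((2 / 1) ^ d / P ^ 2) * (P * E * ((2 / (1 / 2)) ^ d / P ^ 2) * μ)
      = 2 ^ d * 4 ^ d * E * (1 / P ^ 2) * μ := by norm_num; field_simp
    _ ≤ 2 ^ d * 4 ^ d * E * (2 * a' / a) ^ d * μ := by gcongr
    _ = (C0 * a' / a) ^ d * μ := by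
        rw [hE, ← mul_pow, ← mul_pow, ← mul_pow, C0]; congr 2; ring_nf

end Crest.Agent.N76.T
end

-- ▼ part N76/T/Decomp
section

/-! # Row 76 (S0101): word decomposition of a Gaussian tower with a generic statistic (helper13). -/

set_option autoImplicit false

open MeasureTheory Set Metric
open scoped ENNReal RealInnerProductSpace

namespace Crest.Agent.N76.T

open Crest.Agent.N76.Red (V)
open Crest.Agent.N76.G

variable {d : ℕ}

theorem wt_eq_tk (b j : ℕ) (t : ℝ) : wt b j t = tk b j (win b j t) := rfl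

theorem wt_le {b : ℕ} (hb : 1 ≤ b) (j : ℕ) (t : ℝ) :
    wt b j t ≤ t ∧ t < wt b j t + (b : ℝ) ^ (2 * j) := by
  have hb' : (0 : ℝ) < (b : ℝ) ^ (2 * j) := pow_pos (by exact_mod_cast hb) _
  unfold wt win
  constructor
  · rw [← le_div_iff₀ hb']; exact Int.floor_le _
  · have := Int.lt_floor_add_one (t / (b : ℝ) ^ (2 * j))
    rw [div_lt_iff₀ hb'] at this
    linarith

theorem win_tk_self {b : ℕ} (hb : 1 ≤ b) (j : ℕ) (k : ℤ) : win b j (tk b j k) = k := by
  have hb' : (0 : ℝ) < (b : ℝ) ^ (2 * j) := pow_pos (by exact_mod_cast hb) _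
  unfold win tk
  rw [mul_div_cancel_right₀ _ hb'.ne', Int.floor_intCast]

theorem wt_succ_le {b : ℕ} (hb : 1 ≤ b) (j : ℕ) (t : ℝ) : wt b (j + 1) t ≤ wt b j t := by
  have h1 : win b (j + 1) (wt b j t) = win b (j + 1) t :=
    win_of_win_eq hb (Nat.le_succ j) (win_tk_self hb j _)
  have h2 := (wt_le hb (j + 1) (wt b j t)).1
  rwa [wt, h1] at h2

/-- width of the frame below level `j` -/
noncomputable def fa (b : ℕ) : ℕ → ℝ
  | 0 => 1
  | j + 1 => (b : ℝ) ^ j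

/-- time of the frame below level `j` -/
noncomputable def ft (b : ℕ) (t : ℝ) : ℕ → ℝ
  | 0 => t
  | j + 1 => wt b j t

theorem fa_facts {b : ℕ} (hb : 1 ≤ b) (j : ℕ) (t : ℝ) :
    0 < fa b j ∧ fa b j ≤ (b : ℝ) ^ j ∧ (b : ℝ) ^ j / fa b j ≤ b ∧
      |ft b t j - wt b j t| ≤ ((b : ℝ) ^ j) ^ 2 := by
  have hb1 : (1 : ℝ) ≤ b := by exact_mod_cast hb
  have hb0 : (0 : ℝ) < b := by linarith
  have h1 := wt_le hb j t
  rw [← pow_mul, mul_comm j 2]
  cases j with
  | zero =>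
    refine ⟨one_pos, by simp [fa], by simpa [fa] using hb1, ?_⟩
    rw [ft, abs_le]; constructor <;> nlinarith [h1.1, h1.2, pow_pos hb0 (2 * 0)]
  | succ j =>
    refine ⟨pow_pos hb0 _, pow_le_pow_right₀ hb1 (Nat.le_succ j), ?_, ?_⟩
    · rw [fa, pow_succ, mul_div_cancel_left₀ _ (pow_pos hb0 j).ne']
    · have h2 := wt_succ_le hb j t
      have h3 := (wt_le hb j t).1
      rw [ft, abs_le]; constructor <;> nlinarith [h1.1, h1.2, pow_pos hb0 (2 * (j + 1))]

theorem sup_tw {b : ℕ} (hb : 1 ≤ b) {A : ℕ → ℤ → Set (Ph d)} (hA : ∀ j k, MeasurableSet (A j k))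
    (t : ℝ) (j : ℕ) : ∀ (H : L2 d) (s : ℝ), 0 ≤ s → (∀ β, ‖co (fa b j) (ft b t j) H β‖ ≤ s) →
      ∀ β, ‖co 1 t (tw (lev b A t) 0 j H) β‖ ≤ ((4 * b) ^ d) ^ j * s := by
  induction j with
  | zero => intro H s _ h β; simpa [tw, fa, ft] using h β
  | succ j ih =>
    intro H s hs h β
    obtain ⟨h1, h2, h3, h4⟩ := fa_facts hb j t
    have hb0 : (0 : ℝ) < (b : ℝ) ^ j := h1.trans_le h2
    rw [tw_succ', zero_add, pow_succ, mul_assoc]
    refine ih _ _ (by positivity) (fun β' => ?_) β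
    refine (sup_step h1 h2 h4 (memLp_indicator_co hb0 _ (hA _ _) H) hs (fun β'' => ?_) β').trans ?_
    · exact (norm_indicator_le_norm_self _ _).trans (h β'')
    · rw [mul_div_assoc]; gcongr

theorem four_le_C0 : 4 ≤ C0 := by
  have := Real.one_le_exp (show 0 ≤ 12 * Real.pi by positivity)
  unfold C0; linarith

theorem tiny_bound {b : ℕ} (hb : 1 ≤ b) {A : ℕ → ℤ → Set (Ph d)}
    (hA : ∀ j k, MeasurableSet (A j k)) (z : V d × ℝ) {j M : ℕ} (hj : j ≤ M) (H : L2 d)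
    {T : Set (Ph d)} (hT : MeasurableSet T) {μ : ℝ} (hμ0 : 0 ≤ μ)
    (hμ : ∀ q : Cell d, ∫ β in T ∩ {β | idx ((b : ℝ) ^ j) (wt b j z.2) β = q},
      ‖co ((b : ℝ) ^ j) (wt b j z.2) H β‖ ^ 2 ≤ μ) :
    ‖inner ℂ (pt z) (tw (lev b A z.2) 0 j (loc ((b : ℝ) ^ j) (wt b j z.2) T H))‖ ^ 2 ≤
      (C0 * b) ^ (d * (2 * M + 1)) * μ := by
  obtain ⟨h1, h2, h3, h4⟩ := fa_facts hb j z.2
  have hb0 : (0 : ℝ) < (b : ℝ) ^ j := h1.trans_le h2
  have hb1 : (1 : ℝ) ≤ b := by exact_mod_cast hb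
  have hC := four_le_C0
  have h5 : ∀ β, ‖co (fa b j) (ft b z.2 j) (loc ((b : ℝ) ^ j) (wt b j z.2) T H) β‖ ≤
      Real.sqrt ((C0 * b) ^ d * μ) := fun β => by
    refine Real.le_sqrt_of_sq_le ?_
    refine (tile_sup h1 h2 h4 (memLp_indicator_co hb0 _ hT H)
      ((continuous_co' hb0 _ H).measurable.indicator hT) hμ0 (fun q => ?_) β).trans ?_
    · refine le_trans (le_of_eq ?_) (hμ q)
      rw [inter_comm, ← setIntegral_indicator hT]
      refine integral_congr_ae (Filter.Eventually.of_forall fun β' => ?_)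
      by_cases h : β' ∈ T <;> simp [h]
    · rw [mul_div_assoc]; gcongr
  have h6 := sup_tw hb hA z.2 j _ _ (Real.sqrt_nonneg _) h5 (z.1, 0)
  refine (pow_le_pow_left₀ (norm_nonneg _) h6 2).trans ?_
  rw [mul_pow, Real.sq_sqrt (by positivity), ← mul_assoc]
  refine mul_le_mul_of_nonneg_right ?_ hμ0
  calc (((4 * (b : ℝ)) ^ d) ^ j) ^ 2 * (C0 * b) ^ d ≤ (((C0 * b) ^ d) ^ j) ^ 2 * (C0 * b) ^ d := by
        gcongr
    _ = (C0 * b) ^ (d * (2 * j + 1)) := by rw [← pow_mul, ← pow_mul, ← pow_add]; congr 1; ring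
    _ ≤ _ := pow_le_pow_right₀ (by nlinarith) (by gcongr)

theorem tw_add {b : ℕ} (hb : 1 ≤ b) {A : ℕ → ℤ → Set (Ph d)} (hA : ∀ j k, MeasurableSet (A j k))
    (t : ℝ) (m : ℕ) : ∀ (i : ℕ) (H H' : L2 d),
      tw (lev b A t) i m (H + H') = tw (lev b A t) i m H + tw (lev b A t) i m H' := by
  induction m with
  | zero => intro i H H'; rfl
  | succ m ih =>
    intro i H H'
    rw [tw, tw, tw, ih]
    exact loc_add (pow_pos (by exact_mod_cast hb) i) _ (hA _ _) _ _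

theorem tw_sum {b : ℕ} (hb : 1 ≤ b) {A : ℕ → ℤ → Set (Ph d)} (hA : ∀ j k, MeasurableSet (A j k))
    (t : ℝ) (i m : ℕ) {κ : Type*} (s : Finset κ) (H : κ → L2 d) :
    tw (lev b A t) i m (∑ o ∈ s, H o) = ∑ o ∈ s, tw (lev b A t) i m (H o) :=
  map_sum (AddMonoidHom.mk' (tw (lev b A t) i m) (tw_add hb hA t m i)) H s

theorem loc_partition {a : ℝ} (ha : 0 < a) (t : ℝ) {A : Set (Ph d)} (hA : MeasurableSet A)
    {O : Type*} [Fintype O] (cl : Cell d → O) (H : L2 d) :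
    loc a t A H = ∑ o, loc a t (A ∩ {β | cl (idx a t β) = o}) H := by
  classical
  unfold loc
  rw [← syn_sum ha t _ (c := fun o => (A ∩ {β | cl (idx a t β) = o}).indicator (co a t H))
    fun o _ => memLp_indicator_co ha t (hA.inter (measurableSet_idx a t {c | cl c = o})) H]
  congr 1
  funext β
  rw [Finset.sum_apply, Finset.sum_eq_single (cl (idx a t β))]
  · by_cases h : β ∈ A
    · rw [indicator_of_mem h]
      exact (indicator_of_mem (s := A ∩ {β' | cl (idx a t β') = cl (idx a t β)}) ⟨h, rfl⟩ _).symm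
    · rw [indicator_of_notMem h, indicator_of_notMem fun h' => h h'.1]
  · exact fun o _ ho => indicator_of_notMem (fun h' => ho h'.2.symm) _
  · simp

theorem tower_Aset_congr (b : ℕ) (A : ℕ → ℤ → Set (Ph d)) {al al' : ℕ → Finset (Node d)} {i : ℕ}
    (hal : ∀ l, i ≤ l → al l = al' l) (M : ℕ) (h : L2 d) (t : ℝ) :
    tower b (Aset b A al) i M h t = tower b (Aset b A al') i M h t := by
  refine tw_congr _ _ (fun l hl => ?_) h
  unfold lev Aset
  rw [hal l hl]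

theorem mass_congr (b : ℕ) (A : ℕ → ℤ → Set (Ph d)) {al al' : ℕ → Finset (Node d)} {i : ℕ}
    (hal : ∀ l, i < l → al l = al' l) (M : ℕ) (h : L2 d) (ν : Node d) :
    mass b A al M h i ν = mass b A al' M h i ν := by
  unfold mass coef
  rw [tower_Aset_congr b A (i := i + 1) (fun l hl => hal l hl)]

theorem sum_mass_le' {b : ℕ} (hb : 1 ≤ b) {A : ℕ → ℤ → Set (Ph d)}
    (hA : ∀ j k, MeasurableSet (A j k)) (al : ℕ → Finset (Node d)) (M : ℕ) (h : L2 d) (j : ℕ)
    (k : ℤ) (S : Finset (Node d)) (hS : ∀ ν ∈ S, ν.1 = k) :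
    ∑ ν ∈ S, mass b A al M h j ν ≤ ‖h‖ ^ 2 := by
  have hb0 : (0 : ℝ) < (b : ℝ) ^ j := pow_pos (by exact_mod_cast hb) _
  have hi := Iso.integrable_co_sq hb0 (tk b j k) (tower b (Aset b A al) (j + 1) M h (tk b j k))
  have h1 : ∑ ν ∈ S, mass b A al M h j ν =
      ∫ β in ⋃ ν ∈ S, A j k ∩ tile b j ν, ‖coef b (Aset b A al) M h j k β‖ ^ 2 := by
    rw [integral_biUnion_finset (f := fun β => ‖coef b (Aset b A al) M h j k β‖ ^ 2) S
      (fun ν _ => (hA j k).inter (measurableSet_tile b j ν)) ?_ fun ν _ => hi.integrableOn]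
    · exact Finset.sum_congr rfl fun ν hν => by rw [mass, hS ν hν]
    · intro ν hν ν' hν' hne
      refine disjoint_left.2 fun β h1 h2 => hne (Prod.ext ((hS ν hν).trans (hS ν' hν').symm) ?_)
      have e1 := h1.2
      have e2 := h2.2
      simp only [tile, mem_ofPred_eq, hS ν hν, hS ν' hν'] at e1 e2
      exact e1.symm.trans e2
  rw [h1]
  refine (setIntegral_le_integral hi (Filter.Eventually.of_forall fun β => by positivity)).trans ?_
  rw [integral_co_sq hb0]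
  exact pow_le_pow_left₀ (norm_nonneg _)
    (norm_tower_le hb (measurableSet_Aset b hA al) _ _ _ _) 2

theorem finite_heavy {b : ℕ} (hb : 1 ≤ b) {A : ℕ → ℤ → Set (Ph d)}
    (hA : ∀ j k, MeasurableSet (A j k)) (al : ℕ → Finset (Node d)) (M : ℕ) (h : L2 d) (j : ℕ)
    (Wn : Finset ℤ) {μ : ℝ} (hμ : 0 < μ) :
    {ν : Node d | ν.1 ∈ Wn ∧ μ ≤ mass b A al M h j ν}.Finite := by
  have h1 : ∀ k : ℤ, {ν : Node d | ν.1 = k ∧ μ ≤ mass b A al M h j ν}.Finite := fun k => by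
    by_contra hinf
    obtain ⟨n, hn⟩ := exists_nat_gt (‖h‖ ^ 2 / μ)
    obtain ⟨S, hS, hc⟩ := Set.Infinite.exists_subset_card_eq hinf n
    have h2 := sum_mass_le' hb hA al M h j k S fun ν hν => (hS hν).1
    have h3 := Finset.card_nsmul_le_sum S _ μ fun ν hν => (hS hν).2
    rw [hc, nsmul_eq_mul] at h3
    rw [div_lt_iff₀ hμ] at hn
    linarith
  refine (Set.Finite.biUnion Wn.finite_toSet fun k _ => h1 k).subset fun ν hν => ?_
  exact mem_biUnion hν.1 ⟨rfl, hν.2⟩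

theorem exists_dyadic {L : ℕ} {q : ℝ} (h1 : 1 ≤ q) (h2 : q ≤ 2 ^ L) :
    ∃ n : Fin (L + 1), (2 : ℝ) ^ (n : ℕ) ≤ q ∧ q ≤ 2 * 2 ^ (n : ℕ) := by
  obtain ⟨n, hn1, hn2⟩ := exists_nat_pow_near h1 (one_lt_two (α := ℝ))
  have : n ≤ L := (pow_le_pow_iff_right₀ (one_lt_two (α := ℝ))).1 (hn1.trans h2)
  exact ⟨⟨n, by omega⟩, hn1, by rw [pow_succ'] at hn2; exact hn2.le⟩

/-- the uniformity produced by the word decomposition on the levels `j … M` -/
structure Unif {ι κ : Type*} (b : ℕ) (A : ℕ → ℤ → Set (Ph d)) (M : ℕ) (h : L2 d) (X : Finset κ)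
    (p : κ → V d × ℝ) (τ : ℝ) (σ : ℕ → (ℕ → Finset (Node d)) → Node d → ι)
    (j : ℕ) (al : ℕ → Finset (Node d)) (amp : ℕ → ℝ) : Prop where
  top : ∀ i, M < i → al i = ∅
  low : ∀ i, j ≤ i → i ≤ M → τ * ‖h‖ ^ 2 ≤ amp i
  ge : ∀ i, j ≤ i → ∀ ν ∈ al i, amp i ≤ mass b A al M h i ν
  le : ∀ i, j ≤ i → ∀ ν ∈ al i, mass b A al M h i ν ≤ 2 * amp i
  window : ∀ i, j ≤ i → ∀ ν ∈ al i, ∃ z ∈ X, win b i (p z).2 = ν.1
  stat : ∀ i, j ≤ i → ∀ ν ∈ al i, ∀ ν' ∈ al i, σ i al ν = σ i al ν'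

theorem decomp_step {ι κ : Type*} [Fintype ι] {b : ℕ} (hb : 1 ≤ b) {A : ℕ → ℤ → Set (Ph d)}
    (hA : ∀ j k, MeasurableSet (A j k)) {M : ℕ} {h : L2 d} (hh : h ≠ 0) (X : Finset κ)
    (p : κ → V d × ℝ) (w : κ → ℝ) (hw : ∀ z ∈ X, 0 ≤ w z) {τ : ℝ} (hτ : 0 < τ) {L : ℕ}
    (hL : 1 ≤ τ * 2 ^ L) (σ : ℕ → (ℕ → Finset (Node d)) → Node d → ι)
    (hσ : ∀ j al al', (∀ i, j < i → al i = al' i) → σ j al = σ j al')
    {j : ℕ} (hj : j ≤ M) {al : ℕ → Finset (Node d)} {amp : ℕ → ℝ}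
    (hU : Unif b A M h X p τ σ (j + 1) al amp) :
    ∃ al' amp', Unif b A M h X p τ σ j al' amp' ∧
      En X p w (fun z => tw (lev b A (p z).2) 0 (j + 1)
          (tower b (Aset b A al) (j + 1) M h (p z).2)) ≤
        (((L + 1) * Fintype.card ι + 1 : ℕ) : ℝ) ^ 2 *
          (En X p w (fun z => tw (lev b A (p z).2) 0 j (tower b (Aset b A al') j M h (p z).2)) +
            (∑ z ∈ X, w z) * ((C0 * b) ^ (d * (2 * M + 1)) * (τ * ‖h‖ ^ 2))) := by
  classical
  have hb0 : (0 : ℝ) < (b : ℝ) ^ j := pow_pos (by exact_mod_cast hb) _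
  have hn : 0 < ‖h‖ ^ 2 := pow_pos (norm_pos_iff.2 hh) 2
  set μ := τ * ‖h‖ ^ 2 with hμdef
  have hμ : 0 < μ := mul_pos hτ hn
  have hC : 0 ≤ C0 := le_trans (by norm_num) four_le_C0
  have hdy : ∀ ν : Node d, ∃ n : Fin (L + 1), μ ≤ mass b A al M h j ν →
      2 ^ (n : ℕ) * μ ≤ mass b A al M h j ν ∧ mass b A al M h j ν ≤ 2 * (2 ^ (n : ℕ) * μ) := by
    intro ν
    by_cases hν : μ ≤ mass b A al M h j ν
    · have h1 := sum_mass_le' hb hA al M h j ν.1 {ν} (by simp)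
      rw [Finset.sum_singleton] at h1
      obtain ⟨n, h2, h3⟩ := exists_dyadic (L := L) (q := mass b A al M h j ν / μ)
        ((one_le_div hμ).2 hν) (by rw [div_le_iff₀ hμ, hμdef]; nlinarith)
      rw [le_div_iff₀ hμ] at h2
      rw [div_le_iff₀ hμ] at h3
      exact ⟨n, fun _ => ⟨h2, by linarith⟩⟩
    · exact ⟨0, fun h' => absurd h' hν⟩
  choose dy hdy using hdy
  set cl : Node d → Option (Fin (L + 1) × ι) :=
    fun ν => if μ ≤ mass b A al M h j ν then some (dy ν, σ j al ν) else none with hcl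
  set Wn := X.image fun z => win b j (p z).2
  have hfin := finite_heavy hb hA al M h j Wn hμ
  set F : Option (Fin (L + 1) × ι) → κ → L2 d := fun o z => tw (lev b A (p z).2) 0 j
    (loc ((b : ℝ) ^ j) (wt b j (p z).2) (A j (win b j (p z).2) ∩
      {β | cl (win b j (p z).2, idx ((b : ℝ) ^ j) (wt b j (p z).2) β) = o})
      (tower b (Aset b A al) (j + 1) M h (p z).2)) with hF
  obtain ⟨o, -, ho⟩ := Finset.exists_max_image Finset.univ (fun o => En X p w (F o))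
    Finset.univ_nonempty
  set al' := Function.update al j (hfin.toFinset.filter fun ν => cl ν = o) with hal'
  have hal1 : ∀ l, j < l → al l = al' l := fun l hl => by
    rw [hal', Function.update_of_ne hl.ne']
  have hal2 : ∀ ν, ν ∈ al' j ↔ (ν.1 ∈ Wn ∧ μ ≤ mass b A al M h j ν) ∧ cl ν = o := fun ν => by
    rw [hal', Function.update_self, Finset.mem_filter, Set.Finite.mem_toFinset]; rfl
  set a0 : ℝ := Option.elim o μ fun c => 2 ^ (c.1 : ℕ) * μ with ha0
  have hcases : ∀ i, j ≤ i → i = j ∨ j + 1 ≤ i := fun i hi => by omega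
  have hm : ∀ i, j ≤ i → ∀ ν, mass b A al' M h i ν = mass b A al M h i ν := fun i hi ν =>
    (mass_congr b A (fun l hl => hal1 l (by omega)) M h ν).symm
  have hkey : ∀ ν ∈ al' j, o = some (dy ν, σ j al ν) ∧ a0 = 2 ^ (dy ν : ℕ) * μ ∧
      μ ≤ mass b A al M h j ν := fun ν hν => by
    obtain ⟨⟨-, h1⟩, h2⟩ := (hal2 ν).1 hν
    have h3 : o = some (dy ν, σ j al ν) := by rw [← h2, hcl]; exact if_pos h1
    exact ⟨h3, by rw [ha0, h3]; rfl, h1⟩
  refine ⟨al', Function.update amp j a0, ⟨fun i hi => ?_, fun i hi hiM => ?_, fun i hi ν hν => ?_,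
    fun i hi ν hν => ?_, fun i hi ν hν => ?_, fun i hi ν hν ν' hν' => ?_⟩, ?_⟩
  · rw [← hal1 i (by omega), hU.top i hi]
  · rcases hcases i hi with rfl | hi'
    · rw [Function.update_self, ha0]
      cases o with
      | none => exact le_rfl
      | some c => exact le_mul_of_one_le_left hμ.le (one_le_pow₀ one_le_two)
    · rw [Function.update_of_ne (by omega)]; exact hU.low i hi' hiM
  · rw [hm i hi]
    rcases hcases i hi with rfl | hi'
    · obtain ⟨-, h1, h2⟩ := hkey ν hν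
      rw [Function.update_self, h1]; exact (hdy ν h2).1
    · rw [Function.update_of_ne (by omega)]
      exact hU.ge i hi' ν (by rwa [hal1 i (by omega)])
  · rw [hm i hi]
    rcases hcases i hi with rfl | hi'
    · obtain ⟨-, h1, h2⟩ := hkey ν hν
      rw [Function.update_self, h1]; exact (hdy ν h2).2
    · rw [Function.update_of_ne (by omega)]
      exact hU.le i hi' ν (by rwa [hal1 i (by omega)])
  · rcases hcases i hi with rfl | hi'
    · obtain ⟨z, hz, e⟩ := Finset.mem_image.1 ((hal2 ν).1 hν).1.1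
      exact ⟨z, hz, e⟩
    · exact hU.window i hi' ν (by rwa [hal1 i (by omega)])
  · rw [← hσ i al al' fun l hl => hal1 l (by omega)]
    rcases hcases i hi with rfl | hi'
    · have h1 := (hkey ν hν).1.symm.trans (hkey ν' hν').1
      exact (Prod.ext_iff.1 (Option.some.inj h1)).2
    · exact hU.stat i hi' ν (by rwa [hal1 i (by omega)]) ν' (by rwa [hal1 i (by omega)])
  set N : ℝ := (((L + 1) * Fintype.card ι + 1 : ℕ) : ℝ) with hN
  have hcard : (Fintype.card (Option (Fin (L + 1) × ι)) : ℝ) = N := by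
    rw [hN, Fintype.card_option, Fintype.card_prod, Fintype.card_fin]
  have hN0 : 0 ≤ N := Nat.cast_nonneg _
  have h1 : En X p w (fun z => tw (lev b A (p z).2) 0 (j + 1)
      (tower b (Aset b A al) (j + 1) M h (p z).2)) ≤ N * ∑ o', En X p w (F o') := by
    unfold En
    rw [Finset.sum_comm, Finset.mul_sum]
    refine Finset.sum_le_sum fun z hz => ?_
    rw [← Finset.mul_sum, mul_left_comm]
    refine mul_le_mul_of_nonneg_left ?_ (hw z hz)
    beta_reduce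
    rw [tw_succ', zero_add, lev, loc_partition hb0 _ (hA _ _) (fun c => cl (win b j (p z).2, c)),
      tw_sum hb hA, inner_sum]
    refine (pow_le_pow_left₀ (norm_nonneg _) (norm_sum_le _ _) 2).trans ?_
    refine sq_sum_le_card_mul_sum_sq.trans (le_of_eq ?_)
    rw [Finset.card_univ, hcard]
  have h2 : ∑ o', En X p w (F o') ≤ N * En X p w (F o) := by
    have := Finset.sum_le_card_nsmul Finset.univ (fun o' => En X p w (F o')) _ ho
    rwa [nsmul_eq_mul, Finset.card_univ, hcard] at this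
  have hEn0 : ∀ H : κ → L2 d, 0 ≤ En X p w H := fun H =>
    Finset.sum_nonneg fun z hz => mul_nonneg (hw z hz) (by positivity)
  have hW : 0 ≤ ∑ z ∈ X, w z := Finset.sum_nonneg hw
  have h3 : En X p w (F o) ≤
      En X p w (fun z => tw (lev b A (p z).2) 0 j (tower b (Aset b A al') j M h (p z).2)) +
        (∑ z ∈ X, w z) * ((C0 * b) ^ (d * (2 * M + 1)) * μ) := by
    have htw : ∀ t : ℝ, tower b (Aset b A al) (j + 1) M h t =
        tower b (Aset b A al) (j + 1) M h (tk b j (win b j t)) := fun t =>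
      tower_congr hb _ M h (win_of_win_eq hb (Nat.le_succ j) (win_tk_self hb j _).symm)
    by_cases hon : o = none
    · refine le_add_of_nonneg_of_le (hEn0 _) ?_
      rw [En, Finset.sum_mul]
      refine Finset.sum_le_sum fun z hz => mul_le_mul_of_nonneg_left ?_ (hw z hz)
      refine tiny_bound hb hA (p z) hj _ (T := A j (win b j (p z).2) ∩
        {β | cl (win b j (p z).2, idx ((b : ℝ) ^ j) (wt b j (p z).2) β) = o})
        ((hA _ _).inter (measurableSet_idx _ _ {c | cl (win b j (p z).2, c) = o})) hμ.le fun q => ?_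
      by_cases hq : μ ≤ mass b A al M h j (win b j (p z).2, q)
      · have : A j (win b j (p z).2) ∩ {β | cl (win b j (p z).2,
            idx ((b : ℝ) ^ j) (wt b j (p z).2) β) = o} ∩
            {β | idx ((b : ℝ) ^ j) (wt b j (p z).2) β = q} = ∅ := by
          refine eq_empty_of_forall_notMem fun β hβ => ?_
          have e1 := hβ.1.2
          have e2 := hβ.2
          simp only [mem_ofPred_eq] at e1 e2
          rw [e2, hon, hcl] at e1
          simp only [if_pos hq] at e1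
          exact Option.some_ne_none _ e1
        rw [this, setIntegral_empty]; exact hμ.le
      · refine le_trans ?_ (not_le.1 hq).le
        rw [mass, coef, ← htw]
        refine setIntegral_mono_set (Iso.integrable_co_sq hb0 _ _).integrableOn
          (Filter.Eventually.of_forall fun β => by positivity) ?_
        exact Filter.Eventually.of_forall fun β hβ => ⟨hβ.1.1, hβ.2⟩
    · refine le_add_of_le_of_nonneg (le_of_eq ?_) (by positivity)
      refine Finset.sum_congr rfl fun z hz => ?_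
      have e : A j (win b j (p z).2) ∩
          {β | cl (win b j (p z).2, idx ((b : ℝ) ^ j) (wt b j (p z).2) β) = o} =
          Aset b A al' j (win b j (p z).2) := by
        unfold Aset
        congr 1
        ext β
        rw [mem_ofPred_eq, mem_ofPred_eq, hal2, wt_eq_tk]
        refine ⟨fun h' => ⟨⟨Finset.mem_image_of_mem _ hz, ?_⟩, h'⟩, fun h' => h'.2⟩
        by_contra hc
        rw [hcl] at h'
        simp only [if_neg hc] at h'
        exact hon h'.symm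
      simp only [hF]
      rw [e, tower_eq_loc b _ hj, lev,
        tower_Aset_congr b A (i := j + 1) (fun l hl => hal1 l hl)]
  calc _ ≤ N * (N * En X p w (F o)) := h1.trans (mul_le_mul_of_nonneg_left h2 hN0)
    _ = N ^ 2 * En X p w (F o) := by ring
    _ ≤ _ := mul_le_mul_of_nonneg_left h3 (by positivity)

/-- **Word decomposition.**  `σ j al` may depend on the alive sets of the levels `> j` only. -/
theorem decomp {ι κ : Type*} [Fintype ι] {b : ℕ} (hb : 1 ≤ b) {A : ℕ → ℤ → Set (Ph d)}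
    (hA : ∀ j k, MeasurableSet (A j k)) (M : ℕ) {h : L2 d} (hh : h ≠ 0) (X : Finset κ)
    (p : κ → V d × ℝ) (w : κ → ℝ) (hw : ∀ z ∈ X, 0 ≤ w z) {τ : ℝ} (hτ : 0 < τ) {L : ℕ}
    (hL : 1 ≤ τ * 2 ^ L) (σ : ℕ → (ℕ → Finset (Node d)) → Node d → ι)
    (hσ : ∀ j al al', (∀ i, j < i → al i = al' i) → σ j al = σ j al') :
    ∃ al amp, Unif b A M h X p τ σ 0 al amp ∧
      En X p w (fun z => tower b A 0 M h (p z).2) ≤
        (((L + 1) * Fintype.card ι + 1 : ℕ) : ℝ) ^ (2 * (M + 1)) *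
          (En X p w (fun z => tower b (Aset b A al) 0 M h (p z).2) +
            (M + 1) * ((∑ z ∈ X, w z) * ((C0 * b) ^ (d * (2 * M + 1)) * (τ * ‖h‖ ^ 2)))) := by
  set N : ℝ := (((L + 1) * Fintype.card ι + 1 : ℕ) : ℝ) with hN
  set e : ℝ := (∑ z ∈ X, w z) * ((C0 * b) ^ (d * (2 * M + 1)) * (τ * ‖h‖ ^ 2)) with he
  have hC : 0 ≤ C0 := le_trans (by norm_num) four_le_C0
  have hW : 0 ≤ ∑ z ∈ X, w z := Finset.sum_nonneg hw
  have he0 : 0 ≤ e := by positivity
  have hN1 : 1 ≤ N := by rw [hN]; exact_mod_cast Nat.le_add_left 1 _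
  have key : ∀ m j, m + j = M + 1 → ∃ al amp, Unif b A M h X p τ σ j al amp ∧
      En X p w (fun z => tower b A 0 M h (p z).2) ≤ N ^ (2 * m) *
        (En X p w (fun z => tw (lev b A (p z).2) 0 j (tower b (Aset b A al) j M h (p z).2)) +
          m * e) := by
    intro m
    induction m with
    | zero =>
      intro j hj
      obtain rfl : j = M + 1 := by omega
      refine ⟨fun _ => ∅, fun _ => 0, ⟨fun _ _ => rfl, fun i h1 h2 => by omega, by simp, by simp,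
        by simp, by simp⟩, le_of_eq ?_⟩
      simp only [tower_top, mul_zero, pow_zero, one_mul, Nat.cast_zero, zero_mul, add_zero]
      rfl
    | succ m ih =>
      intro j hj
      obtain ⟨al, amp, hU, hE⟩ := ih (j + 1) (by omega)
      obtain ⟨al', amp', hU', hE'⟩ := decomp_step hb hA hh X p w hw hτ hL σ hσ (by omega) hU
      refine ⟨al', amp', hU', hE.trans ?_⟩
      rw [← hN, ← he] at hE'
      rw [mul_add 2 m 1, pow_add, mul_assoc, mul_one]
      refine mul_le_mul_of_nonneg_left ?_ (by positivity)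
      have h1 : (m : ℝ) * e ≤ N ^ 2 * (m * e) :=
        le_mul_of_one_le_left (by positivity) (one_le_pow₀ hN1)
      push_cast
      nlinarith
  obtain ⟨al, amp, hU, hE⟩ := key (M + 1) 0 rfl
  refine ⟨al, amp, hU, ?_⟩
  push_cast at hE
  exact hE

end Crest.Agent.N76.T
private theorem rz_5b7c970196 : type_of% @_root_.Crest.Agent.N76.T.fa.eq_1 := @_root_.Crest.Agent.N76.T.fa.eq_1 -- L41
private theorem rz_ad5dea519b : type_of% @_root_.Crest.Agent.N76.T.ft.eq_1 := @_root_.Crest.Agent.N76.T.ft.eq_1 -- L46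
end

-- ▼ part N76/T/Spread
section

/-! # Row 76: fact (2'), spreading in the normal directions (helper73). -/

set_option autoImplicit false

open MeasureTheory Set Metric
open scoped ENNReal RealInnerProductSpace ComplexConjugate

namespace Crest.Agent.N76.T

open Crest.Agent.N76.Red (V)
open Crest.Agent.N76.G

variable {d : ℕ}

namespace Spr

/-- the Gaussian multiplier in the directions of `U` -/
noncomputable def mul (U : Submodule ℝ (V d)) (ζ₀ : V d) (w : ℝ) (ξ : V d) : ℝ :=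
  Real.exp (-(Real.pi / (4 * w ^ 2)) * ‖U.starProjection (ξ - ζ₀)‖ ^ 2)

lemma mul_pos' (U : Submodule ℝ (V d)) (ζ₀ : V d) (w : ℝ) (ξ : V d) : 0 < mul U ζ₀ w ξ :=
  Real.exp_pos _

lemma mul_le_one (U : Submodule ℝ (V d)) (ζ₀ : V d) (w : ℝ) (ξ : V d) : mul U ζ₀ w ξ ≤ 1 := by
  unfold mul
  refine Real.exp_le_one_iff.2 ?_
  have := Real.pi_pos
  have : 0 ≤ Real.pi / (4 * w ^ 2) * ‖U.starProjection (ξ - ζ₀)‖ ^ 2 := by positivity
  linarith

lemma continuous_mul' (U : Submodule ℝ (V d)) (ζ₀ : V d) (w : ℝ) : Continuous (mul U ζ₀ w) := by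
  unfold mul; fun_prop

lemma memLp_mul (U : Submodule ℝ (V d)) (ζ₀ : V d) (w : ℝ) (g : L2 d) :
    MemLp (fun ξ => ((mul U ζ₀ w ξ : ℝ) : ℂ) * g ξ) 2 (volume : Measure (V d)) := by
  refine (Lp.memLp g).of_le ?_ (.of_forall fun ξ => ?_)
  · exact ((Complex.continuous_ofReal.comp (continuous_mul' U ζ₀ w)).aestronglyMeasurable).mul
      (Lp.aestronglyMeasurable g)
  · rw [norm_mul, Complex.norm_real, Real.norm_of_nonneg (mul_pos' U ζ₀ w ξ).le]
    exact mul_le_of_le_one_left (norm_nonneg _) (mul_le_one U ζ₀ w ξ)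

/-- multiplication by `mul` on `L²` -/
noncomputable def M (U : Submodule ℝ (V d)) (ζ₀ : V d) (w : ℝ) (g : L2 d) : L2 d :=
  (memLp_mul U ζ₀ w g).toLp _

lemma M_ae (U : Submodule ℝ (V d)) (ζ₀ : V d) (w : ℝ) (g : L2 d) :
    (M U ζ₀ w g : V d → ℂ) =ᵐ[volume] fun ξ => ((mul U ζ₀ w ξ : ℝ) : ℂ) * g ξ :=
  (memLp_mul U ζ₀ w g).coeFn_toLp

lemma inner_M (U : Submodule ℝ (V d)) (ζ₀ : V d) (w : ℝ) (g h : L2 d) :
    inner ℂ (M U ζ₀ w g) h = inner ℂ g (M U ζ₀ w h) := by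
  rw [L2.inner_def, L2.inner_def]
  refine integral_congr_ae ?_
  filter_upwards [M_ae U ζ₀ w g, M_ae U ζ₀ w h] with ξ h1 h2
  simp only [h1, h2, RCLike.inner_apply, map_mul, Complex.conj_ofReal]
  ring

/-- the multiplier is an average of characters -/
lemma mul_eq (U : Submodule ℝ (V d)) (ζ₀ : V d) {w : ℝ} (hw : 0 < w) (ξ : V d) :
    ((mul U ζ₀ w ξ : ℝ) : ℂ) = (((2 * w) ^ Module.finrank ℝ U : ℝ) : ℂ) *
      ∫ v : U, Complex.exp (-((4 * Real.pi * w ^ 2 : ℝ) : ℂ) * ‖v‖ ^ 2 +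
        (2 * Real.pi * Complex.I) * ((⟪(v : V d), ξ - ζ₀⟫ : ℝ) : ℂ)) := by
  have hpi := Real.pi_pos
  have h := GaussianFourier.integral_cexp_neg_mul_sq_norm_add (V := U)
    (b := ((4 * Real.pi * w ^ 2 : ℝ) : ℂ)) (by rw [Complex.ofReal_re]; positivity)
    (2 * Real.pi * Complex.I) (U.orthogonalProjectionOnto (ξ - ζ₀))
  have h2 : ∀ v : U, ⟪U.orthogonalProjectionOnto (ξ - ζ₀), v⟫ = ⟪(v : V d), ξ - ζ₀⟫ := fun v => by
    rw [Submodule.inner_orthogonalProjectionOnto_eq_of_mem_right, real_inner_comm]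
  simp only [h2] at h
  rw [h]
  have h3 : ((Real.pi : ℂ) / ((4 * Real.pi * w ^ 2 : ℝ) : ℂ)) ^ ((Module.finrank ℝ U : ℂ) / 2) =
      ((((2 * w) ^ Module.finrank ℝ U)⁻¹ : ℝ) : ℂ) := by
    have e1 : (Real.pi : ℂ) / ((4 * Real.pi * w ^ 2 : ℝ) : ℂ) = ((((2 * w)⁻¹) ^ 2 : ℝ) : ℂ) := by
      rw [← Complex.ofReal_div]
      congr 1
      field_simp
      ring
    have e2 : ((Module.finrank ℝ U : ℂ) / 2) = (((Module.finrank ℝ U : ℝ) / 2 : ℝ) : ℂ) := by
      push_cast; ring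
    rw [e1, e2, ← Complex.ofReal_cpow (by positivity)]
    congr 1
    rw [← Real.rpow_natCast _ 2, ← Real.rpow_mul (by positivity), ← inv_pow, ← Real.rpow_natCast]
    congr 1
    push_cast; ring
  rw [h3, ← mul_assoc, ← Complex.ofReal_mul, mul_inv_cancel₀ (by positivity), Complex.ofReal_one,
    one_mul, mul, Complex.ofReal_exp]
  congr 1
  have e3 : ‖U.orthogonalProjectionOnto (ξ - ζ₀)‖ = ‖U.starProjection (ξ - ζ₀)‖ := rfl
  rw [e3]
  have hw' : (w : ℂ) ≠ 0 := by exact_mod_cast hw.ne'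
  have hp' : (Real.pi : ℂ) ≠ 0 := by exact_mod_cast hpi.ne'
  push_cast
  field_simp
  rw [Complex.I_sq]
  ring

lemma conj_gamF_add (a t : ℝ) (β : Ph d) (v ξ : V d) :
    conj (gamF a t (β + (v, 0)) ξ) =
      Complex.exp ((2 * Real.pi * Complex.I) * ((⟪v, ξ⟫ : ℝ) : ℂ)) * conj (gamF a t β ξ) := by
  obtain ⟨y, ζ⟩ := β
  simp only [Prod.mk_add_mk, add_zero]
  rw [Iso.conj_gamF a t (y + v), Iso.conj_gamF a t y, ← mul_assoc, ← Complex.exp_add,
    inner_add_right, real_inner_comm v ξ]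
  congr 2
  push_cast; ring

lemma integrable_k (U : Submodule ℝ (V d)) {b : ℝ} (hb : 0 < b) :
    Integrable (fun v : U => Real.exp (-b * ‖v‖ ^ 2)) := by
  apply Integrable.of_integral_ne_zero
  rw [GaussianFourier.integral_rexp_neg_mul_sq_norm hb]
  have := Real.pi_pos
  positivity

lemma co_M (U : Submodule ℝ (V d)) (ζ₀ : V d) {w a : ℝ} (hw : 0 < w) (ha : 0 < a) (t : ℝ)
    (g : L2 d) (β : Ph d) :
    co a t (M U ζ₀ w g) β = (((2 * w) ^ Module.finrank ℝ U : ℝ) : ℂ) *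
      ∫ v : U, Complex.exp (-((4 * Real.pi * w ^ 2 : ℝ) : ℂ) * ‖v‖ ^ 2 -
        (2 * Real.pi * Complex.I) * ((⟪(v : V d), ζ₀⟫ : ℝ) : ℂ)) *
          co a t g (β + ((v : V d), 0)) := by
  have hpi := Real.pi_pos
  set E : U → V d → ℂ := fun v ξ => Complex.exp (-((4 * Real.pi * w ^ 2 : ℝ) : ℂ) * ‖v‖ ^ 2 +
        (2 * Real.pi * Complex.I) * ((⟪(v : V d), ξ - ζ₀⟫ : ℝ) : ℂ)) with hE
  have hF : Integrable (fun ξ => conj (gamF a t β ξ) * g ξ) := by
    have h1 : MemLp (fun ξ => conj (gamF a t β ξ)) 2 (volume : Measure (V d)) :=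
      (Iso.memLp_gamF' ha t β).star
    exact h1.integrable_mul (Lp.memLp g)
  have hI : Integrable (fun q : V d × U => E q.2 q.1 * (conj (gamF a t β q.1) * g q.1))
      ((volume : Measure (V d)).prod (volume : Measure U)) := by
    have h1 := hF.norm.mul_prod (integrable_k U (b := 4 * Real.pi * w ^ 2) (by positivity))
    refine h1.mono' ?_ (.of_forall fun q => ?_)
    · refine AEStronglyMeasurable.mul (Continuous.aestronglyMeasurable ?_)
        hF.aestronglyMeasurable.comp_fst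
      simp only [hE]
      fun_prop
    · rw [norm_mul, mul_comm, hE, Complex.norm_exp]
      refine le_of_eq ?_
      congr 2
      simp [← Complex.ofReal_pow]
  calc co a t (M U ζ₀ w g) β
      = ∫ ξ, (((2 * w) ^ Module.finrank ℝ U : ℝ) : ℂ) *
          ∫ v : U, E v ξ * (conj (gamF a t β ξ) * g ξ) := by
        rw [Iso.co_eq' ha]
        refine integral_congr_ae ?_
        filter_upwards [M_ae U ζ₀ w g] with ξ h1
        rw [h1, mul_eq U ζ₀ hw, integral_mul_const]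
        ring
    _ = (((2 * w) ^ Module.finrank ℝ U : ℝ) : ℂ) *
          ∫ v : U, ∫ ξ, E v ξ * (conj (gamF a t β ξ) * g ξ) := by
        rw [integral_const_mul, integral_integral_swap hI]
    _ = _ := by
        congr 1
        refine integral_congr_ae (.of_forall fun v => ?_)
        simp only
        rw [Iso.co_eq' ha, ← integral_const_mul]
        refine integral_congr_ae (.of_forall fun ξ => ?_)
        simp only [hE, conj_gamF_add]
        rw [← mul_assoc, ← mul_assoc, ← mul_assoc, ← Complex.exp_add, inner_sub_right]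
        congr 3
        push_cast; ring

lemma lintegral_k (U : Submodule ℝ (V d)) {b : ℝ} (hb : 0 < b) (v₀ : U) :
    ∫⁻ v : U, ENNReal.ofReal (Real.exp (-b * ‖v - v₀‖ ^ 2)) =
      ENNReal.ofReal ((Real.pi / b) ^ ((Module.finrank ℝ U : ℝ) / 2)) := by
  rw [lintegral_sub_right_eq_self (fun v : U => ENNReal.ofReal (Real.exp (-b * ‖v‖ ^ 2))),
    ← ofReal_integral_eq_lintegral_ofReal (integrable_k U hb)
      (.of_forall fun _ => by positivity), GaussianFourier.integral_rexp_neg_mul_sq_norm hb]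

lemma rpow_half_sq {x : ℝ} (hx : 0 ≤ x) (m : ℕ) : (x ^ 2) ^ ((m : ℝ) / 2) = x ^ m := by
  rw [← Real.rpow_natCast _ 2, ← Real.rpow_mul hx, ← Real.rpow_natCast]
  congr 1
  push_cast; ring

/-- (L1) -/
lemma L1 (U : Submodule ℝ (V d)) (ζ₀ u : V d) {w a th : ℝ} (hw : 0 < w) (ha : 0 < a) (t : ℝ)
    (hth : 0 < th) (g : L2 d) {S : Set (Ph d)} (hS : MeasurableSet S)
    (hS' : ∀ β ∈ S, ‖U.starProjection (pos t β - u)‖ ≤ th) :
    ∫ β in S, ‖co a t (M U ζ₀ w g) β‖ ^ 2 ≤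
      Real.exp Real.pi * (2 * th * w) ^ (Module.finrank ℝ U) * ‖g‖ ^ 2 := by
  have hpi := Real.pi_pos
  set m := Module.finrank ℝ U with hm
  set k : U → ℝ≥0∞ := fun v => ENNReal.ofReal (Real.exp (-(4 * Real.pi * w ^ 2) * ‖v‖ ^ 2))
    with hk
  have hkm : Measurable k := by
    refine ENNReal.measurable_ofReal.comp (Continuous.measurable ?_); fun_prop
  have hk1 : ∀ v, k v ≤ 1 := fun v => by
    refine ENNReal.ofReal_le_one.2 (Real.exp_le_one_iff.2 ?_)
    have : 0 ≤ 4 * Real.pi * w ^ 2 * ‖v‖ ^ 2 := by positivity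
    linarith
  set Z : ℝ≥0∞ := ENNReal.ofReal ((2 * w) ^ m) with hZ
  have hkZ : Z * ∫⁻ v, k v = 1 := by
    have := lintegral_k U (b := 4 * Real.pi * w ^ 2) (by positivity) 0
    simp only [sub_zero] at this
    rw [hk, this, hZ, ← ENNReal.ofReal_mul (by positivity),
      show Real.pi / (4 * Real.pi * w ^ 2) = ((2 * w)⁻¹) ^ 2 by field_simp; ring,
      rpow_half_sq (by positivity), ← mul_pow, mul_inv_cancel₀ (by positivity), one_pow,
      ENNReal.ofReal_one]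
  have hc := continuous_co' ha t g
  have hcm : Measurable fun q : Ph d × U => ‖co a t g (q.1 + ((q.2 : V d), 0))‖ₑ := by
    refine Continuous.measurable ?_; fun_prop
  -- pointwise
  have h1 : ∀ β, ‖co a t (M U ζ₀ w g) β‖ₑ ^ 2 ≤
      Z * ∫⁻ v : U, k v * ‖co a t g (β + ((v : V d), 0))‖ₑ ^ 2 := fun β => by
    have e1 : ‖co a t (M U ζ₀ w g) β‖ₑ ≤
        Z * ∫⁻ v : U, k v * ‖co a t g (β + ((v : V d), 0))‖ₑ := by
      rw [co_M U ζ₀ hw ha, enorm_mul]
      refine mul_le_mul' (le_of_eq ?_)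
        ((enorm_integral_le_lintegral_enorm _).trans (lintegral_mono fun v => le_of_eq ?_))
      · rw [← ofReal_norm, Complex.norm_real, Real.norm_of_nonneg (by positivity)]
      · rw [enorm_mul, ← ofReal_norm (Complex.exp _), Complex.norm_exp]
        congr 3
        simp [← Complex.ofReal_pow]
    have e2 := lintegral_weight_sq_le (μ := (volume : Measure U)) hkm.aemeasurable
      (hcm.comp (measurable_const.prodMk measurable_id (f := fun _ => β))).aemeasurable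
    simp only [Function.comp_def, id] at e2
    calc _ ≤ (Z * ∫⁻ v : U, k v * ‖co a t g (β + ((v : V d), 0))‖ₑ) ^ 2 := by gcongr
      _ ≤ Z ^ 2 * ((∫⁻ v, k v) * ∫⁻ v : U, k v * ‖co a t g (β + ((v : V d), 0))‖ₑ ^ 2) := by
          rw [mul_pow]; gcongr
      _ = Z * (Z * ∫⁻ v, k v) * ∫⁻ v : U, k v * ‖co a t g (β + ((v : V d), 0))‖ₑ ^ 2 := by ring
      _ = _ := by rw [hkZ, mul_one]
  -- the slab has small `U`-sections
  have h2 : ∀ β : Ph d, ∫⁻ v : U, S.indicator (1 : Ph d → ℝ≥0∞) (β - ((v : V d), 0)) ≤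
      ENNReal.ofReal (Real.exp Real.pi * th ^ m) := fun β => by
    set v₀ : U := U.orthogonalProjectionOnto (pos t β - u)
    have e1 := lintegral_k U (b := Real.pi / th ^ 2) (by positivity) v₀
    rw [show Real.pi / (Real.pi / th ^ 2) = th ^ 2 by field_simp, rpow_half_sq hth.le] at e1
    rw [ENNReal.ofReal_mul (by positivity), ← e1, ← lintegral_const_mul' _ _ ENNReal.ofReal_ne_top]
    refine lintegral_mono fun v => ?_
    by_cases hv : β - ((v : V d), 0) ∈ S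
    · rw [indicator_of_mem hv, Pi.one_apply, ← ENNReal.ofReal_mul (by positivity),
        ← Real.exp_add, ENNReal.one_le_ofReal]
      refine Real.one_le_exp ?_
      have e2 := hS' _ hv
      have e3 : U.starProjection (pos t (β - ((v : V d), 0)) - u) = -((v - v₀ : U) : V d) := by
        have : pos t (β - ((v : V d), 0)) - u = (pos t β - u) - (v : V d) := by
          simp only [pos, Prod.fst_sub, Prod.snd_sub, sub_zero]; abel
        rw [this, map_sub, Submodule.starProjection_mem_subspace_eq_self]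
        simp [v₀]
      rw [e3, norm_neg] at e2
      have e4 : ‖v - v₀‖ ^ 2 ≤ th ^ 2 := pow_le_pow_left₀ (norm_nonneg _) e2 2
      have e5 : Real.pi / th ^ 2 * ‖v - v₀‖ ^ 2 ≤ Real.pi / th ^ 2 * th ^ 2 := by gcongr
      rw [div_mul_cancel₀ _ (by positivity)] at e5
      linarith
    · rw [indicator_of_notMem hv]; exact zero_le
  have hSm : Measurable (S.indicator (1 : Ph d → ℝ≥0∞)) := measurable_one.indicator hS
  have h3 : ∫⁻ β in S, ‖co a t (M U ζ₀ w g) β‖ₑ ^ 2 ≤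
      Z * (ENNReal.ofReal (Real.exp Real.pi * th ^ m) * ∫⁻ β, ‖co a t g β‖ₑ ^ 2) := by
    calc ∫⁻ β in S, ‖co a t (M U ζ₀ w g) β‖ₑ ^ 2
        ≤ ∫⁻ β, Z * ∫⁻ v : U, S.indicator (1 : Ph d → ℝ≥0∞) β *
            ‖co a t g (β + ((v : V d), 0))‖ₑ ^ 2 := by
          rw [← lintegral_indicator hS]
          refine lintegral_mono fun β => ?_
          by_cases hβ : β ∈ S
          · rw [indicator_of_mem hβ, indicator_of_mem hβ]
            refine (h1 β).trans ?_
            gcongr with v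
            exact hk1 v
          · rw [indicator_of_notMem hβ]; exact zero_le
      _ = Z * ∫⁻ v : U, ∫⁻ β, S.indicator (1 : Ph d → ℝ≥0∞) β *
            ‖co a t g (β + ((v : V d), 0))‖ₑ ^ 2 := by
          rw [lintegral_const_mul' _ _ ENNReal.ofReal_ne_top, lintegral_lintegral_swap]
          exact ((hSm.comp measurable_fst).mul (hcm.pow_const 2)).aemeasurable
      _ = Z * ∫⁻ v : U, ∫⁻ β, S.indicator (1 : Ph d → ℝ≥0∞) (β - ((v : V d), 0)) *
            ‖co a t g β‖ₑ ^ 2 := by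
          congr 1
          refine lintegral_congr fun v => ?_
          have : (volume : Measure (Ph d)).IsAddRightInvariant :=
            inferInstanceAs ((volume : Measure (V d)).prod volume).IsAddRightInvariant
          rw [← lintegral_sub_right_eq_self _ (((v : V d), 0) : Ph d)]
          simp only [sub_add_cancel]
      _ = Z * ∫⁻ β, ∫⁻ v : U, S.indicator (1 : Ph d → ℝ≥0∞) (β - ((v : V d), 0)) *
            ‖co a t g β‖ₑ ^ 2 := by
          rw [lintegral_lintegral_swap]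
          refine Measurable.aemeasurable (Measurable.mul (hSm.comp ?_) ?_)
          · refine Continuous.measurable ?_; fun_prop
          · refine Measurable.pow_const (Continuous.measurable ?_) 2; fun_prop
      _ ≤ _ := by
          refine mul_le_mul_right ?_ _
          rw [← lintegral_const_mul' _ _ ENNReal.ofReal_ne_top]
          refine lintegral_mono fun β => ?_
          rw [lintegral_mul_const' _ _ (by simp)]
          exact mul_le_mul_left (h2 β) _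
  rw [lintegral_enorm_sq_eq ((memLp_co ha t _).restrict S), lintegral_enorm_sq_eq (memLp_co ha t g),
    integral_co_sq ha, hZ, ← ENNReal.ofReal_mul (by positivity),
    ← ENNReal.ofReal_mul (by positivity), ENNReal.ofReal_le_ofReal_iff (by positivity)] at h3
  refine h3.trans (le_of_eq ?_)
  rw [mul_pow, mul_pow, mul_pow]; ring

/-- (L2) -/
lemma L2' (U : Submodule ℝ (V d)) (ζ₀ : V d) {w a : ℝ} (ha : 0 < a) (hw : 1 / a ≤ w) (t : ℝ)
    (φ : L2 d) :
    ∫ β in {β : Ph d | ‖U.starProjection (β.2 - ζ₀)‖ ≤ w}, ‖co a t φ β‖ ^ 2 ≤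
      Real.exp Real.pi * 2 ^ d * ‖M U ζ₀ w φ‖ ^ 2 := by
  have hpi := Real.pi_pos
  have hw0 : 0 < w := lt_of_lt_of_le (by positivity) hw
  set a' := a / Real.sqrt 2 with ha'
  have ha'0 : 0 < a' := by positivity
  have ha'2 : 2 * a' ^ 2 = a ^ 2 := by
    rw [ha', div_pow, Real.sq_sqrt (by norm_num)]; ring
  set A : Set (Ph d) := {β : Ph d | ‖U.starProjection (β.2 - ζ₀)‖ ≤ w} with hA
  have hAm : MeasurableSet A := by
    refine (isClosed_le ?_ continuous_const).measurableSet; fun_prop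
  rw [← integral_co_sq ha'0 t, ← integral_const_mul, ← integral_indicator hAm]
  have i1 := (Iso.integrable_co_sq ha t φ).indicator hAm
  have i2 := (Iso.integrable_co_sq ha'0 t (M U ζ₀ w φ)).const_mul (Real.exp Real.pi * 2 ^ d)
  rw [Measure.volume_eq_prod] at i1 i2 ⊢
  rw [integral_prod_symm _ i1, integral_prod_symm _ i2]
  refine integral_mono i1.integral_prod_right i2.integral_prod_right fun ζ => ?_
  by_cases hζ : ‖U.starProjection (ζ - ζ₀)‖ ≤ w
  · have e1 : ∀ y : V d, A.indicator (fun β => ‖co a t φ β‖ ^ 2) (y, ζ) = ‖co a t φ (y, ζ)‖ ^ 2 :=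
      fun y => indicator_of_mem (show (y, ζ) ∈ A from hζ) _
    simp only [e1]
    rw [integral_const_mul, (integral_co_sq_fst ha t φ ζ).2,
      (integral_co_sq_fst ha'0 t (M U ζ₀ w φ) ζ).2, ha'2,
      Real.mul_rpow (by norm_num) (by positivity)]
    have e2 : (2 : ℝ) ^ ((d : ℝ) / 2) ≤ 2 ^ d := by
      rw [← Real.rpow_natCast]
      exact Real.rpow_le_rpow_of_exponent_le one_le_two (by linarith [Nat.cast_nonneg (α := ℝ) d])
    have e3 : ∫ ξ, Real.exp (-2 * Real.pi * a ^ 2 * ‖ξ - ζ‖ ^ 2) * ‖φ ξ‖ ^ 2 ≤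
        Real.exp Real.pi *
          ∫ ξ, Real.exp (-2 * Real.pi * a' ^ 2 * ‖ξ - ζ‖ ^ 2) * ‖M U ζ₀ w φ ξ‖ ^ 2 := by
      rw [← integral_const_mul]
      refine integral_mono_of_nonneg (.of_forall fun ξ => by positivity) ?_ ?_
      · refine Integrable.const_mul ?_ _
        refine (Iso.integrable_norm_sq_L2 (M U ζ₀ w φ)).bdd_mul (c := 1)
          (Continuous.aestronglyMeasurable (by fun_prop)) (.of_forall fun ξ => ?_)
        rw [Real.norm_of_nonneg (Real.exp_pos _).le]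
        refine Real.exp_le_one_iff.2 ?_
        have : 0 ≤ 2 * Real.pi * a' ^ 2 * ‖ξ - ζ‖ ^ 2 := by positivity
        linarith
      · filter_upwards [M_ae U ζ₀ w φ] with ξ h1
        rw [h1, norm_mul, Complex.norm_real, Real.norm_of_nonneg (mul_pos' U ζ₀ w ξ).le, mul_pow,
          ← mul_assoc, ← mul_assoc, mul, ← Real.exp_nat_mul, ← Real.exp_add, ← Real.exp_add]
        gcongr
        have f1 : ‖U.starProjection (ξ - ζ₀)‖ ≤ ‖ξ - ζ‖ + w := by
          rw [show ξ - ζ₀ = (ξ - ζ) + (ζ - ζ₀) by abel, map_add]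
          exact (norm_add_le _ _).trans (add_le_add (U.norm_starProjection_apply_le _) hζ)
        have f2 : ‖U.starProjection (ξ - ζ₀)‖ ^ 2 ≤ 2 * ‖ξ - ζ‖ ^ 2 + 2 * w ^ 2 := by
          nlinarith [pow_le_pow_left₀ (norm_nonneg _) f1 2, sq_nonneg (‖ξ - ζ‖ - w)]
        have f3 : 1 ≤ a ^ 2 * w ^ 2 := by
          rw [← mul_pow]
          refine one_le_pow₀ ?_
          rwa [div_le_iff₀' ha] at hw
        have f4 : Real.pi / (4 * w ^ 2) * ‖U.starProjection (ξ - ζ₀)‖ ^ 2 ≤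
            Real.pi / 2 * (a ^ 2 * ‖ξ - ζ‖ ^ 2 + 1) := by
          rw [div_mul_eq_mul_div, div_le_iff₀ (by positivity)]
          have : ‖ξ - ζ‖ ^ 2 ≤ a ^ 2 * w ^ 2 * ‖ξ - ζ‖ ^ 2 :=
            le_mul_of_one_le_left (by positivity) f3
          nlinarith
        have f5 : -2 * Real.pi * a' ^ 2 = -Real.pi * a ^ 2 := by rw [← ha'2]; ring
        rw [f5]
        push_cast
        nlinarith
    calc _ ≤ 2 ^ d * (a ^ 2) ^ ((d : ℝ) / 2) * (Real.exp Real.pi *
          ∫ ξ, Real.exp (-2 * Real.pi * a' ^ 2 * ‖ξ - ζ‖ ^ 2) * ‖M U ζ₀ w φ ξ‖ ^ 2) := by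
          gcongr
      _ = _ := by ring
  · have e1 : ∀ y : V d, A.indicator (fun β => ‖co a t φ β‖ ^ 2) (y, ζ) = 0 :=
      fun y => indicator_of_notMem (show (y, ζ) ∉ A from hζ) _
    simp only [e1, integral_zero]
    positivity

/-- Cauchy-Schwarz for a pairing with a function supported in `A` -/
lemma pair_le {a : ℝ} (ha : 0 < a) (t : ℝ) {c : Ph d → ℂ} (hc : MemLp c 2 volume)
    {A : Set (Ph d)} (hA : MeasurableSet A) (hs : ∀ β, c β ≠ 0 → β ∈ A) (φ : L2 d) :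
    ‖inner ℂ φ (syn a t c)‖ ^ 2 ≤ (∫ β in A, ‖co a t φ β‖ ^ 2) * ∫ β, ‖c β‖ ^ 2 := by
  have h1 := memLp_indicator_co ha t hA φ
  have e1 : inner ℂ φ (syn a t c) = inner ℂ (h1.toLp _) (hc.toLp c) := by
    rw [inner_syn ha t hc, L2.inner_def]
    refine integral_congr_ae ?_
    filter_upwards [h1.coeFn_toLp, hc.coeFn_toLp] with β e1 e2
    rw [e1, e2, RCLike.inner_apply]
    by_cases h0 : c β = 0
    · simp [h0]
    · rw [indicator_of_mem (hs β h0), co, inner_conj_symm, mul_comm]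
  have e2 : ∫ β in A, ‖co a t φ β‖ ^ 2 = ‖h1.toLp _‖ ^ 2 := by
    rw [← Iso.integral_norm_sq_L2, ← integral_indicator hA]
    refine integral_congr_ae ?_
    filter_upwards [h1.coeFn_toLp] with β e1
    rw [e1]
    by_cases hβ : β ∈ A <;> simp [hβ]
  have e3 : ∫ β, ‖c β‖ ^ 2 = ‖hc.toLp c‖ ^ 2 := by
    rw [← Iso.integral_norm_sq_L2]
    refine integral_congr_ae ?_
    filter_upwards [hc.coeFn_toLp] with β e1
    rw [e1]
  rw [e1, e2, e3, ← mul_pow]
  exact pow_le_pow_left₀ (norm_nonneg _) (norm_inner_le_norm _ _) 2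

end Spr

open Spr in
/-- **fact (2')**, analytic core -/
theorem spread (U : Submodule ℝ (V d)) {a a' : ℝ} (ha : 0 < a) (ha' : 0 < a') (t t' : ℝ)
    {c : Ph d → ℂ} (hc : MemLp c 2 volume) (ζ₀ u : V d) {w th : ℝ} (hw : 1 / a' ≤ w)
    (hth : 0 < th) (hsupp : ∀ β', c β' ≠ 0 → ‖U.starProjection (β'.2 - ζ₀)‖ ≤ w)
    {S : Set (Ph d)} (hS : MeasurableSet S)
    (hS' : ∀ β ∈ S, ‖U.starProjection (pos t β - u)‖ ≤ th) :
    ∫ β in S, ‖co a t (syn a' t' c) β‖ ^ 2 ≤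
      1000 * 2 ^ d * (2 * th * w) ^ (Module.finrank ℝ U) * ∫ β', ‖c β'‖ ^ 2 := by
  have hw0 : 0 < w := lt_of_lt_of_le (by positivity) hw
  set F := syn a' t' c with hF
  set I := ∫ β in S, ‖co a t F β‖ ^ 2 with hI
  have hI0 : 0 ≤ I := integral_nonneg fun _ => by positivity
  have hu := memLp_indicator_co ha t hS F
  set φ := loc a t S F with hφ
  have huI : ∫ β, ‖S.indicator (co a t F) β‖ ^ 2 = I := by
    rw [hI, ← integral_indicator hS]
    refine integral_congr_ae (.of_forall fun β => ?_)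
    by_cases hβ : β ∈ S <;> simp [hβ]
  have h1 : ‖inner ℂ φ F‖ = I := by
    rw [← inner_conj_symm, Complex.norm_conj, hφ, inner_loc ha t hS]
    have : ∀ β, inner ℂ F (gam a t β) * co a t F β = ((‖co a t F β‖ ^ 2 : ℝ) : ℂ) := fun β => by
      rw [← inner_conj_symm F, ← co, Complex.conj_mul']; push_cast; rfl
    simp only [this]
    rw [integral_complex_ofReal, Complex.norm_real, Real.norm_of_nonneg hI0]
  have hAm : MeasurableSet {β : Ph d | ‖U.starProjection (β.2 - ζ₀)‖ ≤ w} := by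
    refine (isClosed_le ?_ continuous_const).measurableSet; fun_prop
  have h2 := pair_le ha' t' hc hAm hsupp φ
  rw [← hF, h1] at h2
  have h3 := L2' U ζ₀ ha' hw t' φ
  set N := ‖M U ζ₀ w φ‖ ^ 2 with hN
  have hN0 : 0 ≤ N := by positivity
  have h4 := pair_le ha t hu hS (fun β hβ => mem_of_indicator_ne_zero hβ)
    (M U ζ₀ w (M U ζ₀ w φ))
  have h5 : ‖inner ℂ (M U ζ₀ w (M U ζ₀ w φ)) (syn a t (S.indicator (co a t F)))‖ = N := by
    change ‖inner ℂ _ φ‖ = N
    rw [inner_M, inner_self_eq_norm_sq_to_K, norm_pow]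
    simp [hN]
  rw [h5, huI] at h4
  have h6 := L1 U ζ₀ u hw0 ha t hth (M U ζ₀ w φ) hS hS'
  rw [← hN] at h6
  set C1 := Real.exp Real.pi * (2 * th * w) ^ Module.finrank ℝ U with hC1
  have hC10 : 0 < C1 := by positivity
  have h7 : N ≤ C1 * I := by
    rcases hN0.eq_or_lt with h0 | h0
    · rw [← h0]; positivity
    · have : N * N ≤ N * (C1 * I) := by nlinarith [mul_le_mul_of_nonneg_right h6 hI0]
      exact le_of_mul_le_mul_left this h0
  set J := ∫ β', ‖c β'‖ ^ 2 with hJ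
  have hJ0 : 0 ≤ J := integral_nonneg fun _ => by positivity
  have h8 : I ≤ Real.exp Real.pi * 2 ^ d * C1 * J := by
    rcases hI0.eq_or_lt with h0 | h0
    · rw [← h0]; positivity
    · have e1 : I * I ≤ I * (Real.exp Real.pi * 2 ^ d * C1 * J) := by
        calc I * I = I ^ 2 := by ring
          _ ≤ (Real.exp Real.pi * 2 ^ d * N) * J := h2.trans (by gcongr)
          _ ≤ (Real.exp Real.pi * 2 ^ d * (C1 * I)) * J := by gcongr
          _ = _ := by ring
      exact le_of_mul_le_mul_left e1 h0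
  have h9 : Real.exp Real.pi * Real.exp Real.pi ≤ 1000 := by
    rw [← Real.exp_add]
    have e1 : Real.pi + Real.pi ≤ (6.5 : ℝ) := by linarith [Real.pi_lt_d2]
    refine (Real.exp_le_exp.2 e1).trans ?_
    have e2 : Real.exp 6.5 ^ 2 = Real.exp 1 ^ 13 := by
      rw [← Real.exp_nat_mul, ← Real.exp_nat_mul]; norm_num
    have e3 : Real.exp 1 ^ 13 ≤ 2.72 ^ 13 :=
      pow_le_pow_left₀ (Real.exp_pos _).le (by linarith [Real.exp_one_lt_d9]) 13
    refine (pow_le_pow_iff_left₀ (Real.exp_pos _).le (by norm_num) two_ne_zero).1 ?_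
    rw [e2]; refine e3.trans (by norm_num)
  refine h8.trans ?_
  rw [hC1]
  calc _ = (Real.exp Real.pi * Real.exp Real.pi) * 2 ^ d * (2 * th * w) ^ Module.finrank ℝ U * J := by
        ring
    _ ≤ _ := by gcongr

end Crest.Agent.N76.T
end

-- ▼ part N76/T/Facts
section

/-! # Row 76 (S0101): the raw analytic facts of a Gaussian tower (helper13). -/

set_option autoImplicit false

open MeasureTheory Set Metric
open scoped ENNReal RealInnerProductSpace

namespace Crest.Agent.N76.T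

open Crest.Agent.N76.Red (V)
open Crest.Agent.N76.G

variable {d : ℕ}

/-- parent window -/
theorem win_tk {b : ℕ} (hb : 1 ≤ b) {i j : ℕ} (hij : i ≤ j) (k : ℤ) :
    win b j (tk b i k) = k / ((b ^ (2 * (j - i)) : ℕ) : ℤ) := by
  rw [win_eq_div b hij, win_tk_self hb]

theorem sum_mass_le {b : ℕ} (hb : 1 ≤ b) {A : ℕ → ℤ → Set (Ph d)}
    (hA : ∀ j k, MeasurableSet (A j k)) (al : ℕ → Finset (Node d)) (M : ℕ) (h : L2 d) (j : ℕ)
    (k : ℤ) (S : Finset (Node d)) (hS : ∀ ν ∈ S, ν.1 = k) :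
    ∑ ν ∈ S, mass b A al M h j ν ≤ ‖h‖ ^ 2 := sum_mass_le' hb hA al M h j k S hS

theorem sum_mass_eq {b : ℕ} (hb : 1 ≤ b) {A : ℕ → ℤ → Set (Ph d)}
    (hA : ∀ j k, MeasurableSet (A j k)) (al : ℕ → Finset (Node d)) (M : ℕ) (h : L2 d) (j : ℕ)
    (k : ℤ) (S : Finset (Node d)) (hS : ∀ ν ∈ S, ν.1 = k) :
    ∑ ν ∈ S, mass b A al M h j ν =
      ∫ β in ⋃ ν ∈ S, A j k ∩ tile b j ν, ‖coef b (Aset b A al) M h j k β‖ ^ 2 := by
  have hb0 : (0 : ℝ) < (b : ℝ) ^ j := pow_pos (by exact_mod_cast hb) _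
  have hi := Iso.integrable_co_sq hb0 (tk b j k) (tower b (Aset b A al) (j + 1) M h (tk b j k))
  rw [integral_biUnion_finset (f := fun β => ‖coef b (Aset b A al) M h j k β‖ ^ 2) S
    (fun ν _ => (hA j k).inter (measurableSet_tile b j ν)) ?_ fun ν _ => hi.integrableOn]
  · exact Finset.sum_congr rfl fun ν hν => by rw [mass, hS ν hν]
  · intro ν hν ν' hν' hne
    refine disjoint_left.2 fun β h1 h2 => hne (Prod.ext ((hS ν hν).trans (hS ν' hν').symm) ?_)
    have e1 := h1.2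
    have e2 := h2.2
    simp only [tile, mem_ofPred_eq, hS ν hν, hS ν' hν'] at e1 e2
    exact e1.symm.trans e2

theorem volume_tiles_le {b : ℕ} (hb : 1 ≤ b) (j : ℕ) (S : Finset (Node d)) {U : Set (Ph d)}
    (hU : ∀ β ∈ U, ∃ ν ∈ S, β ∈ tile b j ν) : volume U ≤ S.card := by
  calc volume U ≤ volume (⋃ ν ∈ S, tile b j ν) :=
        measure_mono fun β hβ => let ⟨ν, h1, h2⟩ := hU β hβ; mem_biUnion h1 h2
    _ ≤ ∑ ν ∈ S, volume (tile b j ν) := measure_biUnion_finset_le _ _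
    _ = S.card := by simp [volume_tile hb]

theorem setIntegral_le_card {b : ℕ} (hb : 1 ≤ b) (j : ℕ) (S : Finset (Node d)) {U : Set (Ph d)}
    (hU : ∀ β ∈ U, ∃ ν ∈ S, β ∈ tile b j ν) {f : Ph d → ℂ} {B : ℝ} (hB : 0 ≤ B)
    (hf : ∀ β ∈ U, ‖f β‖ ^ 2 ≤ B) : ∫ β in U, ‖f β‖ ^ 2 ≤ S.card * B := by
  have h1 := volume_tiles_le hb j S hU
  have h2 := norm_setIntegral_le_of_norm_le_const (μ := volume) (s := U)
    (f := fun β => ‖f β‖ ^ 2) (C := B) (h1.trans_lt (ENNReal.natCast_lt_top _))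
    fun β hβ => by rw [Real.norm_of_nonneg (by positivity)]; exact hf β hβ
  refine (le_abs_self _).trans (h2.trans ?_)
  rw [mul_comm]
  refine mul_le_mul_of_nonneg_right ?_ hB
  have := ENNReal.toReal_mono (ENNReal.natCast_ne_top _) h1
  rwa [ENNReal.toReal_natCast] at this

theorem mass_le_of_sup {b : ℕ} (hb : 1 ≤ b) (A : ℕ → ℤ → Set (Ph d)) (al : ℕ → Finset (Node d))
    (M : ℕ) (h : L2 d) (j : ℕ) (ν : Node d) {B : ℝ} (hB : 0 ≤ B)
    (hf : ∀ β ∈ tile b j ν, ‖coef b (Aset b A al) M h j ν.1 β‖ ^ 2 ≤ B) :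
    mass b A al M h j ν ≤ B := by
  have := setIntegral_le_card hb j {ν} (U := A j ν.1 ∩ tile b j ν)
    (fun β hβ => ⟨ν, Finset.mem_singleton_self _, hβ.2⟩) hB fun β hβ => hf β hβ.2
  rwa [Finset.card_singleton, Nat.cast_one, one_mul] at this

/-- near and far part of one level -/
theorem split {b : ℕ} (hb : 1 ≤ b) {A : ℕ → ℤ → Set (Ph d)} (hA : ∀ j k, MeasurableSet (A j k))
    (al : ℕ → Finset (Node d)) {M : ℕ} (h : L2 d) {j : ℕ} (hj : j ≤ M) {k : ℤ}
    (Nr : Finset (Node d)) (hNr : Nr ⊆ al j) (hw : ∀ γ ∈ Nr, γ.1 = k) {t : ℝ}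
    (ht : win b j t = k) :
    ∃ cN cF : Ph d → ℂ, MemLp cN 2 volume ∧ MemLp cF 2 volume ∧
      tower b (Aset b A al) j M h t =
        syn ((b : ℝ) ^ j) (tk b j k) cN + syn ((b : ℝ) ^ j) (tk b j k) cF ∧
      ∫ β, ‖cN β‖ ^ 2 = ∑ γ ∈ Nr, mass b A al M h j γ ∧ ∫ β, ‖cF β‖ ^ 2 ≤ ‖h‖ ^ 2 ∧
      (∀ β, cN β ≠ 0 → ∃ γ ∈ Nr, β ∈ tile b j γ) ∧
      ∀ β, cF β ≠ 0 → ∃ γ ∈ al j, γ.1 = k ∧ γ ∉ Nr ∧ β ∈ tile b j γ := by
  have hb0 : (0 : ℝ) < (b : ℝ) ^ j := pow_pos (by exact_mod_cast hb) _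
  set H := tower b (Aset b A al) (j + 1) M h (tk b j k) with hH
  set N : Set (Ph d) := ⋃ γ ∈ Nr, A j k ∩ tile b j γ with hN
  have hNm : MeasurableSet N :=
    Nr.measurableSet_biUnion fun γ _ => (hA j k).inter (measurableSet_tile b j γ)
  have hAm := measurableSet_Aset b hA al j k
  have hsub : N ⊆ Aset b A al j k := by
    intro β hβ
    obtain ⟨γ, hγ, h1, h2⟩ := mem_iUnion₂.1 hβ
    refine ⟨h1, ?_⟩
    have : (k, idx ((b : ℝ) ^ j) (tk b j k) β) = γ := by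
      have e := hw γ hγ
      simp only [tile, mem_ofPred_eq, e] at h2
      exact Prod.ext e.symm h2
    rw [mem_ofPred_eq, this]; exact hNr hγ
  have hind : ∀ {S : Set (Ph d)}, MeasurableSet S →
      ∫ β, ‖S.indicator (co ((b : ℝ) ^ j) (tk b j k) H) β‖ ^ 2 =
        ∫ β in S, ‖co ((b : ℝ) ^ j) (tk b j k) H β‖ ^ 2 := fun {S} hS => by
    rw [← integral_indicator hS]
    refine integral_congr_ae (Filter.Eventually.of_forall fun β => ?_)
    by_cases hβ : β ∈ S <;> simp [hβ]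
  refine ⟨N.indicator (co ((b : ℝ) ^ j) (tk b j k) H),
    (Aset b A al j k \ N).indicator (co ((b : ℝ) ^ j) (tk b j k) H),
    memLp_indicator_co hb0 _ hNm H, memLp_indicator_co hb0 _ (hAm.diff hNm) H, ?_, ?_, ?_,
    fun β hβ => ?_, fun β hβ => ?_⟩
  · rw [tower_eq_loc b _ hj, lev, wt_eq_tk, ht, tower_congr hb _ M h
      (win_of_win_eq hb (Nat.le_succ j) (ht.trans (win_tk_self hb j k).symm)), ← hH]
    conv_lhs => rw [← union_diff_cancel hsub]
    exact loc_union hb0 _ hNm (hAm.diff hNm) disjoint_sdiff_right H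
  · rw [hind hNm, sum_mass_eq hb hA al M h j k Nr hw]; rfl
  · rw [hind (hAm.diff hNm)]
    refine (setIntegral_le_integral (Iso.integrable_co_sq hb0 _ H)
      (Filter.Eventually.of_forall fun β => by positivity)).trans ?_
    rw [integral_co_sq hb0]
    exact pow_le_pow_left₀ (norm_nonneg _)
      (norm_tower_le hb (measurableSet_Aset b hA al) _ _ _ _) 2
  · obtain ⟨γ, hγ, -, h2⟩ := mem_iUnion₂.1 (mem_of_indicator_ne_zero hβ)
    exact ⟨γ, hγ, h2⟩
  · obtain ⟨⟨h1, h2⟩, h3⟩ := mem_of_indicator_ne_zero hβ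
    exact ⟨_, h2, rfl, fun h4 => h3 (mem_biUnion h4 ⟨h1, rfl⟩), rfl⟩

theorem near_pt {b : ℕ} (hb : 1 ≤ b) (j : ℕ) {a : ℝ} (ha : 0 < a) (t t' : ℝ) {c : Ph d → ℂ}
    (hc : MemLp c 2 volume) (Nr : Finset (Node d)) (hs : ∀ β, c β ≠ 0 → ∃ γ ∈ Nr, β ∈ tile b j γ)
    (β : Ph d) : ‖co a t (syn ((b : ℝ) ^ j) t' c) β‖ ^ 2 ≤
      Nr.card * pre d a t ((b : ℝ) ^ j) t' ^ 2 * ∫ β', ‖c β'‖ ^ 2 := by
  have hb0 : (0 : ℝ) < (b : ℝ) ^ j := pow_pos (by exact_mod_cast hb) _
  have hm : MeasurableSet (⋃ γ ∈ Nr, tile b j γ) :=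
    Nr.measurableSet_biUnion fun γ _ => measurableSet_tile b j γ
  refine (Spr.pair_le hb0 t' hc hm
    (fun β' h' => let ⟨γ, h1, h2⟩ := hs β' h'; mem_biUnion h1 h2) (gam a t β)).trans ?_
  refine mul_le_mul_of_nonneg_right ?_ (integral_nonneg fun _ => by positivity)
  refine setIntegral_le_card hb j Nr (fun β' h' => ?_) (by positivity) fun β' _ => ?_
  · obtain ⟨γ, h1, h2⟩ := mem_iUnion₂.1 h'
    exact ⟨γ, h1, h2⟩
  · rw [co, norm_inner_symm, norm_inner_gam ha hb0]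
    refine pow_le_pow_left₀ (mul_nonneg (pre_pos ha hb0 _ _).le (Real.exp_pos _).le)
      (mul_le_of_le_one_right (pre_pos ha hb0 _ _).le (Real.exp_le_one_iff.2 ?_)) 2
    nlinarith [Qf_nonneg a t ((b : ℝ) ^ j) t' (β - β'), Real.pi_pos]

theorem norm_add_sq_le_two (x y : ℂ) : ‖x + y‖ ^ 2 ≤ 2 * ‖x‖ ^ 2 + 2 * ‖y‖ ^ 2 := by
  have := norm_add_le x y
  nlinarith [norm_nonneg (x + y), norm_nonneg x, norm_nonneg y, sq_nonneg (‖x‖ - ‖y‖)]

theorem point_bound {b : ℕ} (hb : 1 ≤ b) {A : ℕ → ℤ → Set (Ph d)}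
    (hA : ∀ j k, MeasurableSet (A j k)) (al : ℕ → Finset (Node d)) {M : ℕ} (h : L2 d) {j : ℕ}
    (hj : j ≤ M) {k : ℤ} (Nr : Finset (Node d)) (hNr : Nr ⊆ al j) (hw : ∀ γ ∈ Nr, γ.1 = k) {t : ℝ}
    (ht : win b j t = k) {a : ℝ} (ha : 0 < a) (β : Ph d) {s μ : ℝ}
    (hμ : ∀ γ ∈ Nr, mass b A al M h j γ ≤ μ)
    (hfar : ∀ γ ∈ al j, γ.1 = k → γ ∉ Nr → ∀ β' ∈ tile b j γ,
      s ≤ Qf a t ((b : ℝ) ^ j) (tk b j γ.1) (β - β')) :
    ‖co a t (tower b (Aset b A al) j M h t) β‖ ^ 2 ≤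
      2 * (Nr.card : ℝ) ^ 2 * pre d a t ((b : ℝ) ^ j) (tk b j k) ^ 2 * μ +
        2 * 2 ^ d * Real.exp (-Real.pi * s) * ‖h‖ ^ 2 := by
  have hb0 : (0 : ℝ) < (b : ℝ) ^ j := pow_pos (by exact_mod_cast hb) _
  obtain ⟨cN, cF, h1, h2, h3, h4, h5, h6, h7⟩ := split hb hA al h hj Nr hNr hw ht
  rw [h3, Iso.co_add, Pi.add_apply]
  refine (norm_add_sq_le_two _ _).trans (add_le_add ?_ ?_)
  · have e1 := near_pt hb j ha t (tk b j k) h1 Nr h6 β
    have e2 := Finset.sum_le_card_nsmul Nr _ μ hμ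
    rw [nsmul_eq_mul, ← h4] at e2
    have e3 := mul_le_mul_of_nonneg_left e2
      (show 0 ≤ Nr.card * pre d a t ((b : ℝ) ^ j) (tk b j k) ^ 2 by positivity)
    nlinarith
  · have e1 := norm_co_syn_far ha hb0 t (tk b j k) h2 β (s := s) fun β' h' => by
      obtain ⟨γ, g1, g2, g3, g4⟩ := h7 β' h'
      have := hfar γ g1 g2 g3 β' g4
      rwa [g2] at this
    have e2 := mul_le_mul_of_nonneg_left h5
      (show 0 ≤ 2 ^ d * Real.exp (-Real.pi * s) by positivity)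
    nlinarith

theorem win_succ_tk {b : ℕ} (hb : 1 ≤ b) (j : ℕ) (k : ℤ) :
    win b (j + 1) (tk b j k) = k / ((b ^ 2 : ℕ) : ℤ) := by
  rw [win_tk hb (Nat.le_succ j), Nat.succ_sub (le_refl j), Nat.sub_self]

/-- fact (1) -/
theorem fact_one {b : ℕ} (hb : 1 ≤ b) {A : ℕ → ℤ → Set (Ph d)} (hA : ∀ j k, MeasurableSet (A j k))
    (al : ℕ → Finset (Node d)) {M : ℕ} (h : L2 d) {j : ℕ} (hj : j < M) (ν : Node d)
    (Nr : Finset (Node d)) (hNr : Nr ⊆ al (j + 1)) (hw : ∀ γ ∈ Nr, γ.1 = ν.1 / ((b ^ 2 : ℕ) : ℤ))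
    {s μ : ℝ} (hμ : ∀ γ ∈ Nr, mass b A al M h (j + 1) γ ≤ μ) (hμ0 : 0 ≤ μ)
    (hfar : ∀ γ ∈ al (j + 1), γ.1 = ν.1 / ((b ^ 2 : ℕ) : ℤ) → γ ∉ Nr →
      ∀ β ∈ tile b j ν, ∀ β' ∈ tile b (j + 1) γ,
        s ≤ Qf ((b : ℝ) ^ j) (tk b j ν.1) ((b : ℝ) ^ (j + 1)) (tk b (j + 1) γ.1) (β - β')) :
    mass b A al M h j ν ≤ 2 * (Nr.card : ℝ) ^ 2 * (2 / b) ^ d * μ +
      2 * 2 ^ d * Real.exp (-Real.pi * s) * ‖h‖ ^ 2 := by
  have hb1 : (0 : ℝ) < b := by exact_mod_cast hb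
  refine mass_le_of_sup hb A al M h j ν (by positivity) fun β hβ => ?_
  refine (point_bound hb hA al h hj Nr hNr hw (win_succ_tk hb j ν.1) (pow_pos hb1 j) β hμ
    fun γ h1 h2 h3 β' h4 => hfar γ h1 h2 h3 β hβ β' h4).trans ?_
  have := pre_sq_le (d := d) (pow_pos hb1 j) (pow_pos hb1 (j + 1)) (tk b j ν.1)
    (tk b (j + 1) (ν.1 / ((b ^ 2 : ℕ) : ℤ)))
  rw [show 2 * (b : ℝ) ^ j / (b : ℝ) ^ (j + 1) = 2 / b by rw [pow_succ]; field_simp] at this
  gcongr

theorem two_gen {b : ℕ} (hb : 1 ≤ b) {A : ℕ → ℤ → Set (Ph d)} (hA : ∀ j k, MeasurableSet (A j k))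
    (al : ℕ → Finset (Node d)) {M : ℕ} (h : L2 d) {j : ℕ} (hj : j < M) (k : ℤ)
    (S : Finset (Node d)) (hS : ∀ ν ∈ S, ν.1 = k)
    (Nr : Finset (Node d)) (hNr : Nr ⊆ al (j + 1)) (hw : ∀ γ ∈ Nr, γ.1 = k / ((b ^ 2 : ℕ) : ℤ))
    {s : ℝ}
    (hfar : ∀ ν ∈ S, ∀ γ ∈ al (j + 1), γ.1 = k / ((b ^ 2 : ℕ) : ℤ) → γ ∉ Nr →
      ∀ β ∈ tile b j ν, ∀ β' ∈ tile b (j + 1) γ,
        s ≤ Qf ((b : ℝ) ^ j) (tk b j k) ((b : ℝ) ^ (j + 1)) (tk b (j + 1) γ.1) (β - β'))
    {B : ℝ} (hB : ∀ (c : Ph d → ℂ) (U : Set (Ph d)) (t' : ℝ), MemLp c 2 volume → MeasurableSet U →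
      (∀ β ∈ U, ∃ ν ∈ S, β ∈ tile b j ν) → (∀ β, c β ≠ 0 → ∃ γ ∈ Nr, β ∈ tile b (j + 1) γ) →
      ∫ β in U, ‖co ((b : ℝ) ^ j) (tk b j k) (syn ((b : ℝ) ^ (j + 1)) t' c) β‖ ^ 2 ≤
        B * ∫ β, ‖c β‖ ^ 2) :
    ∑ ν ∈ S, mass b A al M h j ν ≤ 2 * B * ∑ γ ∈ Nr, mass b A al M h (j + 1) γ +
      2 * S.card * 2 ^ d * Real.exp (-Real.pi * s) * ‖h‖ ^ 2 := by
  have hb1 : (0 : ℝ) < b := by exact_mod_cast hb
  have ha := pow_pos hb1 j
  obtain ⟨cN, cF, h1, h2, h3, h4, h5, h6, h7⟩ :=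
    split hb hA al h hj Nr hNr hw (win_succ_tk hb j k)
  set U : Set (Ph d) := ⋃ ν ∈ S, A j k ∩ tile b j ν
  have hUm : MeasurableSet U :=
    S.measurableSet_biUnion fun ν _ => (hA j k).inter (measurableSet_tile b j ν)
  have hU : ∀ β ∈ U, ∃ ν ∈ S, β ∈ tile b j ν := fun β hβ =>
    let ⟨ν, g1, g2⟩ := mem_iUnion₂.1 hβ; ⟨ν, g1, g2.2⟩
  set t' := tk b (j + 1) (k / ((b ^ 2 : ℕ) : ℤ))
  have i1 := Iso.integrable_co_sq ha (tk b j k) (syn ((b : ℝ) ^ (j + 1)) t' cN)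
  have i2 := Iso.integrable_co_sq ha (tk b j k) (syn ((b : ℝ) ^ (j + 1)) t' cF)
  have e1 := hB cN U t' h1 hUm hU h6
  have e2 := setIntegral_le_card hb j S hU
    (f := co ((b : ℝ) ^ j) (tk b j k) (syn ((b : ℝ) ^ (j + 1)) t' cF))
    (B := 2 ^ d * Real.exp (-Real.pi * s) * ‖h‖ ^ 2) (by positivity) fun β hβ => by
      obtain ⟨ν, g1, g2⟩ := hU β hβ
      refine (norm_co_syn_far ha (pow_pos hb1 _) _ t' h2 β (s := s) fun β' h' => ?_).trans
        (mul_le_mul_of_nonneg_left h5 (by positivity))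
      obtain ⟨γ, f1, f2, f3, f4⟩ := h7 β' h'
      have := hfar ν g1 γ f1 f2 f3 β g2 β' f4
      rwa [f2] at this
  rw [sum_mass_eq hb hA al M h j k S hS, ← h4]
  calc ∫ β in U, ‖coef b (Aset b A al) M h j k β‖ ^ 2
      ≤ ∫ β in U, (2 * ‖co ((b : ℝ) ^ j) (tk b j k) (syn ((b : ℝ) ^ (j + 1)) t' cN) β‖ ^ 2 +
          2 * ‖co ((b : ℝ) ^ j) (tk b j k) (syn ((b : ℝ) ^ (j + 1)) t' cF) β‖ ^ 2) := by
        refine integral_mono_of_nonneg (Filter.Eventually.of_forall fun β => by positivity)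
          ((i1.const_mul 2).add (i2.const_mul 2)).integrableOn
          (Filter.Eventually.of_forall fun β => ?_)
        simp only [coef]
        rw [h3, Iso.co_add, Pi.add_apply]
        exact norm_add_sq_le_two _ _
    _ = 2 * (∫ β in U, ‖co ((b : ℝ) ^ j) (tk b j k) (syn ((b : ℝ) ^ (j + 1)) t' cN) β‖ ^ 2) +
          2 * ∫ β in U, ‖co ((b : ℝ) ^ j) (tk b j k) (syn ((b : ℝ) ^ (j + 1)) t' cF) β‖ ^ 2 := by
        rw [integral_add (i1.const_mul 2).integrableOn (i2.const_mul 2).integrableOn,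
          integral_const_mul, integral_const_mul]
    _ ≤ _ := by nlinarith


/-- fact (2') -/
theorem fact_spread {b : ℕ} (hb : 1 ≤ b) {A : ℕ → ℤ → Set (Ph d)}
    (hA : ∀ j k, MeasurableSet (A j k))
    (al : ℕ → Finset (Node d)) {M : ℕ} (h : L2 d) {j : ℕ} (hj : j < M) (k : ℤ)
    (S : Finset (Node d)) (hS : ∀ ν ∈ S, ν.1 = k)
    (Nr : Finset (Node d)) (hNr : Nr ⊆ al (j + 1)) (hw : ∀ γ ∈ Nr, γ.1 = k / ((b ^ 2 : ℕ) : ℤ))
    {s : ℝ}
    (hfar : ∀ ν ∈ S, ∀ γ ∈ al (j + 1), γ.1 = k / ((b ^ 2 : ℕ) : ℤ) → γ ∉ Nr →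
      ∀ β ∈ tile b j ν, ∀ β' ∈ tile b (j + 1) γ,
        s ≤ Qf ((b : ℝ) ^ j) (tk b j k) ((b : ℝ) ^ (j + 1)) (tk b (j + 1) γ.1) (β - β'))
    (U : Submodule ℝ (V d)) (ζ₀ u : V d) {w th : ℝ} (hw' : 1 / (b : ℝ) ^ (j + 1) ≤ w) (hth : 0 < th)
    (hpos : ∀ ν ∈ S, ∀ β ∈ tile b j ν, ‖U.starProjection (pos (tk b j k) β - u)‖ ≤ th)
    (hfr : ∀ γ ∈ Nr, ∀ β' ∈ tile b (j + 1) γ, ‖U.starProjection (β'.2 - ζ₀)‖ ≤ w) :
    ∑ ν ∈ S, mass b A al M h j ν ≤
      2000 * 2 ^ d * (2 * th * w) ^ (Module.finrank ℝ U) * ∑ γ ∈ Nr, mass b A al M h (j + 1) γ +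
      2 * S.card * 2 ^ d * Real.exp (-Real.pi * s) * ‖h‖ ^ 2 := by
  have hb1 : (0 : ℝ) < b := by exact_mod_cast hb
  have := two_gen hb hA al h hj k S hS Nr hNr hw hfar
    (B := 1000 * 2 ^ d * (2 * th * w) ^ (Module.finrank ℝ U)) fun c U' t' hc hU h1 h2 =>
      spread U (pow_pos hb1 j) (pow_pos hb1 _) _ t' hc ζ₀ u hw' hth
        (fun β' h' => let ⟨γ, g1, g2⟩ := h2 β' h'; hfr γ g1 β' g2) hU
        fun β hβ => let ⟨ν, g1, g2⟩ := h1 β hβ; hpos ν g1 β g2
  refine this.trans (le_of_eq ?_)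
  ring

/-- bottom of the tower -/
theorem fact_bottom {b : ℕ} (hb : 1 ≤ b) {A : ℕ → ℤ → Set (Ph d)}
    (hA : ∀ j k, MeasurableSet (A j k)) (al : ℕ → Finset (Node d)) (M : ℕ) (h : L2 d)
    (z : V d × ℝ) (Nr : Finset (Node d)) (hNr : Nr ⊆ al 0) (hw : ∀ γ ∈ Nr, γ.1 = win b 0 z.2)
    {s μ : ℝ} (hμ : ∀ γ ∈ Nr, mass b A al M h 0 γ ≤ μ) (hμ0 : 0 ≤ μ)
    (hfar : ∀ γ ∈ al 0, γ.1 = win b 0 z.2 → γ ∉ Nr → ∀ β' ∈ tile b 0 γ,
        s ≤ Qf 1 z.2 1 (tk b 0 γ.1) ((z.1, 0) - β')) :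
    ‖inner ℂ (pt z) (tower b (Aset b A al) 0 M h z.2)‖ ^ 2 ≤ 2 * (Nr.card : ℝ) ^ 2 * μ +
      2 * 2 ^ d * Real.exp (-Real.pi * s) * ‖h‖ ^ 2 := by
  refine (point_bound hb hA al h (Nat.zero_le M) Nr hNr hw rfl one_pos (z.1, 0) hμ
    (s := s) (by simpa using hfar)).trans ?_
  have h1 := pre_le_one (d := d) one_pos (show (0 : ℝ) < (b : ℝ) ^ 0 by simp) z.2
    (tk b 0 (win b 0 z.2))
  have h2 := pre_pos (d := d) one_pos (show (0 : ℝ) < (b : ℝ) ^ 0 by simp) z.2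
    (tk b 0 (win b 0 z.2))
  have h3 : pre d 1 z.2 ((b : ℝ) ^ 0) (tk b 0 (win b 0 z.2)) ^ 2 ≤ 1 := pow_le_one₀ h2.le h1
  have h4 : 0 ≤ 2 * (Nr.card : ℝ) ^ 2 * μ := by positivity
  nlinarith

/-- coefficients away from the support of `h` -/
theorem co_far_supp {a : ℝ} (ha : 0 < a) (t : ℝ) (h : L2 d) (β : Ph d) {ρ : ℝ} (hρ : 0 ≤ ρ)
    (hs : ∀ᵐ ξ : V d, ‖ξ - β.2‖ < ρ → h ξ = 0) :
    ‖co a t h β‖ ^ 2 ≤ 2 ^ d * Real.exp (-Real.pi * a ^ 2 * ρ ^ 2) * ‖h‖ ^ 2 := by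
  have hpi := Real.pi_pos
  set S : Set (V d) := {ξ | ρ ≤ ‖ξ - β.2‖}
  have hS : MeasurableSet S := (isClosed_le continuous_const (by fun_prop)).measurableSet
  have hg : MemLp (S.indicator (gamF a t β)) 2 volume := (memLp_gamF ha t β).indicator hS
  have h1 : co a t h β = inner ℂ (hg.toLp _) h := by
    rw [co_eq ha, L2.inner_def]
    refine integral_congr_ae ?_
    filter_upwards [hs, hg.coeFn_toLp] with ξ e1 e2
    rw [e2]
    by_cases hξ : ξ ∈ S
    · rw [indicator_of_mem hξ]; simp [mul_comm]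
    · rw [e1 (not_le.1 hξ)]; simp
  have h2 : ‖hg.toLp _‖ ^ 2 ≤ 2 ^ d * Real.exp (-Real.pi * a ^ 2 * ρ ^ 2) := by
    rw [← Iso.integral_norm_sq_L2]
    have hi := (Iso.integrable_gauss (d := d) (b := Real.pi * a ^ 2) (by positivity)).comp_sub_right
      β.2
    calc ∫ ξ, ‖(hg.toLp _ : V d → ℂ) ξ‖ ^ 2
        ≤ ∫ ξ, (2 * a ^ 2) ^ ((d : ℝ) / 2) * Real.exp (-Real.pi * a ^ 2 * ρ ^ 2) *
            Real.exp (-(Real.pi * a ^ 2) * ‖ξ - β.2‖ ^ 2) := by
          refine integral_mono_of_nonneg (Filter.Eventually.of_forall fun _ => by positivity)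
            (hi.const_mul _) ?_
          filter_upwards [hg.coeFn_toLp] with ξ e2
          rw [e2]
          by_cases hξ : ξ ∈ S
          · rw [indicator_of_mem hξ, Iso.sq_norm_gamF,
              mul_assoc ((2 * a ^ 2) ^ ((d : ℝ) / 2)), ← Real.exp_add]
            refine mul_le_mul_of_nonneg_left (Real.exp_le_exp.2 ?_) (by positivity)
            have : ρ ^ 2 ≤ ‖ξ - β.2‖ ^ 2 := pow_le_pow_left₀ hρ hξ 2
            nlinarith [mul_le_mul_of_nonneg_left this (show 0 ≤ Real.pi * a ^ 2 by positivity)]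
          · rw [indicator_of_notMem hξ, norm_zero, zero_pow two_ne_zero]; positivity
      _ = (2 * a ^ 2) ^ ((d : ℝ) / 2) * Real.exp (-Real.pi * a ^ 2 * ρ ^ 2) *
            (Real.pi / (Real.pi * a ^ 2)) ^ ((d : ℝ) / 2) := by
          rw [integral_const_mul, integral_sub_right_eq_self
            (fun ξ : V d => Real.exp (-(Real.pi * a ^ 2) * ‖ξ‖ ^ 2)),
            Iso.integral_gauss (by positivity)]
      _ = (2 : ℝ) ^ ((d : ℝ) / 2) * Real.exp (-Real.pi * a ^ 2 * ρ ^ 2) := by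
          rw [mul_right_comm, ← Real.mul_rpow (by positivity) (by positivity)]
          congr 2; field_simp
      _ ≤ _ := by
          refine mul_le_mul_of_nonneg_right ?_ (Real.exp_pos _).le
          rw [← Real.rpow_natCast]
          exact Real.rpow_le_rpow_of_exponent_le one_le_two
            (by have : (0 : ℝ) ≤ d := Nat.cast_nonneg d; linarith)
  rw [h1]
  refine (pow_le_pow_left₀ (norm_nonneg _) (norm_inner_le_norm _ _) 2).trans ?_
  rw [mul_pow]
  exact mul_le_mul_of_nonneg_right h2 (by positivity)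

/-- top level nodes of positive mass have frequencies near the support of `h` -/
theorem mass_top_far {b : ℕ} (hb : 1 ≤ b) (A : ℕ → ℤ → Set (Ph d))
    (al : ℕ → Finset (Node d)) (M : ℕ) (h : L2 d) (ν : Node d) {ρ : ℝ} (hρ : 0 ≤ ρ)
    (hs : ∀ β ∈ tile b M ν, ∀ᵐ ξ : V d, ‖ξ - β.2‖ < ρ → h ξ = 0) :
    mass b A al M h M ν ≤ 2 ^ d * Real.exp (-Real.pi * ((b : ℝ) ^ M) ^ 2 * ρ ^ 2) * ‖h‖ ^ 2 := by
  refine mass_le_of_sup hb A al M h M ν (by positivity) fun β hβ => ?_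
  rw [coef, tower_top]
  exact co_far_supp (pow_pos (by exact_mod_cast hb) _) _ h β hρ (hs β hβ)

end Crest.Agent.N76.T
end

-- ▼ part N76/L/BuildGeo

/-! # Row 76, Part I: geometry of tiles for the realisation of the abstract tower (helper13). -/

set_option autoImplicit false

open MeasureTheory Finset Metric Filter
open scoped RealInnerProductSpace Topology

namespace Crest.Agent.N76.L

open Crest.Agent.N76.Red (V)
open Crest.Agent.N76.G

variable {n : ℕ}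

theorem tile_eq (k i : ℕ) (c : Nd n) : T.tile k i c = tile k i c := by
  ext β
  simp only [T.tile, tile, T.idx, Set.mem_ofPred_eq, Prod.ext_iff, fl, funext_iff, PiLp.smul_apply,
    smul_eq_mul, div_eq_inv_mul]
  rfl

theorem tile_fq {k : ℕ} (hk : 1 ≤ k) {i : ℕ} {c : Nd n} {β : Ph n} (h : β ∈ tile k i c) :
    ‖β.2 - fq k i c‖ ≤ n / (k : ℝ) ^ i := by
  have hk0 : (0 : ℝ) < (k : ℝ) ^ i := pow_pos (by exact_mod_cast hk) _
  have h1 := norm_sub_iv_fl ((k : ℝ) ^ i • β.2)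
  rw [h.2] at h1
  have e : β.2 - fq k i c = ((k : ℝ) ^ i)⁻¹ • ((k : ℝ) ^ i • β.2 - iv c.2.2) := by
    rw [smul_sub, inv_smul_smul₀ hk0.ne', fq]
  rw [e, norm_smul, norm_inv, Real.norm_of_nonneg hk0.le, div_eq_inv_mul]
  gcongr

theorem tile_ctr {k : ℕ} (hk : 1 ≤ k) {i : ℕ} {c : Nd n} {β : Ph n} (h : β ∈ tile k i c) :
    ‖pos (tm k i c) β - ctr k i c‖ ≤ n * (k : ℝ) ^ i := by
  have hk0 : (0 : ℝ) < (k : ℝ) ^ i := pow_pos (by exact_mod_cast hk) _
  have h1 := norm_sub_iv_fl (((k : ℝ) ^ i)⁻¹ • pos (tm k i c) β)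
  rw [h.1] at h1
  have e : pos (tm k i c) β - ctr k i c =
      (k : ℝ) ^ i • (((k : ℝ) ^ i)⁻¹ • pos (tm k i c) β - iv c.2.1) := by
    rw [smul_sub, smul_inv_smul₀ hk0.ne', ctr]
  rw [e, norm_smul, Real.norm_of_nonneg hk0.le, mul_comm]
  gcongr

theorem tile_ps {k : ℕ} (hk : 1 ≤ k) {i : ℕ} {c : Nd n} {β : Ph n} (h : β ∈ tile k i c) {t : ℝ}
    (ht : |t - tm k i c| ≤ (k : ℝ) ^ (2 * i)) : ‖pos t β - ps k i c t‖ ≤ 3 * n * (k : ℝ) ^ i := by
  have hk0 : (0 : ℝ) < (k : ℝ) ^ i := pow_pos (by exact_mod_cast hk) _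
  have e : pos t β - ps k i c t =
      (pos (tm k i c) β - ctr k i c) - (2 * (t - tm k i c)) • (β.2 - fq k i c) := by
    rw [T.pos_eq_pos t (tm k i c), ps, smul_sub]; abel
  rw [e]
  refine (norm_sub_le _ _).trans ?_
  rw [norm_smul, Real.norm_eq_abs, abs_mul, abs_two]
  have h1 : 2 * |t - tm k i c| * ‖β.2 - fq k i c‖ ≤ 2 * (k : ℝ) ^ (2 * i) * (n / (k : ℝ) ^ i) := by
    have := tile_fq hk h
    gcongr
  have h2 : 2 * (k : ℝ) ^ (2 * i) * (n / (k : ℝ) ^ i) = 2 * n * (k : ℝ) ^ i := by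
    rw [two_mul i, pow_add]; field_simp
  linarith [tile_ctr hk h]

theorem Qf_far {a a' t t' Λ : ℝ} (ha : 0 < a) (haa : a ≤ a') (ht : |t - t'| ≤ a' ^ 2) (hΛ : 0 ≤ Λ)
    {Δ : Ph n} (h : Λ / 2 * a' ≤ ‖pos t Δ‖ ∨ Λ / 2 ≤ a * ‖Δ.2‖) : Λ ^ 2 / 32 ≤ Qf a t a' t' Δ := by
  have ha' : 0 < a' := ha.trans_le haa
  refine le_trans ?_ (Qf_ge ha haa ht Δ)
  rcases h with h | h
  · refine le_add_of_le_of_nonneg ?_ (by positivity)
    rw [le_div_iff₀ (by positivity)]
    have := pow_le_pow_left₀ (by positivity) h 2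
    nlinarith
  · refine le_add_of_nonneg_of_le (by positivity) ?_
    have := pow_le_pow_left₀ (by positivity) h 2
    nlinarith

theorem far_step {k : ℕ} (hk : 1 ≤ k) {Λ : ℝ} (hΛ : 8 * (n : ℝ) ≤ Λ) {j : ℕ} {c c' : Nd n}
    (hw : c'.1 = c.1 / ((k ^ 2 : ℕ) : ℤ)) (hN : ¬ Nr k Λ j (j + 1) c c') {β β' : Ph n}
    (hβ : β ∈ T.tile k j c) (hβ' : β' ∈ T.tile k (j + 1) c') :
    Λ ^ 2 / 32 ≤ Qf ((k : ℝ) ^ j) (T.tk k j c.1) ((k : ℝ) ^ (j + 1)) (T.tk k (j + 1) c'.1)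
      (β - β') := by
  rw [tile_eq] at hβ hβ'
  have hk1 : (1 : ℝ) ≤ k := by exact_mod_cast hk
  have hn : (0 : ℝ) ≤ n := Nat.cast_nonneg n
  have ha : (0 : ℝ) < (k : ℝ) ^ j := by positivity
  have haa : (k : ℝ) ^ j ≤ (k : ℝ) ^ (j + 1) := pow_le_pow_right₀ hk1 (Nat.le_succ j)
  have hw' : c'.1 = c.1 / (k : ℤ) ^ (2 * (j + 1 - j)) := by
    rw [hw, Nat.add_sub_cancel_left]; push_cast; rfl
  have ht : |tm k j c - tm k (j + 1) c'| ≤ (k : ℝ) ^ (2 * (j + 1)) :=
    abs_tm_sub_le hk (Nat.le_add_right j 1) hw'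
  refine Qf_far ha haa (by rw [← pow_mul, mul_comm]; exact ht) (by linarith) ?_
  by_contra hc
  push Not at hc
  refine hN ⟨hw', ?_, ?_⟩
  · have h1 := tile_fq hk hβ
    have h2 := (tile_fq hk hβ').trans (div_le_div_of_nonneg_left hn ha haa)
    have h3 : ‖(β - β').2‖ ≤ Λ / 2 / (k : ℝ) ^ j := by
      rw [le_div_iff₀ ha, mul_comm]; exact hc.2.le
    have e : fq k (j + 1) c' - fq k j c =
        (β.2 - fq k j c) - (β'.2 - fq k (j + 1) c') - (β - β').2 := by
      rw [Prod.snd_sub]; abel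
    rw [e]
    refine (norm_sub_le _ _).trans ((add_le_add (norm_sub_le _ _) le_rfl).trans ?_)
    refine (add_le_add (add_le_add h1 h2) h3).trans ?_
    rw [← add_div, ← add_div]
    push_cast
    gcongr
    linarith
  · have h1 := (tile_ctr hk hβ).trans (mul_le_mul_of_nonneg_left haa hn)
    have h2 := tile_ps hk hβ' ht
    have h3 : ‖pos (tm k j c) (β - β')‖ ≤ Λ / 2 * (k : ℝ) ^ (j + 1) := hc.1.le
    have e : ps k (j + 1) c' (tm k j c) - ctr k j c =
        (pos (tm k j c) β - ctr k j c) - (pos (tm k j c) β' - ps k (j + 1) c' (tm k j c)) -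
          pos (tm k j c) (β - β') := by
      rw [pos_sub]; abel
    rw [e]
    refine (norm_sub_le _ _).trans ((add_le_add (norm_sub_le _ _) le_rfl).trans ?_)
    refine (add_le_add (add_le_add h1 h2) h3).trans ?_
    push_cast
    nlinarith

theorem far_bottom {k : ℕ} (hk : 1 ≤ k) {Λ : ℝ} (hΛ : 8 * (n : ℝ) ≤ Λ) {z : V n × ℝ} {c : Nd n}
    (hw : c.1 = win k 0 z.2) (hN : ¬ (z ∈ box k Λ 0 c ∧ ‖fq k 0 c‖ ≤ Λ)) {β : Ph n}
    (hβ : β ∈ T.tile k 0 c) : Λ ^ 2 / 32 ≤ Qf 1 z.2 1 (T.tk k 0 c.1) ((z.1, 0) - β) := by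
  rw [tile_eq] at hβ
  have hn : (0 : ℝ) ≤ n := Nat.cast_nonneg n
  have ht : |z.2 - tm k 0 c| ≤ (k : ℝ) ^ (2 * 0) := by
    have := T.wt_le hk 0 z.2
    rw [T.wt_eq_tk, ← hw] at this
    rw [abs_le]
    constructor <;> nlinarith [this.1, this.2, show T.tk k 0 c.1 = tm k 0 c from rfl,
      show (k : ℝ) ^ (2 * 0) = 1 by simp]
  refine Qf_far one_pos le_rfl (ht.trans (by simp)) (by linarith) ?_
  by_contra hc
  push Not at hc
  refine hN ⟨⟨hw.symm, ?_⟩, ?_⟩
  · have h2 := tile_ps hk hβ ht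
    have e : z.1 - ps k 0 c z.2 = pos z.2 ((z.1, 0) - β) + (pos z.2 β - ps k 0 c z.2) := by
      rw [pos_sub]; simp [pos]
    rw [e]
    refine (norm_add_le _ _).trans ((add_le_add hc.1.le h2).trans ?_)
    simp only [pow_zero, Nat.cast_zero]
    linarith
  · have h1 := tile_fq hk hβ
    have e : fq k 0 c = -((((z.1, 0) : Ph n) - β).2) - (β.2 - fq k 0 c) := by simp
    rw [e]
    refine (norm_sub_le _ _).trans ?_
    rw [norm_neg]
    simp only [pow_zero, div_one] at h1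
    linarith [hc.2]

/-- the span of the normal directions -/
noncomputable def nsp (O : OrthonormalBasis (Fin n) ℝ (V n)) (κ : ℕ) : Submodule ℝ (V n) :=
  Submodule.span ℝ (Set.range fun l : {l : Fin n // κ ≤ (l : ℕ)} => O l)

theorem finrank_nsp (O : OrthonormalBasis (Fin n) ℝ (V n)) (κ : ℕ) :
    Module.finrank ℝ (nsp O κ) = n - κ := by
  rw [nsp, finrank_span_eq_card (b := fun l : {l : Fin n // κ ≤ (l : ℕ)} => O l)
    (O.orthonormal.comp _ Subtype.val_injective).linearIndependent, Fintype.card_subtype]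
  have h1 := card_filter_add_card_filter_not (s := (univ : Finset (Fin n)))
    (fun l => (l : ℕ) < κ)
  simp only [not_lt, card_univ, Fintype.card_fin, Fin.card_filter_val_lt] at h1
  omega

theorem norm_proj_le (O : OrthonormalBasis (Fin n) ℝ (V n)) (κ : ℕ) {y : V n} {w : ℝ} (hw : 0 ≤ w)
    (h : ∀ l : Fin n, κ ≤ (l : ℕ) → |⟪O l, y⟫| ≤ w) : ‖(nsp O κ).starProjection y‖ ≤ n * w := by
  refine norm_le_of_inner O _ hw fun l => ?_
  by_cases hl : κ ≤ (l : ℕ)
  · rw [← Submodule.inner_starProjection_left_eq_right,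
      Submodule.starProjection_eq_self_iff.2
        (show O l ∈ nsp O κ from Submodule.subset_span ⟨⟨l, hl⟩, rfl⟩)]
    exact h l hl
  · have : O l ∈ (nsp O κ)ᗮ := by
      rw [nsp, Submodule.mem_orthogonal']
      intro u hu
      induction hu using Submodule.span_induction with
      | mem x hx =>
        obtain ⟨l', rfl⟩ := hx
        exact O.orthonormal.2 fun e => hl (e ▸ l'.2)
      | zero => simp
      | add x y _ _ h1 h2 => rw [inner_add_right, h1, h2, add_zero]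
      | smul a x _ h1 => rw [inner_smul_right, h1, mul_zero]
    rw [(Submodule.mem_orthogonal' _ _).1 this _ (Submodule.starProjection_apply_mem _ _), abs_zero]
    exact hw

theorem proj_le_of_slab (O : OrthonormalBasis (Fin n) ℝ (V n)) (κ : ℕ) {x x₀ x' : V n} {w r : ℝ}
    (hw : 0 ≤ w) (hr : 0 ≤ r) (h : Slab O κ x₀ w x) (h' : ‖x' - x‖ ≤ r) :
    ‖(nsp O κ).starProjection (x' - x₀)‖ ≤ n * (w + r) := by
  refine norm_proj_le O κ (by positivity) fun l hl => ?_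
  rw [show x' - x₀ = (x - x₀) + (x' - x) by abel, inner_add_right]
  exact (abs_add_le _ _).trans (add_le_add (h l hl) ((abs_inner_le_norm O l _).trans h'))

/-- the asymptotic conditions on `Λ = k ^ (1 / N)` -/
theorem asym (N A B : ℕ) (hN : 1 ≤ N) (C : ℝ) (hC : 0 ≤ C) :
    ∃ k₀ : ℕ, ∀ k : ℕ, k₀ ≤ k → ∃ Λ : ℝ, C ≤ Λ ∧ Λ ^ N = k ∧
      C * ((A * (Nat.log 2 k + 1) + 1 : ℕ) : ℝ) ^ B ≤ Λ ∧
      C * (k : ℝ) ^ A * Real.exp (-Real.pi * (Λ ^ 2 / 32)) ≤ 1 := by
  have hN0 : (0 : ℝ) < N := by exact_mod_cast hN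
  have t0 : Tendsto (fun k : ℕ => (k : ℝ) ^ (1 / (N : ℝ))) atTop atTop :=
    (tendsto_rpow_atTop (by positivity)).comp tendsto_natCast_atTop_atTop
  set D : ℝ := (A : ℝ) * (2 * N + 1) + 1 with hD
  have e1 : ∀ᶠ x : ℝ in atTop, (C + 1) * D ^ B * Real.log x ^ B ≤ x := by
    have := (Real.isLittleO_pow_log_id_atTop (n := B)).bound
      (show 0 < 1 / ((C + 1) * D ^ B) by positivity)
    filter_upwards [this, eventually_ge_atTop 1] with x hx h1
    rw [Real.norm_of_nonneg (pow_nonneg (Real.log_nonneg h1) _), id,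
      Real.norm_of_nonneg (by linarith), one_div, ← div_eq_inv_mul,
      le_div_iff₀ (by positivity)] at hx
    linarith
  have e2 : ∀ᶠ x : ℝ in atTop, (C + 1) * (x ^ (N * A) * Real.exp (-x)) ≤ 1 := by
    have := (Real.tendsto_pow_mul_exp_neg_atTop_nhds_zero (N * A)).const_mul (C + 1)
    rw [mul_zero] at this
    exact this.eventually (ge_mem_nhds one_pos)
  obtain ⟨k₀, hk₀⟩ := eventually_atTop.1 ((t0.eventually e1).and ((t0.eventually e2).and
    ((t0.eventually (eventually_ge_atTop (max C 32))).and (eventually_ge_atTop 1))))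
  refine ⟨k₀, fun k hk => ?_⟩
  obtain ⟨h1, h2, h3, h4⟩ := hk₀ k hk
  set Λ : ℝ := (k : ℝ) ^ (1 / (N : ℝ)) with hΛ
  have hΛN : Λ ^ N = k := by
    rw [hΛ, one_div]; exact Real.rpow_inv_natCast_pow (Nat.cast_nonneg k) (by omega)
  have h32 : 32 ≤ Λ := (le_max_right _ _).trans h3
  refine ⟨Λ, (le_max_left _ _).trans h3, hΛN, le_trans ?_ h1, le_trans ?_ h2⟩
  · have hl : 1 ≤ Real.log Λ := by
      rw [Real.le_log_iff_exp_le (by linarith)]
      linarith [Real.exp_one_lt_d9]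
    have hlog : (Nat.log 2 k : ℝ) ≤ 2 * N * Real.log Λ := by
      have g1 : ((2 : ℝ)) ^ Nat.log 2 k ≤ k := by exact_mod_cast Nat.pow_log_le_self 2 (by omega)
      have g2 := Real.log_le_log (by positivity) g1
      rw [Real.log_pow, ← hΛN, Real.log_pow] at g2
      have g3 := Real.log_two_gt_d9
      have g4 : (0 : ℝ) ≤ Nat.log 2 k := Nat.cast_nonneg _
      nlinarith
    rw [mul_assoc, ← mul_pow]
    refine mul_le_mul (by linarith) (pow_le_pow_left₀ (Nat.cast_nonneg _) ?_ B) (by positivity)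
      (by linarith)
    push_cast
    have hA : (0 : ℝ) ≤ A := Nat.cast_nonneg A
    rw [hD]
    nlinarith [mul_le_mul_of_nonneg_left hlog hA, mul_le_mul_of_nonneg_left hl hA]
  · rw [← hΛN, ← pow_mul, mul_assoc]
    refine mul_le_mul (by linarith) (mul_le_mul_of_nonneg_left (Real.exp_le_exp.2 ?_)
      (by positivity)) (by positivity) (by linarith)
    nlinarith [Real.pi_gt_three]

/-- dyadic label -/
noncomputable def dyl (L : ℕ) (q : ℝ) : Fin (L + 1) :=
  if h : 1 ≤ q ∧ q ≤ 2 ^ L then Classical.choose (T.exists_dyadic h.1 h.2) else 0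

theorem dyl_spec {L : ℕ} {q : ℝ} (h1 : 1 ≤ q) (h2 : q ≤ 2 ^ L) :
    (2 : ℝ) ^ (dyl L q : ℕ) ≤ q ∧ q ≤ 2 * 2 ^ (dyl L q : ℕ) := by
  rw [dyl, dif_pos ⟨h1, h2⟩]
  exact Classical.choose_spec (T.exists_dyadic h1 h2)

end Crest.Agent.N76.L
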